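import Vale.Agent.P006.SG.Lat

/-!
P006, block SG: the sign argument.  From the difference identity `Θ(0,v) = Θ(0,1/v)` at `v = 6/5`
for `Θ(0,v) = c₀ v^{2/3} + ∑_{m ≠ 0} ρ(m) v^{2/3} G((a√N(m) v)²)`, together with Parseval's
inequality on the strip `v > 1/3`, the value `ρ(1)` is shown to be positive.
-/

open Real

namespace Vale.Agent.P006.SG

theorem three_ne_zero_O : (3 : O) ≠ 0 := by decide

theorem three_mul_injective : Function.Injective (fun m : O => 3 * m) := fun _ _ h =>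
  mul_left_cancel₀ three_ne_zero_O h

theorem sqrt_N_one_le {m : O} (hm : m ≠ 0) : 1 ≤ √(N m) := by
  rw [Real.one_le_sqrt]
  exact_mod_cast N_pos hm

theorem four_le_N {m : O} (h : (3 : O) ∣ m - 1 ∨ (3 : O) ∣ m + 1) (h1 : m ≠ 1) (h2 : m ≠ -1) :
    2 ≤ √(N m) := by
  have him : (3 : ℤ) ∣ m.im := by
    rcases h with h | h
    · have := ((three_dvd_iff _).1 h).2
      simpa [QuadraticAlgebra.im_one] using this
    · have := ((three_dvd_iff _).1 h).2
      simpa [QuadraticAlgebra.im_one] using this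
  by_cases h0 : m.im = 0
  · rw [sqrt_N_re h0]
    have : (2 : ℤ) ≤ |m.re| := by
      by_contra hlt
      have h3 : |m.re| ≤ 1 := by omega
      have h4 := abs_le.1 h3
      have h5 : m.re = -1 ∨ m.re = 0 ∨ m.re = 1 := by omega
      rcases h5 with h5 | h5 | h5
      · exact h2 (QuadraticAlgebra.ext (by simp [h5, QuadraticAlgebra.re_one])
          (by simp [h0, QuadraticAlgebra.im_one]))
      · rcases h with h | h
        · have := ((three_dvd_iff _).1 h).1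
          simp only [QuadraticAlgebra.re_sub, h5, QuadraticAlgebra.re_one] at this
          omega
        · have := ((three_dvd_iff _).1 h).1
          simp only [QuadraticAlgebra.re_add, h5, QuadraticAlgebra.re_one] at this
          omega
      · exact h1 (QuadraticAlgebra.ext (by simp [h5, QuadraticAlgebra.re_one])
          (by simp [h0, QuadraticAlgebra.im_one]))
    exact_mod_cast this
  · have h3 := sqrt_N_ge m
    have h4 : (3 : ℤ) ≤ |m.im| := by
      obtain ⟨k, hk⟩ := him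
      rw [hk] at h0 ⊢
      have : k ≠ 0 := by rintro rfl; simp at h0
      have := Int.one_le_abs this
      rw [abs_mul]
      norm_num
      linarith
    have h5 : (3 : ℝ) ≤ |(m.im : ℝ)| := by exact_mod_cast h4
    have h6 : 0 ≤ |(m.re : ℝ) - m.im / 2| := abs_nonneg _
    linarith

/-- the total weight of the primary frequencies other than `±1` -/
theorem sum_kap_primary_le (s : Finset O) (hs : ∀ m ∈ s, ((3 : O) ∣ m - 1 ∨ (3 : O) ∣ m + 1))
    (h1 : (1 : O) ∉ s) (h2 : (-1 : O) ∉ s) :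
    ∑ m ∈ s, |kap (√(N m))| ≤ 0.0904 * √π := by
  have ha := aa_gt
  have hpos := aa_pos
  have hpi : 0 < √π := Real.sqrt_pos.2 Real.pi_pos
  have hle : ∀ m ∈ s, |kap (√(N m))| ≤ 0.789 * √π * exp (-(5 / 3 * aa * √(N m))) := by
    intro m hm
    have hm1 : m ≠ 1 := fun h => h1 (h ▸ hm)
    have hm2 : m ≠ -1 := fun h => h2 (h ▸ hm)
    have h2 := four_le_N (hs m hm) hm1 hm2
    set X := √(N m)
    refine (abs_kap_le (by linarith)).trans ?_
    have e1 : (6 / 5 : ℝ) ^ (-(1 / 2) : ℝ) * (aa * X) ^ (-(1 / 6) : ℝ) =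
        ((6 / 5) ^ 3 * (aa * X)) ^ (-(1 / 6) : ℝ) := by
      rw [Real.mul_rpow (x := (6 / 5) ^ 3) (y := aa * X) (by positivity) (by positivity),
        ← Real.rpow_natCast (6 / 5 : ℝ) 3, ← Real.rpow_mul (by norm_num)]
      norm_num
    rw [e1]
    have e2 : ((6 / 5) ^ 3 * (aa * X)) ^ (-(1 / 6) : ℝ) ≤ 0.789 := by
      refine rpow_sixth_le (by positivity) (by norm_num) ?_
      have : 1.2091 * 2 ≤ aa * X := by nlinarith
      norm_num
      linarith
    calc ((6 / 5) ^ 3 * (aa * X)) ^ (-(1 / 6) : ℝ) * (√π * exp (-(5 / 3 * aa * X)))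
        ≤ 0.789 * (√π * exp (-(5 / 3 * aa * X))) := by gcongr
      _ = _ := by ring
  refine (Finset.sum_le_sum hle).trans ?_
  rw [← Finset.mul_sum]
  have h3 := sum_primary_le s hs h1 h2
  calc 0.789 * √π * ∑ m ∈ s, exp (-(5 / 3 * aa * √(N m))) ≤ 0.789 * √π * 0.1145 := by gcongr
    _ ≤ _ := by nlinarith

/-- Cauchy–Schwarz for the frequencies divisible by `3` -/
theorem sum_kap_three_le (s : Finset O) (h0 : (0 : O) ∉ s) (hs : ∀ m ∈ s, (3 : O) ∣ m)
    (ρ : O → ℂ) (P : ℝ) (hP : ∑ m ∈ s, ‖ρ m‖ ^ 2 * Iw (√(N m)) ≤ P) :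
    (∑ m ∈ s, ‖ρ m‖ * |kap (√(N m))|) ^ 2 ≤ P * 0.01145 := by
  have ha := aa_pos
  have hI : ∀ m ∈ s, 0 < Iw (√(N m)) := by
    intro m hm
    have hm0 : m ≠ 0 := fun h => h0 (h ▸ hm)
    have := sqrt_N_one_le hm0
    exact Iw_pos (by linarith)
  have hP0 : 0 ≤ P := by
    refine le_trans (Finset.sum_nonneg fun m hm => ?_) hP
    have := hI m hm
    positivity
  have h1 := Finset.sum_mul_sq_le_sq_mul_sq s (fun m => ‖ρ m‖ * √(Iw (√(N m))))
    (fun m => |kap (√(N m))| / √(Iw (√(N m))))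
  have e1 : ∑ m ∈ s, ‖ρ m‖ * √(Iw (√(N m))) * (|kap (√(N m))| / √(Iw (√(N m)))) =
      ∑ m ∈ s, ‖ρ m‖ * |kap (√(N m))| := by
    refine Finset.sum_congr rfl fun m hm => ?_
    have := Real.sqrt_pos.2 (hI m hm)
    field_simp
  have e2 : ∑ m ∈ s, (‖ρ m‖ * √(Iw (√(N m)))) ^ 2 = ∑ m ∈ s, ‖ρ m‖ ^ 2 * Iw (√(N m)) := by
    refine Finset.sum_congr rfl fun m hm => ?_
    rw [mul_pow, Real.sq_sqrt (hI m hm).le]
  have e3 : ∑ m ∈ s, (|kap (√(N m))| / √(Iw (√(N m)))) ^ 2 ≤ 0.01145 := by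
    -- reindex by `m = 3 m'`
    set t : Finset O := s.preimage (fun m => 3 * m) three_mul_injective.injOn with ht
    have ht0 : (0 : O) ∉ t := by
      intro h
      rw [ht, Finset.mem_preimage] at h
      simp at h
      exact h0 h
    have hst : s = t.image (fun m => 3 * m) := by
      ext m
      simp only [ht, Finset.mem_image, Finset.mem_preimage]
      constructor
      · intro hm
        obtain ⟨k, rfl⟩ := hs m hm
        exact ⟨k, hm, rfl⟩
      · rintro ⟨k, hk, rfl⟩; exact hk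
    have hsum : ∑ m ∈ s, (|kap (√(N m))| / √(Iw (√(N m)))) ^ 2 =
        ∑ m ∈ t, (|kap (√(N (3 * m)))| / √(Iw (√(N (3 * m))))) ^ 2 := by
      rw [hst, Finset.sum_image fun a _ b _ h => three_mul_injective h]
    rw [hsum]
    have h3 : ∀ m ∈ t, (|kap (√(N (3 * m)))| / √(Iw (√(N (3 * m))))) ^ 2 ≤
        2.132 * (√(N m) * exp (-(6 * aa * √(N m)))) := by
      intro m hm
      have hm0 : m ≠ 0 := fun h => ht0 (h ▸ hm)
      have hX := sqrt_N_one_le hm0
      have e4 : √(N (3 * m)) = 3 * √(N m) := by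
        have : N (3 : O) = 9 := by decide
        rw [N_mul, this]
        push_cast
        rw [Real.sqrt_mul (by norm_num), show (9 : ℝ) = 3 ^ 2 by norm_num,
          Real.sqrt_sq (by norm_num)]
      rw [e4]
      set X := √(N m)
      have hIp : 0 < Iw (3 * X) := Iw_pos (by linarith)
      rw [div_pow, sq_abs, Real.sq_sqrt hIp.le, div_le_iff₀ hIp]
      have := kap_sq_le hX
      linarith
    refine (Finset.sum_le_sum h3).trans ?_
    rw [← Finset.mul_sum]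
    have h4 := sum_all_le t ht0
    linarith
  rw [e1, e2] at h1
  refine h1.trans ?_
  gcongr

/-- the sign of the first coefficient -/
theorem sign_pos (c₀ : ℝ) (ρ : O → ℂ) (hc₀ : 1 / 8 ≤ c₀)
    (hsym : ρ (-1) = ρ 1)
    (hsupp : ∀ m, ¬ (3 : O) ∣ m → ¬ (3 : O) ∣ m - 1 → ¬ (3 : O) ∣ m + 1 → ρ m = 0)
    (hle : ∀ m, ((3 : O) ∣ m - 1 ∨ (3 : O) ∣ m + 1) → ‖ρ m‖ ≤ ‖ρ 1‖)
    (hP : ∀ s : Finset O, (0 : O) ∉ s →
      c₀ ^ 2 * (3 / 2 * 3 ^ (2 / 3 : ℝ)) + ∑ m ∈ s, ‖ρ m‖ ^ 2 * Iw (√(N m)) ≤ c₀)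
    (hreal : (ρ 1).im = 0)
    (hsum : HasSum (fun m : {m : O // m ≠ 0} => ρ m * (kap (√(N (m : O))) : ℂ))
      ((c₀ * ((6 / 5 : ℝ) ^ (2 / 3 : ℝ) - (6 / 5 : ℝ) ^ (-(2 / 3) : ℝ)) : ℝ) : ℂ)) :
    0 < (ρ 1).re := by
  classical
  by_contra hneg
  rw [not_lt] at hneg
  have hpi : 0 < √π := Real.sqrt_pos.2 Real.pi_pos
  set R : ℝ := ‖ρ 1‖ with hR
  have hR0 : 0 ≤ R := norm_nonneg _
  have hRe : (ρ 1).re = -R := by
    have h1 : ρ 1 = ((ρ 1).re : ℂ) := by
      apply Complex.ext <;> simp [hreal]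
    rw [hR, h1, Complex.norm_real, Complex.ofReal_re, Real.norm_of_nonpos hneg]
    ring
  -- lower bound for the left side
  set L : ℝ := (6 / 5 : ℝ) ^ (2 / 3 : ℝ) - (6 / 5 : ℝ) ^ (-(2 / 3) : ℝ) with hL
  have hL1 : 0.2435 ≤ L := by
    have h1 : (1.1292 : ℝ) ≤ (6 / 5 : ℝ) ^ (2 / 3 : ℝ) := by
      have h2 := Real.rpow_le_rpow (by norm_num)
        (show (1.1292 : ℝ) ^ 3 ≤ (6 / 5) ^ 2 by norm_num) (show (0 : ℝ) ≤ 1 / 3 by norm_num)
      rw [← Real.rpow_natCast, ← Real.rpow_mul (by norm_num), ← Real.rpow_natCast,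
        ← Real.rpow_mul (by norm_num)] at h2
      norm_num at h2 ⊢
      exact h2
    have h3 : (6 / 5 : ℝ) ^ (-(2 / 3) : ℝ) ≤ 1 / 1.1292 := by
      rw [Real.rpow_neg (by norm_num), one_div]
      gcongr
    have h4 : (1 : ℝ) / 1.1292 ≤ 0.8856 := by norm_num
    rw [hL]; linarith
  -- a finite partial sum
  obtain ⟨u, hu⟩ := (Metric.tendsto_atTop.1 hsum) 0.0001 (by norm_num)
  have h10 : (1 : O) ≠ 0 := one_ne_zero
  have hm10 : (-1 : O) ≠ 0 := neg_ne_zero.2 one_ne_zero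
  have h1m1 : (1 : O) ≠ -1 := by
    intro h
    have := congrArg QuadraticAlgebra.re h
    simp [QuadraticAlgebra.re_one] at this
  set w : Finset {m : O // m ≠ 0} := u ∪ {⟨1, h10⟩, ⟨-1, hm10⟩} with hw
  have hdist := hu w Finset.subset_union_left
  set s : Finset O := w.map (Function.Embedding.subtype _) with hs
  have hs0 : (0 : O) ∉ s := by
    intro h
    obtain ⟨a, _, ha⟩ := Finset.mem_map.1 h
    exact a.2 ha
  have hs1 : (1 : O) ∈ s := Finset.mem_map.2 ⟨⟨1, h10⟩, by simp [hw], rfl⟩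
  have hsm1 : (-1 : O) ∈ s := Finset.mem_map.2 ⟨⟨-1, hm10⟩, by simp [hw], rfl⟩
  have hsumeq : ∑ m ∈ w, ρ m * (kap (√(N (m : O))) : ℂ) = ∑ m ∈ s, ρ m * (kap (√(N m)) : ℂ) := by
    rw [hs, Finset.sum_map]; rfl
  rw [hsumeq] at hdist
  set s' := (s.erase 1).erase (-1) with hs'
  have hm1mem : (-1 : O) ∈ s.erase 1 := Finset.mem_erase.2 ⟨h1m1.symm, hsm1⟩
  have hsplit : ∑ m ∈ s, ρ m * (kap (√(N m)) : ℂ) =
      2 * (ρ 1 * (kap 1 : ℂ)) + ∑ m ∈ s', ρ m * (kap (√(N m)) : ℂ) := by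
    rw [← Finset.add_sum_erase s _ hs1, ← Finset.add_sum_erase (s.erase 1) _ hm1mem]
    simp only [hsym, N_neg, N_one, Nat.cast_one, Real.sqrt_one]
    ring
  set s3 := s'.filter (fun m => (3 : O) ∣ m) with hs3
  set s2 := s'.filter (fun m => (3 : O) ∣ m - 1 ∨ (3 : O) ∣ m + 1) with hs2
  have hsplit2 : ∑ m ∈ s', ρ m * (kap (√(N m)) : ℂ) =
      ∑ m ∈ s3, ρ m * (kap (√(N m)) : ℂ) + ∑ m ∈ s2, ρ m * (kap (√(N m)) : ℂ) := by
    rw [← Finset.sum_filter_add_sum_filter_not s' (fun m => (3 : O) ∣ m)]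
    congr 1
    symm
    refine Finset.sum_subset ?_ ?_
    · intro m hm
      obtain ⟨hm1, hm2⟩ := Finset.mem_filter.1 hm
      refine Finset.mem_filter.2 ⟨hm1, fun h3 => ?_⟩
      have h1 : ¬ (3 : O) ∣ 1 := by
        rw [three_dvd_iff]
        simp [QuadraticAlgebra.re_one]
      rcases hm2 with h | h
      · exact h1 (by simpa using dvd_sub h3 h)
      · exact h1 (by simpa using dvd_sub h h3)
    · intro m hm hm2
      obtain ⟨hm1, hm3⟩ := Finset.mem_filter.1 hm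
      have h4 : ¬ ((3 : O) ∣ m - 1 ∨ (3 : O) ∣ m + 1) := fun h =>
        hm2 (Finset.mem_filter.2 ⟨hm1, h⟩)
      push Not at h4
      rw [hsupp m hm3 h4.1 h4.2, zero_mul]
  -- bound of the primary part
  have hB2 : ‖∑ m ∈ s2, ρ m * (kap (√(N m)) : ℂ)‖ ≤ R * (0.0904 * √π) := by
    refine (norm_sum_le _ _).trans ?_
    have h1 : ∀ m ∈ s2, ‖ρ m * (kap (√(N m)) : ℂ)‖ ≤ R * |kap (√(N m))| := by
      intro m hm
      rw [norm_mul, Complex.norm_real, Real.norm_eq_abs]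
      exact mul_le_mul_of_nonneg_right (hle m (Finset.mem_filter.1 hm).2) (abs_nonneg _)
    refine (Finset.sum_le_sum h1).trans ?_
    rw [← Finset.mul_sum]
    refine mul_le_mul_of_nonneg_left (sum_kap_primary_le s2 (fun m hm => (Finset.mem_filter.1 hm).2)
      ?_ ?_) hR0
    · intro h
      have := (Finset.mem_erase.1 (Finset.mem_erase.1 (Finset.mem_filter.1 h).1).2).1
      exact this rfl
    · intro h
      have := (Finset.mem_erase.1 (Finset.mem_filter.1 h).1).1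
      exact this rfl
  -- bound of the rest
  set T : ℝ := ∑ m ∈ s3, ‖ρ m‖ * |kap (√(N m))| with hT
  have hT0 : 0 ≤ T := Finset.sum_nonneg fun m _ => by positivity
  have hB3 : ‖∑ m ∈ s3, ρ m * (kap (√(N m)) : ℂ)‖ ≤ T := by
    refine (norm_sum_le _ _).trans (le_of_eq (Finset.sum_congr rfl fun m _ => ?_))
    rw [norm_mul, Complex.norm_real, Real.norm_eq_abs]
  have hs30 : (0 : O) ∉ s3 := by
    intro h
    exact hs0 (Finset.mem_of_mem_erase (Finset.mem_of_mem_erase (Finset.mem_filter.1 h).1))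
  have hc0 : 0 < c₀ := by linarith
  have hTsq : T ^ 2 ≤ (c₀ - 3.12 * c₀ ^ 2) * 0.01145 := by
    have h1 := hP s3 hs30
    have h2 : (2.08 : ℝ) ≤ 3 ^ (2 / 3 : ℝ) := by
      have h2 := Real.rpow_le_rpow (by norm_num)
        (show (2.08 : ℝ) ^ 3 ≤ 3 ^ 2 by norm_num) (show (0 : ℝ) ≤ 1 / 3 by norm_num)
      rw [← Real.rpow_natCast, ← Real.rpow_mul (by norm_num), ← Real.rpow_natCast,
        ← Real.rpow_mul (by norm_num)] at h2
      norm_num at h2 ⊢
      exact h2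
    have h3 := sum_kap_three_le s3 hs30 (fun m hm => (Finset.mem_filter.1 hm).2) ρ
      (c₀ - c₀ ^ 2 * (3 / 2 * 3 ^ (2 / 3 : ℝ))) (by linarith)
    refine h3.trans ?_
    have h4 : 0 < c₀ ^ 2 := by positivity
    nlinarith
  -- the real part of the identity
  have hre : c₀ * L - 0.0001 < -(2 * R * kap 1) + R * (0.0904 * √π) + T := by
    rw [dist_eq_norm, hsplit, hsplit2] at hdist
    have h1 := (Complex.abs_re_le_norm _).trans_lt hdist
    rw [abs_lt] at h1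
    have h2 : (ρ 1 * (kap 1 : ℂ)).re = -R * kap 1 := by
      rw [Complex.re_mul_ofReal, hRe]
    have h3 := (Complex.re_le_norm (∑ m ∈ s3, ρ m * (kap (√(N m)) : ℂ))).trans hB3
    have h4 := (Complex.re_le_norm (∑ m ∈ s2, ρ m * (kap (√(N m)) : ℂ))).trans hB2
    have h5 := h1.1
    have h6 : (2 * (ρ 1 * (kap 1 : ℂ))).re = 2 * (-R * kap 1) := by
      rw [← h2]; simp
    rw [Complex.sub_re, Complex.add_re, Complex.add_re, Complex.ofReal_re, h6] at h5
    linarith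
  have hk := kap_one_ge
  have h1 : -(2 * R * kap 1) + R * (0.0904 * √π) ≤ 0 := by
    have : R * (0.0513 * √π) ≤ R * kap 1 := mul_le_mul_of_nonneg_left hk hR0
    have : 0 ≤ R * √π := by positivity
    nlinarith
  have h2 : 0.2426 * c₀ < T := by nlinarith
  nlinarith

end Vale.Agent.P006.SG
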