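import Vale.Agent.P006.SG.Abel
import Vale.Agent.P006.SG.Sign

/-!
P006, block SG: the normalised Eisenstein series with weight `e^{-x/X}` converges pointwise to the
theta function `Th` as `X → ∞`.
-/

open MeasureTheory Filter Topology Set
open scoped Real

namespace Vale.Agent.P006.SG

open PO H570

theorem summable_pow_exp_sqrt (A : ℕ) {b : ℝ} (hb : 0 < b) :
    Summable fun k : O => (N k : ℝ) ^ A * Real.exp (-(b * √(N k))) := by
  have h1 := (summable_exp_sqrt (show 0 < b / 2 by positivity)).mul_left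
    ((2 * A).factorial / (b / 2) ^ (2 * A) : ℝ)
  refine Summable.of_nonneg_of_le (fun k => by positivity) (fun k => ?_) h1
  have hX : 0 ≤ √(N k : ℝ) := Real.sqrt_nonneg _
  have h2 : (N k : ℝ) ^ A = √(N k) ^ (2 * A) := by
    rw [pow_mul, Real.sq_sqrt (Nat.cast_nonneg _)]
  have h3 : (b / 2 * √(N k)) ^ (2 * A) / (2 * A).factorial ≤ Real.exp (b / 2 * √(N k)) :=
    Real.pow_div_factorial_le_exp _ (by positivity) _
  have h4 : √(N k : ℝ) ^ (2 * A) ≤ (2 * A).factorial / (b / 2) ^ (2 * A) *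
      Real.exp (b / 2 * √(N k)) := by
    rw [div_mul_eq_mul_div, le_div_iff₀ (by positivity)]
    rw [div_le_iff₀ (by positivity), mul_pow] at h3
    linarith
  rw [h2]
  calc √(N k : ℝ) ^ (2 * A) * Real.exp (-(b * √(N k)))
      ≤ ((2 * A).factorial / (b / 2) ^ (2 * A) * Real.exp (b / 2 * √(N k))) *
        Real.exp (-(b * √(N k))) := by gcongr
    _ = (2 * A).factorial / (b / 2) ^ (2 * A) *
        (Real.exp (b / 2 * √(N k)) * Real.exp (-(b * √(N k)))) := by ring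
    _ = _ := by rw [← Real.exp_add]; congr 2; ring

theorem F_neg_eq {a y : ℝ} (hy : 0 < y) : y * F (-(2 / 3) - a) y = y ^ (1 / 3 - a) * F (2 / 3 + a) y := by
  rw [F_inv hy, ← mul_assoc]
  congr 1
  · have h := Real.rpow_add hy 1 (-(2 / 3) - a)
    rw [Real.rpow_one] at h
    rw [← h]; ring_nf
  · congr 1; ring

/-- decay of the error function -/
theorem Hf_le {δ : ℝ} (h0 : 0 ≤ δ) (h1 : δ < 1 / 3) : ∃ C : ℝ, 0 ≤ C ∧ ∀ y : ℝ, 0 < y →
    Hf δ y ≤ C * Real.exp (-(√y / 2)) := by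
  obtain ⟨C1, hC1, k1⟩ := F_le_exp (a := 1 / 3 - δ) (by linarith)
  obtain ⟨C2, hC2, k2⟩ := F_le_exp (a := 4 / 3 - δ) (by linarith)
  obtain ⟨C3, hC3, k3⟩ := F_le_exp (a := 2 / 3 + δ) (by linarith)
  refine ⟨C1 + C2 + 9 * C3, by positivity, fun y hy => ?_⟩
  have hs : 0 ≤ √y := Real.sqrt_nonneg _
  have hss : √y ^ 2 = y := Real.sq_sqrt hy.le
  have e1 : Real.exp (-√y) ≤ Real.exp (-(√y / 2)) := Real.exp_le_exp.2 (by linarith)
  have e2 : y ^ (1 / 3 - δ) ≤ 1 + y := by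
    rcases le_total y 1 with h | h
    · have : y ^ (1 / 3 - δ) ≤ 1 := Real.rpow_le_one hy.le h (by linarith)
      linarith
    · have : y ^ (1 / 3 - δ) ≤ y ^ (1 : ℝ) := Real.rpow_le_rpow_of_exponent_le h (by linarith)
      rw [Real.rpow_one] at this
      linarith
  have e3 : (1 + y) * Real.exp (-√y) ≤ 9 * Real.exp (-(√y / 2)) := by
    have h2 := Real.quadratic_le_exp_of_nonneg (show 0 ≤ √y / 2 by positivity)
    have h3 : 1 + y ≤ 9 * Real.exp (√y / 2) := by nlinarith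
    calc (1 + y) * Real.exp (-√y) ≤ 9 * Real.exp (√y / 2) * Real.exp (-√y) := by gcongr
      _ = 9 * (Real.exp (√y / 2) * Real.exp (-√y)) := by ring
      _ = _ := by rw [← Real.exp_add]; congr 2; ring
  rw [Hf, F_neg_eq hy]
  have b1 : 1 / 2 * F (1 / 3 - δ) y ≤ C1 * Real.exp (-(√y / 2)) := by
    have h2 := k1 y hy.le
    have h3 := F_nonneg (1 / 3 - δ) y
    have : C1 * Real.exp (-√y) ≤ C1 * Real.exp (-(√y / 2)) := by gcongr
    linarith
  have b2 : F (4 / 3 - δ) y ≤ C2 * Real.exp (-(√y / 2)) := (k2 y hy.le).trans (by gcongr)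
  have b3 : y ^ (1 / 3 - δ) * F (2 / 3 + δ) y ≤ 9 * C3 * Real.exp (-(√y / 2)) := by
    calc y ^ (1 / 3 - δ) * F (2 / 3 + δ) y ≤ (1 + y) * (C3 * Real.exp (-√y)) :=
          mul_le_mul e2 (k3 y hy.le) (F_nonneg _ _) (by positivity)
      _ = C3 * ((1 + y) * Real.exp (-√y)) := by ring
      _ ≤ C3 * (9 * Real.exp (-(√y / 2))) := by gcongr
      _ = _ := by ring
  calc _ ≤ C1 * Real.exp (-(√y / 2)) + C2 * Real.exp (-(√y / 2)) +
        9 * C3 * Real.exp (-(√y / 2)) := add_le_add (add_le_add b1 b2) b3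
    _ = _ := by ring

/-- normalised Gauss sum -/
noncomputable def gt (k c : O) : ℂ := gs k c / (√(N c) : ℝ)

theorem norm_gt_le (k c : O) : ‖gt k c‖ ≤ N c := by
  by_cases hc : c = 0
  · subst hc; simp [gt]
  · have : NeZero c := ⟨hc⟩
    have h1 : 1 ≤ √(N c : ℝ) := sqrt_N_one_le hc
    rw [gt, norm_div, Complex.norm_real, Real.norm_of_nonneg (Real.sqrt_nonneg _),
      div_le_iff₀ (by linarith)]
    have h2 := norm_gs_le k c
    have h3 : (0 : ℝ) ≤ N c := Nat.cast_nonneg _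
    nlinarith

/-- **Sharp asymptotics**, with polynomial dependence on the frequency, of the sums of normalised
Gauss sums over primary elements (the output of the blocks FC and T1S). -/
def SharpHyp (θ : O → ℂ) (C : ℝ) (A : ℕ) (δ : ℝ) : Prop :=
  ∀ k : O, k ≠ 0 → ∀ t : ℝ, 0 < t →
    ‖PS (gt k) t - 6 / 5 * θ k * ((t ^ (5 / 6 : ℝ) : ℝ) : ℂ)‖ ≤ C * (N k : ℝ) ^ A * t ^ (5 / 6 - δ)

section
variable {X v : ℝ}

theorem Bk_eq (X v : ℝ) (k : O) :
    Bk X v k = ∑' d : Prim, gt k d * (ww (v / X) (qq * v * X * N k) (N (d : O)) : ℂ) := by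
  refine tsum_congr fun d => ?_
  have hN := d.N_pos
  rw [gt, ww]
  have h1 : ((N (d : O) : ℝ)) ^ (-(1 / 2) : ℝ) = (√(N (d : O) : ℝ))⁻¹ := by
    rw [Real.rpow_neg hN.le, Real.sqrt_eq_rpow]
  have h2 : ((N (d : O) : ℕ) : ℂ) = ((√(N (d : O) : ℝ) : ℝ) : ℂ) * ((√(N (d : O) : ℝ) : ℝ) : ℂ) := by
    rw [← Complex.ofReal_mul, Real.mul_self_sqrt hN.le]; simp
  rw [h1, h2]
  push_cast
  field_simp

/-- `2π/(9√3 Γ(4/3))` -/
noncomputable def kap0 : ℝ := 2 * π / (9 * √3 * Real.Gamma (4 / 3))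

theorem Gamma43_pos : 0 < Real.Gamma (4 / 3) := Real.Gamma_pos_of_pos (by norm_num)

theorem kap0_pos : 0 < kap0 := by
  have := Gamma43_pos
  unfold kap0; positivity

/-- the normalised Fourier coefficients -/
noncomputable def bk (X v : ℝ) (k : O) : ℂ := ((kap0 * v * X ^ (-(1 / 3) : ℝ) : ℝ) : ℂ) * Bk X v k

/-- the normalising factor `Γ(4/3) X^{4/3}` -/
noncomputable def lX (X : ℝ) : ℝ := Real.Gamma (4 / 3) * X ^ (4 / 3 : ℝ)

theorem lX_pos (hX : 0 < X) : 0 < lX X := by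
  have := Gamma43_pos
  unfold lX; positivity

theorem hasSum_E0_div (hX : 0 < X) (hv : 0 < v) (z : ℂ) :
    HasSum (fun k : O => bk X v k * eT (z * (toC k / (3 * toC rt3)))) (E0 X v z / lX X) := by
  have h := (hasSum_E0 hX hv z).div_const ((lX X : ℝ) : ℂ)
  suffices e0 : (fun k : O => bk X v k * eT (z * (toC k / (3 * toC rt3)))) = fun k : O =>
      ((2 * π * (v * X) / (9 * √3) : ℝ) : ℂ) * Bk X v k * eT (z * (toC k / (3 * toC rt3))) /
        ((lX X : ℝ) : ℂ) by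
    rw [e0]; exact h
  funext k
  have hG := Gamma43_pos
  have hG' : ((Real.Gamma (4 / 3) : ℝ) : ℂ) ≠ 0 := by exact_mod_cast hG.ne'
  have h1 : X ^ (-(1 / 3) : ℝ) = X / X ^ (4 / 3 : ℝ) := by
    rw [eq_div_iff (by positivity), ← Real.rpow_add hX]; norm_num
  have h4 : ((X ^ (4 / 3 : ℝ) : ℝ) : ℂ) ≠ 0 := by
    exact_mod_cast (Real.rpow_pos_of_pos hX _).ne'
  rw [bk, kap0, lX, h1]
  push_cast
  field_simp

/-- limit of the coefficients, with error term -/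
theorem bk_asymp {θ : O → ℂ} {C : ℝ} {A : ℕ} {δ : ℝ} (hθ : SharpHyp θ C A δ) (hX : 0 < X)
    (hv : 0 < v) {k : O} (hk : k ≠ 0) :
    ‖bk X v k - kap0 * θ k * ((v ^ (2 / 3 : ℝ) * G ((aa * √(N k) * v) ^ 2) : ℝ) : ℂ)‖ ≤
      kap0 * (C * (N k : ℝ) ^ A * (v ^ (2 / 3 + δ) * X ^ (-δ) * Hf δ ((aa * √(N k) * v) ^ 2))) := by
  have hα : 0 < v / X := by positivity
  have hNk : 0 < (N k : ℝ) := by exact_mod_cast N_pos hk
  have hq := qq_pos
  have hβ : 0 < qq * v * X * N k := by positivity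
  have hy : v / X * (qq * v * X * N k) = (aa * √(N k) * v) ^ 2 := by
    have h3 : √3 ^ 2 = 3 := Real.sq_sqrt (by norm_num)
    rw [mul_pow, mul_pow, Real.sq_sqrt hNk.le, aa, qq, div_pow, mul_pow, mul_pow, h3]
    field_simp
    norm_num
  have h := abel_asymp hα hβ (gt k) (norm_gt_le k) (θ k) (C * (N k : ℝ) ^ A) δ (hθ k hk)
  rw [← Bk_eq, hy] at h
  have e1 : bk X v k - kap0 * θ k * ((v ^ (2 / 3 : ℝ) * G ((aa * √(N k) * v) ^ 2) : ℝ) : ℂ) =
      ((kap0 * v * X ^ (-(1 / 3) : ℝ) : ℝ) : ℂ) * (Bk X v k -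
        θ k * (((v / X) ^ (-(1 / 3) : ℝ) * G ((aa * √(N k) * v) ^ 2) : ℝ) : ℂ)) := by
    have h2 : v ^ (2 / 3 : ℝ) = v * X ^ (-(1 / 3) : ℝ) * (v / X) ^ (-(1 / 3) : ℝ) := by
      rw [Real.div_rpow hv.le hX.le]
      have h3 := Real.rpow_add hv 1 (-(1 / 3))
      rw [Real.rpow_one] at h3
      have h4 : (2 / 3 : ℝ) = 1 + -(1 / 3) := by norm_num
      rw [h4, h3]
      have h5 : X ^ (-(1 / 3) : ℝ) ≠ 0 := (Real.rpow_pos_of_pos hX _).ne'
      field_simp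
    rw [bk, h2]
    push_cast
    ring
  rw [e1, norm_mul, Complex.norm_real, Real.norm_of_nonneg (by have := kap0_pos; positivity)]
  have hk0 := kap0_pos
  calc kap0 * v * X ^ (-(1 / 3) : ℝ) * ‖Bk X v k -
        θ k * (((v / X) ^ (-(1 / 3) : ℝ) * G ((aa * √(N k) * v) ^ 2) : ℝ) : ℂ)‖
      ≤ kap0 * v * X ^ (-(1 / 3) : ℝ) * (C * (N k : ℝ) ^ A *
        ((v / X) ^ (-(1 / 3 - δ)) * Hf δ ((aa * √(N k) * v) ^ 2))) := by gcongr
    _ = _ := by
      have h2 : v ^ (2 / 3 + δ) * X ^ (-δ) = v * X ^ (-(1 / 3) : ℝ) * (v / X) ^ (-(1 / 3 - δ)) := by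
        rw [Real.div_rpow hv.le hX.le]
        have h3 := Real.rpow_add hv 1 (-(1 / 3 - δ))
        rw [Real.rpow_one] at h3
        have h4 : (2 / 3 + δ : ℝ) = 1 + -(1 / 3 - δ) := by ring
        rw [h4, h3]
        have h5 := Real.rpow_add hX (-δ) (-(1 / 3 - δ))
        have h6 : (-δ + -(1 / 3 - δ) : ℝ) = -(1 / 3) := by ring
        rw [h6] at h5
        have h7 : X ^ (-(1 / 3 - δ)) ≠ 0 := (Real.rpow_pos_of_pos hX _).ne'
        rw [h5]
        field_simp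
      rw [h2]; ring

end

end Vale.Agent.P006.SG
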