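import Vale.Agent.P006.GRAM.GN
import Vale.Agent.P006.SG.Limit

/-!
P006, block SG: the Gram form and the `S`-invariance for the exponential profiles.
-/

namespace Vale.Agent.P006.SG

open MeasureTheory Set Filter Topology Vale.Agent.P006 GRAM

/-- the exponential profile -/
noncomputable def fX (X x : ℝ) : ℂ := ((if 0 < x then Real.exp (-(x / X)) else 0 : ℝ) : ℂ)

theorem kapG_eq : kapG = H9.area * (4 * Real.pi ^ 2 / 243 * D1) := by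
  have h3 : Real.sqrt 3 ^ 2 = 3 := Real.sq_sqrt (by norm_num)
  have h0 : Real.sqrt 3 ≠ 0 := by positivity
  rw [kapG, H9.area]
  field_simp
  rw [h3]
  ring

/-- the quantities of the exponential profile -/
def ExpNorms : Prop := ∃ C : ℝ, 0 ≤ C ∧ ∀ X : ℝ, 1 ≤ X → CL (fX X) ∧
  ‖lf (fX X)‖ = lX X ∧ ∃ H H1 : ℝ → ℂ,
  HPair (fX X) (fX X) H H1 ∧ nrm2 (fX X) ≤ C * X ^ 2 ∧ nJ0 H + nJ1 H1 ≤ C * X ^ 2 ∧
  nL H ≤ C * X ^ (8 / 3 : ℝ)

theorem noise_le {f H H1 : ℝ → ℂ} {C X : ℝ} (hC : 0 ≤ C) (hX : 1 ≤ X)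
    (h1 : nrm2 f ≤ C * X ^ 2) (h2 : nJ0 H + nJ1 H1 ≤ C * X ^ 2)
    (h3 : nL H ≤ C * X ^ (8 / 3 : ℝ)) :
    noise f H H1 (X ^ (1 / 3 : ℝ)) ≤ 3 * C * X ^ (7 / 3 : ℝ) := by
  have hX0 : 0 < X := by linarith
  set A := X ^ (1 / 3 : ℝ) with hA
  have hA1 : 1 ≤ A := Real.one_le_rpow hX (by norm_num)
  have hA0 : 0 < A := by linarith
  have e1 : X ^ (7 / 3 : ℝ) = X ^ 2 * A := by
    rw [hA, ← Real.rpow_natCast, ← Real.rpow_add hX0]; norm_num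
  have e2 : X ^ (8 / 3 : ℝ) = X ^ 2 * A * A := by
    rw [hA, ← Real.rpow_natCast, ← Real.rpow_add hX0, ← Real.rpow_add hX0]; norm_num
  have hlog : 1 + Real.log A ≤ A := by
    have := Real.log_le_sub_one_of_pos hA0; linarith
  have hlog0 : 0 ≤ Real.log A := Real.log_nonneg hA1
  have hJ : 0 ≤ nJ0 H + nJ1 H1 := add_nonneg nJ0_nonneg nJ1_nonneg
  have a1 : (1 + Real.log A) * (nJ0 H + nJ1 H1) ≤ A * (C * X ^ 2) := by gcongr
  have a2 : nL H / A ≤ C * (X ^ 2 * A) := by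
    rw [div_le_iff₀ hA0]
    calc nL H ≤ C * X ^ (8 / 3 : ℝ) := h3
      _ = _ := by rw [e2]; ring
  have a3 : C * X ^ 2 ≤ C * (X ^ 2 * A) := by
    gcongr
    exact le_mul_of_one_le_right (by positivity) hA1
  unfold noise
  rw [e1]
  linarith

theorem eventually_small {K : ℝ} {ε : ℝ} (hε : 0 < ε) :
    ∀ᶠ X : ℝ in atTop, K * X ^ (7 / 3 : ℝ) ≤ ε * lX X ^ 2 := by
  have hG : 0 < Real.Gamma (4 / 3) := Real.Gamma_pos_of_pos (by norm_num)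
  have h1 : Tendsto (fun X : ℝ => X ^ (1 / 3 : ℝ)) atTop atTop :=
    tendsto_rpow_atTop (by norm_num)
  filter_upwards [h1.eventually_ge_atTop (K / (ε * Real.Gamma (4 / 3) ^ 2)), eventually_gt_atTop 0]
    with X hX hX0
  have e1 : lX X ^ 2 = Real.Gamma (4 / 3) ^ 2 * (X ^ (7 / 3 : ℝ) * X ^ (1 / 3 : ℝ)) := by
    rw [lX, mul_pow, ← Real.rpow_natCast (X ^ (4 / 3 : ℝ)), ← Real.rpow_mul hX0.le,
      ← Real.rpow_add hX0]
    norm_num
  rw [div_le_iff₀ (by positivity)] at hX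
  rw [e1]
  calc K * X ^ (7 / 3 : ℝ) ≤ (X ^ (1 / 3 : ℝ) * (ε * Real.Gamma (4 / 3) ^ 2)) * X ^ (7 / 3 : ℝ) := by
        gcongr
    _ = _ := by ring

/-- upper bound for the Gram form of the exponential profiles -/
theorem gram_exp' (hE : ExpNorms) : ∀ ε > 0, ∀ᶠ X in atTop,
    (∫ w in H9.P3, fX X (1 / w.v) * (starRingEnd ℂ) (H9.E 1 R1.eta (fX X) w) ∂H9.muH).re ≤
      (H9.area * (4 * Real.pi ^ 2 / 243 * D1) + ε) * lX X ^ 2 := by
  intro ε hε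
  obtain ⟨C, hC, hE⟩ := hE
  filter_upwards [eventually_small (K := (H9.area + Real.pi / 3 * cE) * (3 * C)) hε,
    eventually_ge_atTop 1] with X hX1 hX2
  obtain ⟨hcl, hl, H, H1, hp, n1, n2, n3⟩ := hE X hX2
  have h1 := gram_re_le hcl hp (A := X ^ (1 / 3 : ℝ)) (Real.one_le_rpow hX2 (by norm_num))
  have h2 := noise_le hC hX2 n1 n2 n3
  have h3 : 0 ≤ H9.area + Real.pi / 3 * cE := by
    have := H9.area_pos
    have := cE_nonneg
    positivity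
  rw [hl, kapG_eq] at h1
  calc _ ≤ _ := h1
    _ ≤ H9.area * (4 * Real.pi ^ 2 / 243 * D1) * lX X ^ 2 +
        (H9.area + Real.pi / 3 * cE) * (3 * C * X ^ (7 / 3 : ℝ)) := by gcongr
    _ ≤ H9.area * (4 * Real.pi ^ 2 / 243 * D1) * lX X ^ 2 + ε * lX X ^ 2 := by
        refine add_le_add le_rfl (le_trans (le_of_eq ?_) hX1)
        ring
    _ = _ := by ring

/-- `S`-invariance in the limit -/
theorem inv_exp' (hE : ExpNorms) : ∀ ε > 0, ∀ᶠ X in atTop,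
    ∫⁻ w in H9.Ptop (1 / 3), ‖H9.E 1 R1.eta (fX X) (KU.Smat O • w) -
      H9.E 1 R1.eta (fX X) w‖ₑ ^ 2 ∂H9.muH ≤ ENNReal.ofReal (ε * lX X ^ 2) := by
  intro ε hε
  obtain ⟨C, hC, hE⟩ := hE
  filter_upwards [eventually_small (K := 2 * (H9.area + 2 * Real.pi / 3 * cE) * (3 * C)) hε,
    eventually_ge_atTop 1] with X hX1 hX2
  obtain ⟨hcl, hl, H, H1, hp, n1, n2, n3⟩ := hE X hX2
  have h1 := G_S_top hcl hp (A := X ^ (1 / 3 : ℝ)) (Real.one_le_rpow hX2 (by norm_num)) 1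
    (v0 := 1 / 3) le_rfl
  simp only [one_smul] at h1
  refine h1.trans (ENNReal.ofReal_le_ofReal ?_)
  have h2 := noise_le hC hX2 n1 n2 n3
  have h3 : 0 ≤ H9.area + 2 * Real.pi / 3 * cE := by
    have := H9.area_pos
    have := cE_nonneg
    positivity
  calc 2 * ((H9.area + 2 * Real.pi / 3 * cE) * noise (fX X) H H1 (X ^ (1 / 3 : ℝ)))
      ≤ 2 * ((H9.area + 2 * Real.pi / 3 * cE) * (3 * C * X ^ (7 / 3 : ℝ))) := by gcongr
    _ = 2 * (H9.area + 2 * Real.pi / 3 * cE) * (3 * C) * X ^ (7 / 3 : ℝ) := by ring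
    _ ≤ _ := hX1

end Vale.Agent.P006.SG
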