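import Vale.Agent.P006.SG.Limit
import Vale.Agent.P006.GRAM.Gram
import Vale.Agent.P006.KU.CT7
import Vale.Agent.P006.JB.Exp
import Mathlib.Analysis.SpecialFunctions.Gamma.Basic
import Mathlib.Analysis.SpecialFunctions.Gaussian.GaussianIntegral

/-!
P006, block SG: the limit of the constant term.
-/

namespace Vale.Agent.P006.SG

open MeasureTheory Set Filter Topology Vale.Agent.P006 GRAM
open scoped Real

/-! ### the profile `α e^{-α x}` -/

/-- the profile `α e^{-αx}` -/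
noncomputable def hX (α x : ℝ) : ℂ := ((α * Real.exp (-(α * x)) : ℝ) : ℂ)

/-- its derivative -/
noncomputable def hX1 (α x : ℝ) : ℂ := ((-(α ^ 2 * Real.exp (-(α * x))) : ℝ) : ℂ)

section

variable {α : ℝ}

theorem measurable_hX (α : ℝ) : Measurable (hX α) := by
  unfold hX
  fun_prop

theorem norm_hX (hα : 0 < α) (x : ℝ) : ‖hX α x‖ = α * Real.exp (-(α * x)) := by
  rw [hX, Complex.norm_real, Real.norm_eq_abs, abs_of_pos (by positivity)]

theorem norm_hX1 (x : ℝ) : ‖hX1 α x‖ = α ^ 2 * Real.exp (-(α * x)) := by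
  rw [hX1, Complex.norm_real, Real.norm_eq_abs, abs_neg, abs_of_nonneg (by positivity)]

theorem CL_hX (hα : 0 < α) : CL (hX α) := by
  have hm : Measurable fun x : ℝ => ((Real.exp (-(x / α⁻¹)) : ℝ) : ℂ) := by fun_prop
  have h := (JB.exp_main (X := α⁻¹) (by positivity) hm (fun x _ => rfl)).1
  have h2 := h.const_mul (α : ℂ)
  have e : hX α = fun x : ℝ => (α : ℂ) * ((Real.exp (-(x / α⁻¹)) : ℝ) : ℂ) := by
    funext x
    rw [hX, div_inv_eq_mul, mul_comm x α]
    push_cast; rfl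
  rw [e]; exact h2

theorem integrableOn_pow_exp (hα : 0 < α) {s : ℝ} (hs : -1 < s) :
    IntegrableOn (fun x : ℝ => x ^ s * Real.exp (-(α * x))) (Ioi 0) := by
  have h := integrableOn_rpow_mul_exp_neg_mul_rpow (p := 1) hs one_pos hα
  refine h.congr (Eventually.of_forall fun x => ?_)
  simp only [Real.rpow_one, neg_mul]

theorem integral_pow_exp (hα : 0 < α) {s : ℝ} (hs : -1 < s) :
    ∫ x in Ioi (0 : ℝ), x ^ s * Real.exp (-(α * x)) = (1 / α) ^ (s + 1) * Real.Gamma (s + 1) := by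
  have h := Real.integral_rpow_mul_exp_neg_mul_Ioi (a := s + 1) (by linarith) hα
  rw [show s + 1 - 1 = s by ring] at h
  exact h

theorem HD_hX (hα : 0 < α) : HD (hX α) (hX1 α) where
  deriv Z _ := by
    have h1 : HasDerivAt (fun x : ℝ => α * Real.exp (-(α * x))) (-(α ^ 2 * Real.exp (-(α * Z)))) Z := by
      have h2 : HasDerivAt (fun x : ℝ => -(α * x)) (-(α * 1)) Z :=
        ((hasDerivAt_id Z).const_mul α).neg
      exact ((h2.exp).const_mul α).congr_deriv (by ring)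
    exact h1.ofReal_comp
  i0 := by
    have h := (integrableOn_pow_exp hα (s := 0) (by norm_num)).const_mul α
    refine h.congr (Eventually.of_forall fun x => ?_)
    simp only [norm_hX hα, Real.rpow_zero, one_mul]
  i1 := by
    have h := (integrableOn_pow_exp hα (s := 1) (by norm_num)).const_mul (α ^ 2)
    refine h.congr (Eventually.of_forall fun x => ?_)
    simp only [norm_hX1, Real.rpow_one]; ring
  i2 := by
    have h := (integrableOn_pow_exp hα (s := 1 / 3) (by norm_num)).const_mul α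
    refine h.congr (Eventually.of_forall fun x => ?_)
    simp only [norm_hX hα]; ring
  i3 := by
    have h := (integrableOn_pow_exp hα (s := 4 / 3) (by norm_num)).const_mul (α ^ 2)
    refine h.congr (Eventually.of_forall fun x => ?_)
    simp only [norm_hX1]; ring
  lim := by
    have h1 : Tendsto (fun y : ℝ => y ^ 1 * Real.exp (-y)) atTop (𝓝 0) :=
      Real.tendsto_pow_mul_exp_neg_atTop_nhds_zero 1
    have h2 : Tendsto (fun Z : ℝ => α * Z) atTop atTop := tendsto_id.const_mul_atTop hα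
    have h3 := h1.comp h2
    have h4 : Tendsto (fun Z : ℝ => ((Z * (α * Real.exp (-(α * Z))) : ℝ) : ℂ)) atTop
        (𝓝 ((0 : ℝ) : ℂ)) := by
      refine (Complex.continuous_ofReal.tendsto 0).comp (h3.congr fun Z => ?_)
      simp only [Function.comp_apply, pow_one]; ring
    rw [Complex.ofReal_zero] at h4
    refine h4.congr fun Z => ?_
    rw [hX]; push_cast; ring

theorem nJ0_hX (hα : 0 < α) : nJ0 (hX α) = 1 := by
  have h := integral_pow_exp hα (s := 0) (by norm_num)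
  simp only [norm_hX hα, nJ0]
  rw [integral_const_mul]
  simp only [Real.rpow_zero, one_mul, zero_add, Real.rpow_one, Real.Gamma_one, mul_one] at h
  rw [h]; field_simp

theorem nJ1_hX (hα : 0 < α) : nJ1 (hX1 α) = 1 := by
  have h := integral_pow_exp hα (s := 1) (by norm_num)
  have e : (fun Z : ℝ => Z * ‖hX1 α Z‖) = fun Z => α ^ 2 * (Z ^ (1 : ℝ) * Real.exp (-(α * Z))) := by
    funext Z; rw [norm_hX1, Real.rpow_one]; ring
  rw [nJ1, e, integral_const_mul, h]
  have h2 : Real.Gamma (1 + 1) = 1 := by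
    rw [Real.Gamma_add_one one_ne_zero, Real.Gamma_one, mul_one]
  rw [h2, show (1 : ℝ) + 1 = ((2 : ℕ) : ℝ) by norm_num, Real.rpow_natCast]
  field_simp

/-- `Γ(4/3) α^{-1/3}` -/
noncomputable def LL (α : ℝ) : ℝ := Real.Gamma (4 / 3) * (1 / α) ^ (1 / 3 : ℝ)

theorem LL_pos (hα : 0 < α) : 0 < LL α := by
  have := Gamma43_pos
  unfold LL; positivity

theorem LL_int (hα : 0 < α) :
    ∫ x in Ioi (0 : ℝ), x ^ (1 / 3 : ℝ) * (α * Real.exp (-(α * x))) = LL α := by
  have h := integral_pow_exp hα (s := 1 / 3) (by norm_num)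
  have e : (fun x : ℝ => x ^ (1 / 3 : ℝ) * (α * Real.exp (-(α * x)))) =
      fun x => α * (x ^ (1 / 3 : ℝ) * Real.exp (-(α * x))) := by funext x; ring
  rw [e, integral_const_mul, h, LL, show (1 / 3 : ℝ) + 1 = 4 / 3 by norm_num]
  have h1 : (1 / α) ^ (4 / 3 : ℝ) = (1 / α) ^ (1 / 3 : ℝ) * (1 / α) := by
    rw [← Real.rpow_add_one (by positivity)]; norm_num
  rw [h1]; field_simp

theorem nL_hX (hα : 0 < α) : nL (hX α) = LL α := by
  rw [← LL_int hα, nL]
  congr 1; funext Z; rw [norm_hX hα]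

theorem Lam_hX (hα : 0 < α) : Lam (hX α) = (LL α : ℂ) := by
  have h := integral_ofReal (μ := volume.restrict (Ioi (0 : ℝ)))
    (f := fun x : ℝ => x ^ (1 / 3 : ℝ) * (α * Real.exp (-(α * x)))) (𝕜 := ℂ)
  rw [LL_int hα] at h
  rw [Lam]
  refine Eq.trans ?_ h
  congr 1; funext Z
  rw [hX, Complex.real_smul, ← Complex.ofReal_mul]
  rfl

theorem KK_hX (hα : 0 < α) {X : ℝ} (_hX : 0 ≤ X) : KK (hX α) X = ((Real.exp (-(α * X)) : ℝ) : ℂ) := by
  have h1 : ∫ Z in Ioi X, α * Real.exp (-(α * Z)) = Real.exp (-(α * X)) := by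
    rw [integral_const_mul]
    have h2 := integral_exp_mul_Ioi (a := -α) (by linarith) X
    have e : (fun Z : ℝ => Real.exp (-(α * Z))) = fun Z => Real.exp (-α * Z) := by
      funext Z; ring_nf
    rw [e, h2]
    field_simp
  have h := integral_ofReal (μ := volume.restrict (Ioi X))
    (f := fun x : ℝ => α * Real.exp (-(α * x))) (𝕜 := ℂ)
  rw [h1] at h
  rw [KK]
  exact h

end

/-! ### the zeroth coefficient -/

open Classical in
/-- `g(0,d)/N(d)` for primary `d` -/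
theorem gs_zero_div {d : O} (hd : Primary d) :
    gs 0 d / (N d : ℂ) = if ∃ m : O, d = m ^ 3 then (KU.beta d : ℂ) else 0 := by
  have : NeZero d := ⟨hd.ne_zero⟩
  have hN : (N d : ℂ) ≠ 0 := by exact_mod_cast (N_pos hd.ne_zero).ne'
  have e : gs 0 d = ∑ x : Rs d, chi d x := by
    rw [gs_eq_sum]
    refine Finset.sum_congr rfl fun x _ => ?_
    rw [map_zero, zero_mul, AddChar.map_zero_eq_one, mul_one]
  rw [e]
  split_ifs with h
  · obtain ⟨m, hm⟩ := h
    rw [KU.sum_chi_cube hm]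
    have h1 := KU.phi_primary d hd
    have h2 : (KU.phi d : ℂ) = (N d : ℂ) * (KU.beta d : ℂ) := by exact_mod_cast h1
    rw [h2]; field_simp
  · rw [KU.sum_chi_eq_zero hd h, zero_div]

section

variable {α : ℝ}

/-- the function of the cubes -/
noncomputable def Fc (α : ℝ) (κ : O) : ℂ :=
  open Classical in if Primary κ then (KU.beta κ : ℂ) * ((Real.exp (-(α * N κ)) : ℝ) : ℂ) else 0

open Classical in
theorem Fc_mt (hα : 0 < α) (m : O) : (if m = 0 then 0 else Fc α (m ^ 3)) =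
    KU.CT.mt (hX α) 1 (fun m => Primary (m ^ 3) ∧ (1 : O) ∣ m) m := by
  by_cases hm : m = 0
  · rw [if_pos hm, KU.CT.mt_of_not]
    exact fun h => h.1 hm
  · rw [if_neg hm, Fc]
    by_cases hp : Primary (m ^ 3)
    · rw [if_pos hp, KU.CT.mt_of ⟨hm, hp, one_dvd m⟩, KU.CT.beta_pow3 hm]
      have h := KK_hX hα (X := (N m : ℝ) ^ 3 * 1) (by positivity)
      rw [KK] at h
      rw [h]
      congr 4
      have h3 : N (m ^ 3) = N m ^ 3 := by rw [pow_succ, pow_two, N_mul, N_mul]; ring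
      rw [mul_one, h3]
      push_cast; rfl
    · rw [if_neg hp, KU.CT.mt_of_not]
      exact fun h => hp h.2.1

theorem Bk_zero {X v : ℝ} (hX0 : 0 < X) (hv : 0 < v) :
    Bk X v 0 = (1 / 6 : ℂ) * (Tq (hX (v / X)) 1 - Tq (hX (v / X)) lam) := by
  classical
  set α := v / X with hα'
  have hα : 0 < α := by positivity
  obtain ⟨C, hC0, hC⟩ := KU.CT.exists_cls (CL_hX hα)
  have e1 : Bk X v 0 = ∑' κ : O, (if κ ≠ 0 ∧ ∃ ν : O, κ = ν ^ 3 then Fc α κ else 0) := by
    have e2 : ∀ d : Prim, gs 0 (d : O) / N (d : O) *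
        ((Real.exp (-(v / X * N (d : O)) - qq * v * X * N (0 : O) / N (d : O)) : ℝ) : ℂ) =
        (fun κ : O => if κ ≠ 0 ∧ ∃ ν : O, κ = ν ^ 3 then Fc α κ else 0) (d : O) := by
      intro d
      have h0 : (d : O) ≠ 0 := d.2.ne_zero
      have hN0 : N (0 : O) = 0 := by simp
      rw [gs_zero_div d.2, hN0]
      simp only [Nat.cast_zero, mul_zero, zero_div, sub_zero]
      by_cases h : ∃ m : O, (d : O) = m ^ 3
      · rw [if_pos h, if_pos ⟨h0, h⟩, Fc, if_pos d.2]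
      · rw [if_neg h, if_neg (fun h' => h h'.2), zero_mul]
    rw [Bk, tsum_congr e2]
    refine (tsum_subtype {d : O | Primary d}
      (fun κ : O => if κ ≠ 0 ∧ ∃ ν : O, κ = ν ^ 3 then Fc α κ else 0)).trans ?_
    refine tsum_congr fun κ => ?_
    by_cases hp : Primary κ
    · rw [indicator_of_mem (by exact hp)]
    · rw [indicator_of_notMem (by exact hp), Fc, if_neg hp, ite_self]
  have hs : Summable fun ν : O => if ν = 0 then 0 else Fc α (ν ^ 3) := by
    refine (KU.CT.summable_mt one_pos hC (fun m => Primary (m ^ 3) ∧ (1 : O) ∣ m)).congr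
      fun m => (Fc_mt hα m).symm
  rw [e1, KU.CT.tsum_cubes hs, tsum_congr (Fc_mt hα),
    KU.CT.tsum_primary_cube one_pos hC (P := fun m => (1 : O) ∣ m) (fun m => by simp),
    KU.CT.tsum_not_lam (CL_hX hα) one_pos isCoprime_one_right, mul_one]
  have e3 : ∀ q : O, KU.CT.ctS (hX α) 1 q = Tq (hX α) q := by
    intro q
    rw [KU.CT.ctS, Tq]
    refine tsum_congr fun m => ?_
    rw [mul_one]; rfl
  rw [e3, e3]
  ring

end

/-- error bound for the zeroth coefficient -/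
theorem Bk_zero_asymp {X v : ℝ} (hX0 : 0 < X) (hv : 0 < v) {A : ℝ} (hA : 1 ≤ A) :
    ‖Bk X v 0 - ((2 * π / (9 * √3) * D1 * LL (v / X) : ℝ) : ℂ)‖ ≤
      (1 / 3) * (60000 * (1 + 2 * Real.log A) + 6020 * cZ * (LL (v / X) / A)) := by
  set α := v / X with hα'
  have hα : 0 < α := by positivity
  have h1 := Tq_asymp (HD_hX hα) isEll_one hA
  have h2 := Tq_asymp (HD_hX hα) isEll_lam hA
  rw [nJ0_hX hα, nJ1_hX hα, nL_hX hα, Lam_hX hα] at h1 h2
  rw [Dq_lam] at h2
  have e : Bk X v 0 - ((2 * π / (9 * √3) * D1 * LL α : ℝ) : ℂ) =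
      (1 / 6 : ℂ) * ((Tq (hX α) 1 - ((2 * π / √3 * Dq ell1 : ℝ) : ℂ) * (LL α : ℂ)) -
        (Tq (hX α) lam - ((2 * π / √3 * (D1 / 3) : ℝ) : ℂ) * (LL α : ℂ))) := by
    rw [Bk_zero hX0 hv, ← D1]
    have h3 : ((√3 : ℝ) : ℂ) ≠ 0 := by
      exact_mod_cast (Real.sqrt_pos.2 (by norm_num : (0 : ℝ) < 3)).ne'
    push_cast
    field_simp
    ring
  rw [e, norm_mul]
  have h4 : ‖(1 / 6 : ℂ)‖ = 1 / 6 := by norm_num
  rw [h4]
  refine (mul_le_mul_of_nonneg_left ((norm_sub_le _ _).trans (add_le_add h1 h2))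
    (by norm_num)).trans (le_of_eq ?_)
  ring

/-- the constant of the limit -/
noncomputable def cc0 : ℝ := 4 * π ^ 2 / 243 * D1

/-- **the limit of the constant term** -/
theorem tendsto_bk_zero' {v : ℝ} (hv : 0 < v) :
    Tendsto (fun X : ℝ => bk X v 0) atTop (𝓝 ((cc0 * v ^ (2 / 3 : ℝ) : ℝ) : ℂ)) := by
  rw [tendsto_iff_norm_sub_tendsto_zero]
  have hG := Gamma43_pos
  have hk := kap0_pos
  have hZ := cZ_nonneg
  set L1 : ℝ := Real.Gamma (4 / 3) * v ^ (-(1 / 3) : ℝ) with hL1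
  have hL1p : 0 < L1 := by positivity
  have hlim : Tendsto (fun X : ℝ => (kap0 * v * ((1 / 3) * (120000 + 6020 * cZ * L1))) *
      X ^ (-(1 / 6) : ℝ)) atTop (𝓝 0) := by
    have := (tendsto_rpow_neg_atTop (show (0 : ℝ) < 1 / 6 by norm_num)).const_mul
      (kap0 * v * ((1 / 3) * (120000 + 6020 * cZ * L1)))
    rwa [mul_zero] at this
  refine squeeze_zero' (Eventually.of_forall fun X => norm_nonneg _) ?_ hlim
  filter_upwards [eventually_ge_atTop 1] with X hX1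
  have hX0 : 0 < X := by linarith
  have hA : 1 ≤ X ^ (1 / 6 : ℝ) := Real.one_le_rpow hX1 (by norm_num)
  have h := Bk_zero_asymp hX0 hv hA
  have hLL : LL (v / X) = L1 * X ^ (1 / 3 : ℝ) := by
    rw [LL, one_div_div, Real.div_rpow hX0.le hv.le, hL1, Real.rpow_neg hv.le]
    field_simp
  have hlog : 1 + 2 * Real.log (X ^ (1 / 6 : ℝ)) ≤ 2 * X ^ (1 / 6 : ℝ) := by
    have := Real.log_le_sub_one_of_pos (show 0 < X ^ (1 / 6 : ℝ) by positivity)
    linarith
  have e1 : bk X v 0 - ((cc0 * v ^ (2 / 3 : ℝ) : ℝ) : ℂ) =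
      ((kap0 * v * X ^ (-(1 / 3) : ℝ) : ℝ) : ℂ) *
        (Bk X v 0 - ((2 * π / (9 * √3) * D1 * LL (v / X) : ℝ) : ℂ)) := by
    rw [bk, mul_sub, ← Complex.ofReal_mul]
    congr 2
    rw [hLL, hL1, cc0, kap0]
    have h3 : √3 * √3 = 3 := Real.mul_self_sqrt (by norm_num)
    have h5 : v ^ (2 / 3 : ℝ) = v * v ^ (-(1 / 3) : ℝ) := by
      rw [← Real.rpow_one_add' hv.le (by norm_num)]; norm_num
    have h6 : X ^ (-(1 / 3) : ℝ) * X ^ (1 / 3 : ℝ) = 1 := by
      rw [← Real.rpow_add hX0]; norm_num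
    rw [h5]
    have h7 : 2 * π / (9 * √3 * Real.Gamma (4 / 3)) * v * X ^ (-(1 / 3) : ℝ) *
        (2 * π / (9 * √3) * D1 * (Real.Gamma (4 / 3) * v ^ (-(1 / 3) : ℝ) * X ^ (1 / 3 : ℝ))) =
        (4 * π ^ 2 * D1 * v * v ^ (-(1 / 3) : ℝ)) * (X ^ (-(1 / 3) : ℝ) * X ^ (1 / 3 : ℝ)) /
          (81 * (√3 * √3)) := by
      field_simp
      ring
    rw [h7, h6, h3]
    ring
  have e2 : X ^ (-(1 / 3) : ℝ) * X ^ (1 / 6 : ℝ) = X ^ (-(1 / 6) : ℝ) := by
    rw [← Real.rpow_add hX0]; norm_num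
  have e3 : X ^ (1 / 3 : ℝ) / X ^ (1 / 6 : ℝ) = X ^ (1 / 6 : ℝ) := by
    rw [← Real.rpow_sub hX0]; norm_num
  rw [e1, norm_mul, Complex.norm_real, Real.norm_of_nonneg (by positivity)]
  calc kap0 * v * X ^ (-(1 / 3) : ℝ) * ‖Bk X v 0 - ((2 * π / (9 * √3) * D1 * LL (v / X) : ℝ) : ℂ)‖
      ≤ kap0 * v * X ^ (-(1 / 3) : ℝ) * ((1 / 3) * (60000 * (1 + 2 * Real.log (X ^ (1 / 6 : ℝ))) +
          6020 * cZ * (LL (v / X) / X ^ (1 / 6 : ℝ)))) := by gcongr
    _ ≤ kap0 * v * X ^ (-(1 / 3) : ℝ) * ((1 / 3) * (60000 * (2 * X ^ (1 / 6 : ℝ)) +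
          6020 * cZ * (L1 * X ^ (1 / 6 : ℝ)))) := by
        rw [hLL, mul_div_assoc, e3]
        gcongr
    _ = kap0 * v * ((1 / 3) * (120000 + 6020 * cZ * L1)) *
          (X ^ (-(1 / 3) : ℝ) * X ^ (1 / 6 : ℝ)) := by ring
    _ = _ := by rw [e2]

end Vale.Agent.P006.SG
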