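import Vale.Agent.P006.GRAM.Dq

/-!
P006, block SG: the lower bound `D1 ≥ 0.77` for `D1 = ∑_{a primary} μ(a)/N(a)²`.
-/

open Real

namespace Vale.Agent.P006.SG

open Vale.Agent.P006.GRAM

theorem tele (g : ℕ → ℝ) (a : ℕ) (hg : ∀ k, a ≤ k → g (k + 1) ≤ g k) (h0 : ∀ k, a ≤ k → 0 ≤ g k)
    (K : Finset ℕ) (hK : ∀ k ∈ K, a ≤ k) : ∑ k ∈ K, (g k - g (k + 1)) ≤ g a := by
  have h1 : K ⊆ Finset.Ico a (a + K.sup id + 1) := by
    intro k hk
    rw [Finset.mem_Ico]
    have h2 : id k ≤ K.sup id := Finset.le_sup hk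
    simp only [id] at h2
    exact ⟨hK k hk, by omega⟩
  have h3 : ∑ k ∈ K, (g k - g (k + 1)) ≤ ∑ k ∈ Finset.Ico a (a + K.sup id + 1), (g k - g (k + 1)) :=
    Finset.sum_le_sum_of_subset_of_nonneg h1 fun k hk _ => by
      have := hg k (Finset.mem_Ico.1 hk).1
      linarith
  have h4 : ∀ n, a ≤ n → ∑ k ∈ Finset.Ico a n, (g k - g (k + 1)) = g a - g n := by
    intro n hn
    induction n, hn using Nat.le_induction with
    | base => simp
    | succ n hn ih => rw [Finset.sum_Ico_succ_top hn, ih]; ring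
  rw [h4 _ (by omega)] at h3
  have := h0 (a + K.sup id + 1) (by omega)
  linarith

theorem sum_inv3 (K : Finset ℕ) (hK : ∀ k ∈ K, 3 ≤ k) :
    ∑ k ∈ K, 1 / (3 * (k : ℝ) - 2) ^ 2 ≤ 2 / 33 := by
  have h := tele (fun k => 1 / (3 * (3 * (k : ℝ) - 7 / 2))) 3 (fun k hk => by
      have : (3 : ℝ) ≤ k := by exact_mod_cast hk
      push_cast
      exact one_div_le_one_div_of_le (by linarith) (by linarith)) (fun k hk => by
      have : (3 : ℝ) ≤ k := by exact_mod_cast hk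
      exact one_div_nonneg.2 (by linarith)) K hK
  refine le_trans (Finset.sum_le_sum fun k hk => ?_) (h.trans (by norm_num))
  have h3 : (3 : ℝ) ≤ k := by exact_mod_cast hK k hk
  push_cast
  have hA : (0 : ℝ) < 3 * k - 7 / 2 := by linarith
  have hB : (0 : ℝ) < 3 * k - 1 / 2 := by linarith
  have e1 : 1 / (3 * (3 * (k : ℝ) - 7 / 2)) - 1 / (3 * (3 * ((k : ℝ) + 1) - 7 / 2)) =
      1 / ((3 * (k : ℝ) - 7 / 2) * (3 * k - 1 / 2)) := by
    rw [show 3 * ((k : ℝ) + 1) - 7 / 2 = 3 * k - 1 / 2 by ring]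
    generalize hAA : 3 * (k : ℝ) - 7 / 2 = A at hA
    generalize hBB : 3 * (k : ℝ) - 1 / 2 = B at hB
    have hAB : B - A = 3 := by rw [← hAA, ← hBB]; ring
    have hB' : B = A + 3 := by linarith
    subst hB'
    field_simp
    ring
  rw [e1]
  exact one_div_le_one_div_of_le (by positivity) (by nlinarith)

theorem sum_inv3' (K : Finset ℕ) (hK : ∀ k ∈ K, 2 ≤ k) :
    ∑ k ∈ K, 1 / (3 * (k : ℝ) - 2) ^ 2 ≤ 1 / 16 + 2 / 33 := by
  rw [← Finset.sum_filter_add_sum_filter_not K (fun k => k = 2)]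
  have h1 : ∑ k ∈ K.filter (fun k => k = 2), 1 / (3 * (k : ℝ) - 2) ^ 2 ≤ 1 / 16 := by
    calc ∑ k ∈ K.filter (fun k => k = 2), 1 / (3 * (k : ℝ) - 2) ^ 2 ≤
        ∑ k ∈ ({2} : Finset ℕ), 1 / (3 * (k : ℝ) - 2) ^ 2 :=
          Finset.sum_le_sum_of_subset_of_nonneg (fun k hk => by
            simpa using (Finset.mem_filter.1 hk).2) fun k _ _ => by positivity
      _ ≤ 1 / 16 := by norm_num
  have h2 := sum_inv3 (K.filter (fun k => ¬ k = 2)) fun k hk => by
    have h3 := Finset.mem_filter.1 hk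
    have h4 := hK k h3.1
    omega
  linarith

theorem sum_inv4 (K : Finset ℕ) (hK : ∀ k ∈ K, 2 ≤ k) :
    ∑ k ∈ K, 16 / (3 * (k : ℝ) - 2) ^ 4 ≤ 1 / 16 + 16 / 49 * (2 / 33) := by
  rw [← Finset.sum_filter_add_sum_filter_not K (fun k => k = 2)]
  have h1 : ∑ k ∈ K.filter (fun k => k = 2), 16 / (3 * (k : ℝ) - 2) ^ 4 ≤ 1 / 16 := by
    calc ∑ k ∈ K.filter (fun k => k = 2), 16 / (3 * (k : ℝ) - 2) ^ 4 ≤
        ∑ k ∈ ({2} : Finset ℕ), 16 / (3 * (k : ℝ) - 2) ^ 4 :=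
          Finset.sum_le_sum_of_subset_of_nonneg (fun k hk => by
            simpa using (Finset.mem_filter.1 hk).2) fun k _ _ => by positivity
      _ ≤ 1 / 16 := by norm_num
  have hK3 : ∀ k ∈ K.filter (fun k => ¬ k = 2), 3 ≤ k := fun k hk => by
    have h3 := Finset.mem_filter.1 hk
    have h4 := hK k h3.1
    omega
  have h2 := sum_inv3 _ hK3
  have h5 : ∑ k ∈ K.filter (fun k => ¬ k = 2), 16 / (3 * (k : ℝ) - 2) ^ 4 ≤
      16 / 49 * ∑ k ∈ K.filter (fun k => ¬ k = 2), 1 / (3 * (k : ℝ) - 2) ^ 2 := by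
    rw [Finset.mul_sum]
    refine Finset.sum_le_sum fun k hk => ?_
    have h3 : (3 : ℝ) ≤ k := by exact_mod_cast hK3 k hk
    have h6 : (49 : ℝ) ≤ (3 * (k : ℝ) - 2) ^ 2 := by nlinarith
    have e : 16 / 49 * (1 / (3 * (k : ℝ) - 2) ^ 2) = 16 / (49 * (3 * (k : ℝ) - 2) ^ 2) := by
      rw [div_mul_div_comm, mul_one]
    rw [e]
    apply div_le_div_of_nonneg_left (by norm_num) (by positivity)
    nlinarith [sq_nonneg (3 * (k : ℝ) - 2)]
  linarith

theorem sum_nat2' (K : Finset ℕ) (hK : ∀ k ∈ K, 2 ≤ k) : ∑ k ∈ K, 1 / (k : ℝ) ^ 2 ≤ 2 / 3 := by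
  have h := tele (fun k => 1 / ((k : ℝ) - 1 / 2)) 2 (fun k hk => by
      have : (2 : ℝ) ≤ k := by exact_mod_cast hk
      push_cast
      exact one_div_le_one_div_of_le (by linarith) (by linarith)) (fun k hk => by
      have : (2 : ℝ) ≤ k := by exact_mod_cast hk
      exact one_div_nonneg.2 (by linarith)) K hK
  refine le_trans (Finset.sum_le_sum fun k hk => ?_) (h.trans (by norm_num))
  have h3 : (2 : ℝ) ≤ k := by exact_mod_cast hK k hk
  push_cast
  have hA : (0 : ℝ) < k - 1 / 2 := by linarith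
  have e1 : 1 / ((k : ℝ) - 1 / 2) - 1 / ((k : ℝ) + 1 - 1 / 2) =
      1 / (((k : ℝ) - 1 / 2) * (k + 1 / 2)) := by
    rw [show (k : ℝ) + 1 - 1 / 2 = (k - 1 / 2) + 1 by ring, show (k : ℝ) + 1 / 2 = (k - 1 / 2) + 1 by ring]
    generalize hAA : (k : ℝ) - 1 / 2 = A at hA
    field_simp
    ring
  rw [e1]
  exact one_div_le_one_div_of_le (by positivity) (by nlinarith)

theorem sum_nat2 (K : Finset ℕ) (hK : ∀ k ∈ K, 1 ≤ k) : ∑ k ∈ K, 1 / (k : ℝ) ^ 2 ≤ 5 / 3 := by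
  rw [← Finset.sum_filter_add_sum_filter_not K (fun k => k = 1)]
  have h1 : ∑ k ∈ K.filter (fun k => k = 1), 1 / (k : ℝ) ^ 2 ≤ 1 := by
    calc ∑ k ∈ K.filter (fun k => k = 1), 1 / (k : ℝ) ^ 2 ≤
        ∑ k ∈ ({1} : Finset ℕ), 1 / (k : ℝ) ^ 2 :=
          Finset.sum_le_sum_of_subset_of_nonneg (fun k hk => by
            simpa using (Finset.mem_filter.1 hk).2) fun k _ _ => by positivity
      _ ≤ 1 := by norm_num
  have h2 := sum_nat2' (K.filter (fun k => ¬ k = 1)) fun k hk => by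
    have h3 := Finset.mem_filter.1 hk
    have h4 := hK k h3.1
    omega
  linarith

theorem sum_nat4 (K : Finset ℕ) (hK : ∀ k ∈ K, 1 ≤ k) : ∑ k ∈ K, 1 / (k : ℝ) ^ 4 ≤ 7 / 6 := by
  rw [← Finset.sum_filter_add_sum_filter_not K (fun k => k = 1)]
  have h1 : ∑ k ∈ K.filter (fun k => k = 1), 1 / (k : ℝ) ^ 4 ≤ 1 := by
    calc ∑ k ∈ K.filter (fun k => k = 1), 1 / (k : ℝ) ^ 4 ≤
        ∑ k ∈ ({1} : Finset ℕ), 1 / (k : ℝ) ^ 4 :=
          Finset.sum_le_sum_of_subset_of_nonneg (fun k hk => by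
            simpa using (Finset.mem_filter.1 hk).2) fun k _ _ => by positivity
      _ ≤ 1 := by norm_num
  have hK2 : ∀ k ∈ K.filter (fun k => ¬ k = 1), 2 ≤ k := fun k hk => by
    have h3 := Finset.mem_filter.1 hk
    have h4 := hK k h3.1
    omega
  have h2 := sum_nat2' _ hK2
  have h5 : ∑ k ∈ K.filter (fun k => ¬ k = 1), 1 / (k : ℝ) ^ 4 ≤
      1 / 4 * ∑ k ∈ K.filter (fun k => ¬ k = 1), 1 / (k : ℝ) ^ 2 := by
    rw [Finset.mul_sum]
    refine Finset.sum_le_sum fun k hk => ?_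
    have h3 : (2 : ℝ) ≤ k := by exact_mod_cast hK2 k hk
    have h6 : (4 : ℝ) ≤ (k : ℝ) ^ 2 := by nlinarith
    have e : 1 / 4 * (1 / (k : ℝ) ^ 2) = 1 / (4 * (k : ℝ) ^ 2) := by
      rw [div_mul_div_comm, mul_one]
    rw [e]
    apply one_div_le_one_div_of_le (by positivity)
    nlinarith [sq_nonneg (k : ℝ)]
  linarith

/-- transfer to nonzero multiples of `3` in `ℤ` -/
theorem sum_mul3 (f : ℕ → ℝ) (B : ℝ) (hf : ∀ K : Finset ℕ, (∀ k ∈ K, 1 ≤ k) → ∑ k ∈ K, f k ≤ B)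
    (J : Finset ℤ) (hJ : ∀ y ∈ J, y ≠ 0 ∧ (3 : ℤ) ∣ y) :
    ∑ y ∈ J, f (y.natAbs / 3) ≤ 2 * B := by
  rw [← Finset.sum_filter_add_sum_filter_not J (fun y => 0 < y), two_mul]
  refine add_le_add ?_ ?_
  · have hinj : Set.InjOn (fun y : ℤ => y.natAbs / 3) (J.filter (fun y => 0 < y)) := by
      intro y hy z hz h
      have hy' := Finset.mem_filter.1 (Finset.mem_coe.1 hy)
      have hz' := Finset.mem_filter.1 (Finset.mem_coe.1 hz)
      have h1 := hJ y hy'.1
      have h2 := hJ z hz'.1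
      simp only at h
      omega
    rw [← Finset.sum_image (f := f) (g := fun y : ℤ => y.natAbs / 3) hinj]
    apply hf
    intro k hk
    obtain ⟨y, hy, rfl⟩ := Finset.mem_image.1 hk
    have h1 := hJ y (Finset.mem_filter.1 hy).1
    omega
  · have hinj : Set.InjOn (fun y : ℤ => y.natAbs / 3) (J.filter (fun y => ¬ 0 < y)) := by
      intro y hy z hz h
      have hy' := Finset.mem_filter.1 (Finset.mem_coe.1 hy)
      have hz' := Finset.mem_filter.1 (Finset.mem_coe.1 hz)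
      have h1 := hJ y hy'.1
      have h2 := hJ z hz'.1
      simp only at h
      omega
    rw [← Finset.sum_image (f := f) (g := fun y : ℤ => y.natAbs / 3) hinj]
    apply hf
    intro k hk
    obtain ⟨y, hy, rfl⟩ := Finset.mem_image.1 hk
    have h1 := hJ y (Finset.mem_filter.1 hy).1
    omega

theorem sum_y2 (J : Finset ℤ) (hJ : ∀ y ∈ J, y ≠ 0 ∧ (3 : ℤ) ∣ y) :
    ∑ y ∈ J, 1 / (y : ℝ) ^ 2 ≤ 10 / 27 := by
  have h := sum_mul3 (fun k => 1 / 9 * (1 / (k : ℝ) ^ 2)) (1 / 9 * (5 / 3)) (fun K hK => by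
    rw [← Finset.mul_sum]
    exact mul_le_mul_of_nonneg_left (sum_nat2 K hK) (by norm_num)) J hJ
  refine le_trans (le_of_eq (Finset.sum_congr rfl fun y hy => ?_)) (h.trans (by norm_num))
  obtain ⟨h1, z, rfl⟩ := hJ y hy
  have h2 : (3 * z).natAbs / 3 = z.natAbs := by omega
  have h3 : ((z.natAbs : ℕ) : ℝ) ^ 2 = (z : ℝ) ^ 2 := by
    rw [Nat.cast_natAbs]; push_cast; exact sq_abs _
  rw [h2, h3]
  push_cast
  rw [div_mul_div_comm, mul_pow]
  norm_num

theorem sum_y4 (J : Finset ℤ) (hJ : ∀ y ∈ J, y ≠ 0 ∧ (3 : ℤ) ∣ y) :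
    ∑ y ∈ J, 1 / (y : ℝ) ^ 4 ≤ 7 / 243 := by
  have h := sum_mul3 (fun k => 1 / 81 * (1 / (k : ℝ) ^ 4)) (1 / 81 * (7 / 6)) (fun K hK => by
    rw [← Finset.mul_sum]
    exact mul_le_mul_of_nonneg_left (sum_nat4 K hK) (by norm_num)) J hJ
  refine le_trans (le_of_eq (Finset.sum_congr rfl fun y hy => ?_)) (h.trans (by norm_num))
  obtain ⟨h1, z, rfl⟩ := hJ y hy
  have h2 : (3 * z).natAbs / 3 = z.natAbs := by omega
  have h3 : ((z.natAbs : ℕ) : ℝ) ^ 4 = (z : ℝ) ^ 4 := by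
    rw [Nat.cast_natAbs]; push_cast
    rw [show (4 : ℕ) = 2 * 2 from rfl, pow_mul, sq_abs, pow_mul]
  rw [h2, h3]
  push_cast
  rw [div_mul_div_comm, mul_pow]
  norm_num

/-- the row index -/
def kidx (a : O) : ℕ := ((2 * a.re - a.im).natAbs + 2) / 3

theorem primary_mod {a : O} (ha : Primary a) : a.re % 3 = 1 ∧ a.im % 3 = 0 := by
  obtain ⟨k, hk⟩ := ha
  have h3 : (3 : O) = ⟨3, 0⟩ := by decide
  have h1 : (a - 1).re = 3 * k.re := by
    rw [hk, h3]; simp [QuadraticAlgebra.re_mul]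
  have h2 : (a - 1).im = 3 * k.im := by
    rw [hk, h3]; simp [QuadraticAlgebra.im_mul]
  simp only [QuadraticAlgebra.re_sub, QuadraticAlgebra.im_sub, QuadraticAlgebra.re_one,
    QuadraticAlgebra.im_one] at h1 h2
  omega

theorem four_N (a : O) :
    4 * (N a : ℝ) = (((2 * a.re - a.im : ℤ) : ℝ)) ^ 2 + 3 * (a.im : ℝ) ^ 2 := by
  have h := N_cast_int' a
  have h2 : ((N a : ℤ) : ℝ) = ((a.re * a.re - a.re * a.im + a.im * a.im : ℤ) : ℝ) := by rw [h]
  push_cast at h2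
  rw [h2]; push_cast; ring

theorem kidx_le {a : O} : (3 * (kidx a : ℝ) - 2) ≤ |((2 * a.re - a.im : ℤ) : ℝ)| := by
  have h : 3 * kidx a ≤ (2 * a.re - a.im).natAbs + 2 := by
    rw [kidx]; omega
  have h2 : (3 * (kidx a : ℝ)) ≤ ((2 * a.re - a.im).natAbs : ℝ) + 2 := by exact_mod_cast h
  rw [Nat.cast_natAbs] at h2
  push_cast at h2 ⊢
  linarith

theorem kidx_inj {a b : O} (ha : Primary a) (hb : Primary b) (hi : a.im = b.im)
    (hk : kidx a = kidx b) : a = b := by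
  have h1 := primary_mod ha
  have h2 := primary_mod hb
  rw [kidx, kidx] at hk
  exact QuadraticAlgebra.ext (by omega) hi

theorem kidx_pos {a : O} (ha : Primary a) : 1 ≤ kidx a := by
  have h1 := primary_mod ha
  rw [kidx]; omega

/-- the whole sum -/
theorem sum_prim_le (s : Finset O) (hs : ∀ a ∈ s, Primary a ∧ a ≠ 1) :
    ∑ a ∈ s, 1 / (N a : ℝ) ^ 2 ≤ 0.2 := by
  classical
  have hN : ∀ a ∈ s, (0 : ℝ) < N a := fun a ha => by
    exact_mod_cast N_pos (hs a ha).1.ne_zero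
  rw [← Finset.sum_filter_add_sum_filter_not s (fun a => a.im = 0),
    ← Finset.sum_filter_add_sum_filter_not (s.filter (fun a => ¬ a.im = 0)) (fun a => kidx a = 1)]
  -- first part
  have hk2 : ∀ a ∈ s.filter (fun a => a.im = 0), 2 ≤ kidx a := by
    intro a ha
    have h1 := Finset.mem_filter.1 ha
    have h2 := hs a h1.1
    have h3 := primary_mod h2.1
    have h4 : a.re ≠ 1 := fun h => h2.2 (QuadraticAlgebra.ext (by simp [h, QuadraticAlgebra.re_one])
      (by simp [h1.2, QuadraticAlgebra.im_one]))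
    rw [kidx]
    have h5 := h1.2
    omega
  have hA : ∑ a ∈ s.filter (fun a => a.im = 0), 1 / (N a : ℝ) ^ 2 ≤ 1 / 16 + 16 / 49 * (2 / 33) := by
    have hinj : Set.InjOn kidx (s.filter (fun a => a.im = 0)) := by
      intro a ha b hb h
      have h1 := Finset.mem_filter.1 (Finset.mem_coe.1 ha)
      have h2 := Finset.mem_filter.1 (Finset.mem_coe.1 hb)
      exact kidx_inj (hs a h1.1).1 (hs b h2.1).1 (by rw [h1.2, h2.2]) h
    have h1 : ∑ a ∈ s.filter (fun a => a.im = 0), 1 / (N a : ℝ) ^ 2 ≤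
        ∑ a ∈ s.filter (fun a => a.im = 0), 16 / (3 * (kidx a : ℝ) - 2) ^ 4 := by
      refine Finset.sum_le_sum fun a ha => ?_
      have h1 := Finset.mem_filter.1 ha
      have h4 := four_N a
      have h5 := @kidx_le a
      have h6 : (2 : ℝ) ≤ kidx a := by exact_mod_cast hk2 a ha
      have h7 := sq_abs (((2 * a.re - a.im : ℤ) : ℝ))
      have h8 : (3 * (kidx a : ℝ) - 2) ^ 2 ≤ 4 * (N a : ℝ) := by
        rw [h4, ← h7]; nlinarith [sq_nonneg (a.im : ℝ)]
      have h9 : (3 * (kidx a : ℝ) - 2) ^ 4 ≤ 16 * (N a : ℝ) ^ 2 := by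
        nlinarith [sq_nonneg (3 * (kidx a : ℝ) - 2), sq_nonneg (N a : ℝ)]
      have h10 := hN a h1.1
      have h11 : (0 : ℝ) < (3 * (kidx a : ℝ) - 2) ^ 4 := by
        have : (0 : ℝ) < 3 * (kidx a : ℝ) - 2 := by linarith
        positivity
      rw [div_le_div_iff₀ (by positivity) h11]
      linarith
    refine h1.trans ?_
    rw [← Finset.sum_image (f := fun k : ℕ => 16 / (3 * (k : ℝ) - 2) ^ 4) (g := kidx) hinj]
    apply sum_inv4
    intro k hk
    obtain ⟨a, ha, rfl⟩ := Finset.mem_image.1 hk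
    exact hk2 a ha
  -- second part
  have hB : ∑ a ∈ (s.filter (fun a => ¬ a.im = 0)).filter (fun a => kidx a = 1),
      1 / (N a : ℝ) ^ 2 ≤ 16 / 9 * (7 / 243) := by
    have hinj : Set.InjOn (fun a : O => a.im)
        ((s.filter (fun a => ¬ a.im = 0)).filter (fun a => kidx a = 1)) := by
      intro a ha b hb h
      have h1 := Finset.mem_filter.1 (Finset.mem_coe.1 ha)
      have h2 := Finset.mem_filter.1 (Finset.mem_coe.1 hb)
      exact kidx_inj (hs a (Finset.mem_filter.1 h1.1).1).1 (hs b (Finset.mem_filter.1 h2.1).1).1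
        h (by rw [h1.2, h2.2])
    have h1 : ∑ a ∈ (s.filter (fun a => ¬ a.im = 0)).filter (fun a => kidx a = 1),
        1 / (N a : ℝ) ^ 2 ≤
        ∑ a ∈ (s.filter (fun a => ¬ a.im = 0)).filter (fun a => kidx a = 1),
          16 / 9 * (1 / (a.im : ℝ) ^ 4) := by
      refine Finset.sum_le_sum fun a ha => ?_
      have h1 := Finset.mem_filter.1 (Finset.mem_filter.1 ha).1
      have h4 := four_N a
      have h8 : 3 * (a.im : ℝ) ^ 2 ≤ 4 * (N a : ℝ) := by
        rw [h4]; nlinarith [sq_nonneg (((2 * a.re - a.im : ℤ) : ℝ))]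
      have h9 : 9 * (a.im : ℝ) ^ 4 ≤ 16 * (N a : ℝ) ^ 2 := by
        nlinarith [sq_nonneg (a.im : ℝ), sq_nonneg (N a : ℝ)]
      have h10 := hN a h1.1
      have h11 : (0 : ℝ) < (a.im : ℝ) ^ 4 := by
        have : (a.im : ℝ) ≠ 0 := by exact_mod_cast h1.2
        positivity
      rw [div_mul_div_comm, mul_one, div_le_div_iff₀ (by positivity) (by positivity)]
      linarith
    refine h1.trans ?_
    rw [← Finset.mul_sum, ← Finset.sum_image (f := fun y : ℤ => 1 / (y : ℝ) ^ 4)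
      (g := fun a : O => a.im) hinj]
    refine mul_le_mul_of_nonneg_left (sum_y4 _ ?_) (by norm_num)
    intro y hy
    obtain ⟨a, ha, rfl⟩ := Finset.mem_image.1 hy
    have h1 := Finset.mem_filter.1 (Finset.mem_filter.1 ha).1
    have h2 := primary_mod (hs a h1.1).1
    exact ⟨h1.2, by omega⟩
  -- third part
  have hC : ∑ a ∈ (s.filter (fun a => ¬ a.im = 0)).filter (fun a => ¬ kidx a = 1),
      1 / (N a : ℝ) ^ 2 ≤ 4 / 3 * (10 / 27 * (1 / 16 + 2 / 33)) := by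
    set S := (s.filter (fun a => ¬ a.im = 0)).filter (fun a => ¬ kidx a = 1) with hS
    have hinj : Set.InjOn (fun a : O => (a.im, kidx a)) S := by
      intro a ha b hb h
      have h1 := Finset.mem_filter.1 (Finset.mem_coe.1 ha)
      have h2 := Finset.mem_filter.1 (Finset.mem_coe.1 hb)
      simp only [Prod.mk.injEq] at h
      exact kidx_inj (hs a (Finset.mem_filter.1 h1.1).1).1 (hs b (Finset.mem_filter.1 h2.1).1).1
        h.1 h.2
    have hk2 : ∀ a ∈ S, 2 ≤ kidx a := by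
      intro a ha
      have h1 := Finset.mem_filter.1 ha
      have h2 := kidx_pos (hs a (Finset.mem_filter.1 h1.1).1).1
      have h3 := h1.2
      omega
    have h1 : ∑ a ∈ S, 1 / (N a : ℝ) ^ 2 ≤
        ∑ a ∈ S, 4 / 3 * (1 / (a.im : ℝ) ^ 2 * (1 / (3 * (kidx a : ℝ) - 2) ^ 2)) := by
      refine Finset.sum_le_sum fun a ha => ?_
      have h1 := Finset.mem_filter.1 (Finset.mem_filter.1 ha).1
      have h4 := four_N a
      have h5 := @kidx_le a
      have h6 : (2 : ℝ) ≤ kidx a := by exact_mod_cast hk2 a ha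
      have h7 := sq_abs (((2 * a.re - a.im : ℤ) : ℝ))
      have h0 : (0 : ℝ) < 3 * (kidx a : ℝ) - 2 := by linarith
      have h8 : (3 * (kidx a : ℝ) - 2) ^ 2 + 3 * (a.im : ℝ) ^ 2 ≤ 4 * (N a : ℝ) := by
        rw [h4, ← h7]
        have : (3 * (kidx a : ℝ) - 2) ^ 2 ≤ |((2 * a.re - a.im : ℤ) : ℝ)| ^ 2 :=
          pow_le_pow_left₀ h0.le h5 2
        linarith
      have h10 := hN a h1.1
      have h11 : (0 : ℝ) < (a.im : ℝ) ^ 2 := by
        have : (a.im : ℝ) ≠ 0 := by exact_mod_cast h1.2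
        positivity
      have h9 : 12 * ((a.im : ℝ) ^ 2 * (3 * (kidx a : ℝ) - 2) ^ 2) ≤ 16 * (N a : ℝ) ^ 2 := by
        have h12 : ((3 * (kidx a : ℝ) - 2) ^ 2 + 3 * (a.im : ℝ) ^ 2) ^ 2 ≤ (4 * (N a : ℝ)) ^ 2 :=
          pow_le_pow_left₀ (by positivity) h8 2
        nlinarith [sq_nonneg ((3 * (kidx a : ℝ) - 2) ^ 2 - 3 * (a.im : ℝ) ^ 2)]
      have h13 : (0 : ℝ) < (3 * (kidx a : ℝ) - 2) ^ 2 := by positivity
      rw [div_mul_div_comm, div_mul_div_comm, mul_one, mul_one,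
        div_le_div_iff₀ (by positivity) (by positivity)]
      linarith
    refine h1.trans ?_
    rw [← Finset.mul_sum]
    refine mul_le_mul_of_nonneg_left ?_ (by norm_num)
    rw [← Finset.sum_image (f := fun p : ℤ × ℕ => 1 / (p.1 : ℝ) ^ 2 * (1 / (3 * (p.2 : ℝ) - 2) ^ 2))
      (g := fun a : O => (a.im, kidx a)) hinj]
    have h2 : ∑ p ∈ S.image (fun a : O => (a.im, kidx a)),
        1 / (p.1 : ℝ) ^ 2 * (1 / (3 * (p.2 : ℝ) - 2) ^ 2) ≤
        ∑ p ∈ S.image (fun a : O => a.im) ×ˢ S.image kidx,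
          1 / (p.1 : ℝ) ^ 2 * (1 / (3 * (p.2 : ℝ) - 2) ^ 2) := by
      refine Finset.sum_le_sum_of_subset_of_nonneg ?_ fun p _ _ => by positivity
      intro p hp
      obtain ⟨a, ha, rfl⟩ := Finset.mem_image.1 hp
      exact Finset.mem_product.2 ⟨Finset.mem_image_of_mem _ ha, Finset.mem_image_of_mem _ ha⟩
    refine h2.trans ?_
    rw [Finset.sum_product]
    simp only
    rw [← Finset.sum_mul_sum]
    refine mul_le_mul (sum_y2 _ ?_) (sum_inv3' _ ?_) (Finset.sum_nonneg fun k _ => by positivity)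
      (by norm_num)
    · intro y hy
      obtain ⟨a, ha, rfl⟩ := Finset.mem_image.1 hy
      have h1 := Finset.mem_filter.1 (Finset.mem_filter.1 ha).1
      have h2 := primary_mod (hs a h1.1).1
      exact ⟨h1.2, by omega⟩
    · intro k hk
      obtain ⟨a, ha, rfl⟩ := Finset.mem_image.1 hk
      exact hk2 a ha
  norm_num at hA hB hC ⊢
  linarith

theorem D1_ge : 0.8 ≤ D1 := by
  classical
  rw [D1_eq, summable_x.tsum_eq_add_tsum_ite 1]
  have h1 : wmu 1 * (1 / (N (1 : O) : ℝ)) = 1 := by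
    rw [wmu, if_pos]
    · simp [TI.mu_one]
    · simp [Primary]
  rw [h1]
  have hs : Summable (fun a : O => if a = 1 then 0 else wmu a * (1 / (N a : ℝ))) := by
    refine Summable.of_norm_bounded summable_x.norm fun a => ?_
    split_ifs
    · rw [norm_zero]; exact norm_nonneg _
    · exact le_rfl
  have h2 : |∑' a : O, (if a = 1 then 0 else wmu a * (1 / (N a : ℝ)))| ≤ 0.2 := by
    rw [← Real.norm_eq_abs]
    refine (norm_tsum_le_tsum_norm hs.norm).trans ?_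
    refine hs.norm.tsum_le_of_sum_le fun s => ?_
    have h3 : ∑ a ∈ s, ‖(if a = 1 then 0 else wmu a * (1 / (N a : ℝ)))‖ ≤
        ∑ a ∈ s.filter (fun a => Primary a ∧ a ≠ 1), 1 / (N a : ℝ) ^ 2 := by
      rw [Finset.sum_filter]
      refine Finset.sum_le_sum fun a _ => ?_
      by_cases h0 : a = 1
      · simp [h0]
      · rw [if_neg h0]
        by_cases hp : Primary a
        · rw [if_pos ⟨hp, h0⟩, Real.norm_eq_abs, abs_mul]
          have h5 : (0 : ℝ) < N a := by exact_mod_cast N_pos hp.ne_zero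
          have h6 := abs_wmu_le a
          rw [Real.rpow_neg_one] at h6
          calc |wmu a| * |1 / (N a : ℝ)| ≤ (N a : ℝ)⁻¹ * |1 / (N a : ℝ)| :=
                mul_le_mul_of_nonneg_right h6 (abs_nonneg _)
            _ = 1 / (N a : ℝ) ^ 2 := by
                rw [abs_of_pos (by positivity)]
                field_simp
        · rw [if_neg (fun h => hp h.1), wmu_of_not hp]; simp
    exact h3.trans (sum_prim_le _ fun a ha => (Finset.mem_filter.1 ha).2)
  have h4 := (abs_le.1 h2).1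
  norm_num at h4 ⊢
  linarith

noncomputable def D0 : ℝ := ∑' a : O, GRAM.wmu a * (1 / (N a : ℝ))

noncomputable def c00 : ℝ := 4 * π ^ 2 / 243 * D0

theorem D0_eq : D0 = D1 := D1_eq.symm

theorem c00_ge : 1 / 8 ≤ c00 := by
  rw [c00, D0_eq]
  have h1 := D1_ge
  have h2 := Real.pi_gt_d2
  have h3 : (3.14 : ℝ) ^ 2 ≤ π ^ 2 := pow_le_pow_left₀ (by norm_num) h2.le 2
  have h4 : (9.8 : ℝ) ≤ π ^ 2 := by norm_num at h3; linarith
  have h5 : (9.8 : ℝ) * 0.8 ≤ π ^ 2 * D1 := mul_le_mul h4 h1 (by norm_num) (by positivity)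
  have h6 : 4 * π ^ 2 / 243 * D1 = 4 / 243 * (π ^ 2 * D1) := by ring
  rw [h6]
  norm_num at h5
  linarith

end Vale.Agent.P006.SG
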