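import Vale.Agent.P006.SG.Assemble
import Vale.Agent.P006.SG.Const
import Vale.Agent.P006.SG.ConstNum

/-!
P006, block SG: **the sign of `θ 1`**, unconditional.
-/

open Filter Topology
open scoped Real

namespace Vale.Agent.P006.SG

theorem constGoal : ConstGoal := by
  refine ⟨fun v hv => tendsto_bk_zero' hv, ?_⟩
  have h := c00_ge
  rw [c00, D0_eq] at h
  exact h

/-- `θ 1` is a positive real number -/
theorem autSign : AutSign := autSign_of constGoal

end Vale.Agent.P006.SG
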