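import Vale.Agent.P006.SG.Bessel

/-!
P006, block SG: recurrence, scaling and decay of `F a y = ∫_0^∞ s^{a-1} e^{-s-y/s} ds`.
-/

open MeasureTheory Set Real Filter

namespace Vale.Agent.P006.SG

/-- `F (a+1) y = a F a y + y F (a-1) y` -/
theorem F_rec {a y : ℝ} (ha : 0 < a) (hy : 0 < y) :
    F (a + 1) y = a * F a y + y * F (a - 1) y := by
  set f : ℝ → ℝ := fun s => s ^ a * exp (-s - y / s) with hf
  set f' : ℝ → ℝ := fun s => a * fker a y s - fker (a + 1) y s + y * fker (a - 1) y s with hf'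
  have hfn : ∀ s : ℝ, 0 < s → 0 ≤ f s := fun s hs => by simp only [hf]; positivity
  have hfle : ∀ s : ℝ, 0 < s → f s ≤ s ^ a := fun s hs => by
    simp only [hf]
    refine mul_le_of_le_one_right (by positivity) (Real.exp_le_one_iff.2 ?_)
    have : 0 ≤ y / s := by positivity
    linarith
  have hfle2 : ∀ s : ℝ, 0 < s → f s ≤ s ^ a * exp (-1 * s) := fun s hs => by
    simp only [hf]
    refine mul_le_mul_of_nonneg_left (Real.exp_le_exp.2 ?_) (by positivity)
    have : 0 ≤ y / s := by positivity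
    linarith
  have h0 : f 0 = 0 := by simp [hf, Real.zero_rpow ha.ne']
  have hcont : ContinuousWithinAt f (Ici 0) 0 := by
    rw [ContinuousWithinAt, h0]
    have h1 : Tendsto (fun s : ℝ => s ^ a) (nhdsWithin 0 (Ici 0)) (nhds 0) := by
      have h2 : ContinuousAt (fun s : ℝ => s ^ a) 0 :=
        Real.continuousAt_rpow_const 0 a (Or.inr ha.le)
      have h3 := h2.tendsto
      simp only [Real.zero_rpow ha.ne'] at h3
      exact h3.mono_left nhdsWithin_le_nhds
    refine tendsto_of_tendsto_of_tendsto_of_le_of_le' tendsto_const_nhds h1 ?_ ?_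
    · filter_upwards [self_mem_nhdsWithin] with s hs
      rcases (show (0 : ℝ) ≤ s from hs).eq_or_lt with h | h
      · rw [← h, h0]
      · exact hfn s h
    · filter_upwards [self_mem_nhdsWithin] with s hs
      rcases (show (0 : ℝ) ≤ s from hs).eq_or_lt with h | h
      · rw [← h, h0, Real.zero_rpow ha.ne']
      · exact hfle s h
  have hderiv : ∀ s ∈ Ioi (0 : ℝ), HasDerivAt f (f' s) s := by
    intro s hs
    have hs : (0 : ℝ) < s := hs
    have h1 := Real.hasDerivAt_rpow_const (p := a) (Or.inl hs.ne')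
    have h2 : HasDerivAt (fun s : ℝ => -s - y / s) (-1 + y / s ^ 2) s := by
      have h3 := ((hasDerivAt_id s).neg).sub ((hasDerivAt_inv hs.ne').const_mul y)
      refine (h3.congr_deriv ?_).congr_of_eventuallyEq ?_
      · field_simp
        ring
      · exact Eventually.of_forall fun x => by simp [div_eq_mul_inv]
    refine (h1.mul h2.exp).congr_deriv ?_
    simp only [hf', fker]
    rw [show a + 1 - 1 = a by ring, show a - 1 - 1 = a - 2 by ring, Real.rpow_sub hs a 2,
      Real.rpow_two]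
    ring
  have hint : IntegrableOn f' (Ioi 0) :=
    ((integrableOn_fker hy).const_mul _ |>.sub (integrableOn_fker hy)).add
      ((integrableOn_fker hy).const_mul _)
  have hlim : Tendsto f atTop (nhds 0) := by
    refine tendsto_of_tendsto_of_tendsto_of_le_of_le' tendsto_const_nhds
      (tendsto_rpow_mul_exp_neg_mul_atTop_nhds_zero a 1 one_pos) ?_ ?_
    · filter_upwards [eventually_gt_atTop 0] with s hs using hfn s hs
    · filter_upwards [eventually_gt_atTop 0] with s hs using hfle2 s hs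
  have h := integral_Ioi_of_hasDerivAt_of_tendsto hcont hderiv hint hlim
  rw [h0, sub_zero] at h
  have h4 : ∫ s in Ioi (0 : ℝ), f' s = a * F a y - F (a + 1) y + y * F (a - 1) y := by
    unfold F
    rw [← integral_const_mul, ← integral_const_mul, ← integral_sub
      ((integrableOn_fker hy).const_mul _) (integrableOn_fker hy)]
    exact integral_add (((integrableOn_fker hy).const_mul _).sub (integrableOn_fker hy))
      ((integrableOn_fker hy).const_mul _)
  rw [h4] at h
  linarith

/-- scaling: `∫_0^∞ t^{a-1} e^{-αt-β/t} dt = α^{-a} F a (αβ)` -/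
theorem integral_scale {a α β : ℝ} (hα : 0 < α) :
    ∫ t in Ioi (0 : ℝ), t ^ (a - 1) * exp (-(α * t) - β / t) = α ^ (-a) * F a (α * β) := by
  have h := integral_comp_mul_left_Ioi (fun s => fker a (α * β) s) 0 hα
  rw [mul_zero, smul_eq_mul] at h
  unfold F
  have h2 : ∫ t in Ioi (0 : ℝ), t ^ (a - 1) * exp (-(α * t) - β / t) =
      α ^ (1 - a) * ∫ t in Ioi (0 : ℝ), fker a (α * β) (α * t) := by
    rw [← integral_const_mul]
    refine setIntegral_congr_fun measurableSet_Ioi fun t ht => ?_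
    have ht : (0 : ℝ) < t := ht
    simp only [fker]
    rw [Real.mul_rpow hα.le ht.le, show α * β / (α * t) = β / t by field_simp]
    have : α ^ (1 - a) * α ^ (a - 1) = 1 := by
      rw [← Real.rpow_add hα]; norm_num
    calc t ^ (a - 1) * exp (-(α * t) - β / t)
        = (α ^ (1 - a) * α ^ (a - 1)) * (t ^ (a - 1) * exp (-(α * t) - β / t)) := by
          rw [this, one_mul]
      _ = _ := by ring
  rw [h2, h]
  have : α ^ (1 - a) * α⁻¹ = α ^ (-a) := by
    rw [← Real.rpow_neg_one, ← Real.rpow_add hα]; ring_nf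
  rw [← mul_assoc, this]

theorem integrableOn_scale {a α β : ℝ} (hα : 0 < α) (hβ : 0 < β) :
    IntegrableOn (fun t : ℝ => t ^ (a - 1) * exp (-(α * t) - β / t)) (Ioi 0) := by
  have h := (integrableOn_Ioi_comp_mul_left_iff (fun s => fker a (α * β) s) 0 hα).2
    (by rw [mul_zero]; exact integrableOn_fker (by positivity))
  refine IntegrableOn.congr_fun (h.const_mul (α ^ (1 - a))) (fun t ht => ?_) measurableSet_Ioi
  have ht : (0 : ℝ) < t := ht
  simp only [fker]
  rw [Real.mul_rpow hα.le ht.le, show α * β / (α * t) = β / t by field_simp]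
  have : α ^ (1 - a) * α ^ (a - 1) = 1 := by
    rw [← Real.rpow_add hα]; norm_num
  calc α ^ (1 - a) * (α ^ (a - 1) * t ^ (a - 1) * exp (-(α * t) - β / t))
      = (α ^ (1 - a) * α ^ (a - 1)) * (t ^ (a - 1) * exp (-(α * t) - β / t)) := by ring
    _ = _ := by rw [this, one_mul]

/-- exponential decay -/
theorem F_le_exp {a : ℝ} (ha : 0 < a) : ∃ C : ℝ, 0 ≤ C ∧ ∀ y : ℝ, 0 ≤ y →
    F a y ≤ C * exp (-√y) := by
  have hI : IntegrableOn (fun s : ℝ => s ^ (a - 1) * exp (-(1 / 2 * s))) (Ioi 0) := by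
    have h := (integrableOn_Ioi_comp_mul_left_iff (fun s => exp (-s) * s ^ (a - 1)) 0
      (show (0 : ℝ) < 1 / 2 by norm_num)).2
      (by rw [mul_zero]; exact Real.GammaIntegral_convergent ha)
    refine IntegrableOn.congr_fun (h.const_mul ((1 / 2 : ℝ) ^ (1 - a))) (fun t ht => ?_)
      measurableSet_Ioi
    have ht : (0 : ℝ) < t := ht
    rw [Real.mul_rpow (by norm_num) ht.le]
    have : (1 / 2 : ℝ) ^ (1 - a) * (1 / 2 : ℝ) ^ (a - 1) = 1 := by
      rw [← Real.rpow_add (by norm_num)]; norm_num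
    calc (1 / 2 : ℝ) ^ (1 - a) * (exp (-(1 / 2 * t)) * ((1 / 2 : ℝ) ^ (a - 1) * t ^ (a - 1)))
        = ((1 / 2 : ℝ) ^ (1 - a) * (1 / 2 : ℝ) ^ (a - 1)) * (t ^ (a - 1) * exp (-(1 / 2 * t))) := by
          ring
      _ = _ := by rw [this, one_mul]
  refine ⟨∫ s in Ioi (0 : ℝ), s ^ (a - 1) * exp (-(1 / 2 * s)),
    setIntegral_nonneg measurableSet_Ioi fun s hs => by
      have hs : (0 : ℝ) < s := hs
      positivity, fun y hy => ?_⟩
  unfold F
  rw [← integral_mul_const]
  refine setIntegral_mono_on (integrableOn_fker_of_pos ha hy) (hI.mul_const _) measurableSet_Ioi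
    fun s hs => ?_
  have hs : (0 : ℝ) < s := hs
  rw [fker, mul_assoc, ← Real.exp_add]
  refine mul_le_mul_of_nonneg_left (Real.exp_le_exp.2 ?_) (by positivity)
  have h1 : √y ≤ 1 / 2 * s + y / s := by
    refine Real.sqrt_le_iff.2 ⟨by positivity, ?_⟩
    have h2 : 0 ≤ (1 / 2 * s - y / s) ^ 2 := sq_nonneg _
    have h3 : 1 / 2 * s * (y / s) = y / 2 := by field_simp
    nlinarith
  linarith

end Vale.Agent.P006.SG
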