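import Vale.Agent.P006.SG.Expan
import Vale.Agent.P006.SG.FLem
import Vale.Agent.P006.H570.Per

/-!
P006, block SG: partial summation against the kernel `t^{-1/2} e^{-αt-β/t}`.
-/

open MeasureTheory Filter Topology Set
open scoped Real

namespace Vale.Agent.P006.SG

open PO H570

/-- the weight -/
noncomputable def ww (α β t : ℝ) : ℝ := t ^ (-(1 / 2) : ℝ) * Real.exp (-(α * t) - β / t)

/-- its derivative -/
noncomputable def ww' (α β t : ℝ) : ℝ := (-(1 / (2 * t)) - α + β / t ^ 2) * ww α β t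

/-- majorant of the derivative -/
noncomputable def wm (α β t : ℝ) : ℝ := (1 / (2 * t) + α + β / t ^ 2) * ww α β t

section
variable {α β : ℝ}

theorem ww_nonneg {t : ℝ} (ht : 0 < t) : 0 ≤ ww α β t := by unfold ww; positivity

theorem hasDerivAt_ww {t : ℝ} (ht : 0 < t) : HasDerivAt (ww α β) (ww' α β t) t := by
  have h1 := Real.hasDerivAt_rpow_const (p := (-(1 / 2) : ℝ)) (Or.inl ht.ne')
  have h2 : HasDerivAt (fun s : ℝ => -(α * s) - β / s) (-α + β / t ^ 2) t := by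
    have h3 := (((hasDerivAt_id t).const_mul α).neg).sub ((hasDerivAt_inv ht.ne').const_mul β)
    refine (h3.congr_deriv ?_).congr_of_eventuallyEq ?_
    · field_simp
      ring
    · exact Eventually.of_forall fun x => by simp [div_eq_mul_inv]
  refine (h1.mul h2.exp).congr_deriv ?_
  rw [ww', ww, show (-(1 / 2) - 1 : ℝ) = -(1 / 2) + -1 by norm_num, Real.rpow_add ht,
    Real.rpow_neg_one]
  field_simp
  ring

theorem abs_ww'_le (hα : 0 ≤ α) (hβ : 0 ≤ β) {t : ℝ} (ht : 0 < t) : |ww' α β t| ≤ wm α β t := by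
  rw [ww', wm, abs_mul, abs_of_nonneg (ww_nonneg ht)]
  refine mul_le_mul_of_nonneg_right ?_ (ww_nonneg ht)
  have h1 : 0 ≤ 1 / (2 * t) := by positivity
  have h2 : 0 ≤ β / t ^ 2 := by positivity
  rw [abs_le]; constructor <;> linarith

/-- integrals of `t^c |w'(t)|` -/
theorem integral_rpow_wm (hα : 0 < α) (hβ : 0 < β) (c : ℝ) :
    IntegrableOn (fun t => t ^ c * wm α β t) (Ioi 0) ∧
    ∫ t in Ioi (0 : ℝ), t ^ c * wm α β t = α ^ (-(c - 1 / 2)) * (1 / 2 * F (c - 1 / 2) (α * β) +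
      F (c + 1 / 2) (α * β) + (α * β) * F (c - 3 / 2) (α * β)) := by
  have e1 : ∀ t ∈ Ioi (0 : ℝ), t ^ c * wm α β t =
      1 / 2 * (t ^ (c - 1 / 2 - 1) * Real.exp (-(α * t) - β / t)) +
      α * (t ^ (c + 1 / 2 - 1) * Real.exp (-(α * t) - β / t)) +
      β * (t ^ (c - 3 / 2 - 1) * Real.exp (-(α * t) - β / t)) := by
    intro t ht
    have ht : (0 : ℝ) < t := ht
    rw [wm, ww]
    have h1 : t ^ (c - 1 / 2 - 1) = t ^ c * t ^ (-(1 / 2) : ℝ) * t⁻¹ := by
      rw [← Real.rpow_neg_one t, ← Real.rpow_add ht, ← Real.rpow_add ht]; ring_nf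
    have h2 : t ^ (c + 1 / 2 - 1) = t ^ c * t ^ (-(1 / 2) : ℝ) := by
      rw [← Real.rpow_add ht]; ring_nf
    have h3 : t ^ (c - 3 / 2 - 1) = t ^ c * t ^ (-(1 / 2) : ℝ) * (t ^ 2)⁻¹ := by
      have : (t ^ 2)⁻¹ = t ^ (-2 : ℝ) := by
        rw [Real.rpow_neg ht.le]; norm_cast
      rw [this, ← Real.rpow_add ht, ← Real.rpow_add ht]; ring_nf
    rw [h1, h2, h3]
    field_simp
  have i1 := integrableOn_scale (a := c - 1 / 2) hα hβ
  have i2 := integrableOn_scale (a := c + 1 / 2) hα hβ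
  have i3 := integrableOn_scale (a := c - 3 / 2) hα hβ
  refine ⟨IntegrableOn.congr_fun (((i1.const_mul (1 / 2)).add (i2.const_mul α)).add
    (i3.const_mul β)) (fun t ht => (e1 t ht).symm) measurableSet_Ioi, ?_⟩
  have h12 : ∫ t in Ioi (0 : ℝ), (1 / 2 * (t ^ (c - 1 / 2 - 1) * Real.exp (-(α * t) - β / t)) +
      α * (t ^ (c + 1 / 2 - 1) * Real.exp (-(α * t) - β / t))) =
      1 / 2 * (∫ t in Ioi (0 : ℝ), t ^ (c - 1 / 2 - 1) * Real.exp (-(α * t) - β / t)) +
      α * (∫ t in Ioi (0 : ℝ), t ^ (c + 1 / 2 - 1) * Real.exp (-(α * t) - β / t)) := by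
    rw [← integral_const_mul, ← integral_const_mul]
    exact integral_add (i1.const_mul _) (i2.const_mul _)
  have h123 : ∫ t in Ioi (0 : ℝ), t ^ c * wm α β t =
      (1 / 2 * (∫ t in Ioi (0 : ℝ), t ^ (c - 1 / 2 - 1) * Real.exp (-(α * t) - β / t)) +
      α * (∫ t in Ioi (0 : ℝ), t ^ (c + 1 / 2 - 1) * Real.exp (-(α * t) - β / t))) +
      β * (∫ t in Ioi (0 : ℝ), t ^ (c - 3 / 2 - 1) * Real.exp (-(α * t) - β / t)) := by
    rw [setIntegral_congr_fun measurableSet_Ioi e1, ← h12, ← integral_const_mul]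
    exact integral_add ((i1.const_mul _).add (i2.const_mul _)) (i3.const_mul _)
  rw [h123, integral_scale hα, integral_scale hα, integral_scale hα]
  have k1 : α * α ^ (-(c + 1 / 2)) = α ^ (-(c - 1 / 2)) := by
    nth_rewrite 1 [← Real.rpow_one α]
    rw [← Real.rpow_add hα]; ring_nf
  have k2 : α ^ (-(c - 3 / 2)) = α * α ^ (-(c - 1 / 2)) := by
    nth_rewrite 2 [← Real.rpow_one α]
    rw [← Real.rpow_add hα]; ring_nf
  rw [k2, ← mul_assoc α, k1]
  ring

theorem measurable_ww' : Measurable (ww' α β) := by unfold ww' ww; fun_prop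

theorem integrableOn_rpow_ww' (hα : 0 < α) (hβ : 0 < β) (c : ℝ) :
    IntegrableOn (fun t => t ^ c * ww' α β t) (Ioi 0) := by
  refine (integral_rpow_wm hα hβ c).1.mono'
    ((Measurable.mul (by fun_prop) measurable_ww').aestronglyMeasurable) ?_
  refine (ae_restrict_iff' measurableSet_Ioi).2 (Eventually.of_forall fun t ht => ?_)
  have ht : (0 : ℝ) < t := ht
  rw [norm_mul, Real.norm_of_nonneg (by positivity), Real.norm_eq_abs]
  exact mul_le_mul_of_nonneg_left (abs_ww'_le hα.le hβ.le ht) (by positivity)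

theorem integrableOn_ww' (hα : 0 < α) (hβ : 0 < β) : IntegrableOn (ww' α β) (Ioi 0) := by
  have h := integrableOn_rpow_ww' hα hβ 0
  refine IntegrableOn.congr_fun h (fun t _ => ?_) measurableSet_Ioi
  simp

theorem tendsto_ww (hα : 0 < α) (hβ : 0 ≤ β) : Tendsto (ww α β) atTop (𝓝 0) := by
  refine tendsto_of_tendsto_of_tendsto_of_le_of_le' tendsto_const_nhds
    (tendsto_rpow_mul_exp_neg_mul_atTop_nhds_zero (-(1 / 2)) α hα) ?_ ?_
  · filter_upwards [eventually_gt_atTop 0] with s hs using ww_nonneg hs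
  · filter_upwards [eventually_gt_atTop 0] with s hs
    rw [ww]
    refine mul_le_mul_of_nonneg_left (Real.exp_le_exp.2 ?_) (by positivity)
    have : 0 ≤ β / s := by positivity
    linarith

theorem ww_eq (hα : 0 < α) (hβ : 0 < β) {n : ℝ} (hn : 0 < n) :
    ww α β n = -∫ t in Ioi n, ww' α β t := by
  have h := integral_Ioi_of_hasDerivAt_of_tendsto' (f := ww α β) (f' := ww' α β) (a := n) (m := 0)
    (fun t ht => hasDerivAt_ww (hn.trans_le ht))
    ((integrableOn_ww' hα hβ).mono_set (Ioi_subset_Ioi hn.le)) (tendsto_ww hα hβ.le)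
  rw [h]; ring

/-- tail of the derivative -/
theorem tail_ww' (hα : 0 < α) (hβ : 0 < β) : ∃ K : ℝ, 0 ≤ K ∧ ∀ n : ℝ, 0 ≤ n →
    ∫ t in Ioi n, ‖ww' α β t‖ ≤ K * Real.exp (-(α / 2 * n)) := by
  have h2 : 0 < α / 2 := by positivity
  refine ⟨2 * ∫ t in Ioi (0 : ℝ), wm (α / 2) β t, ?_, fun n hn => ?_⟩
  · refine mul_nonneg (by norm_num) (setIntegral_nonneg measurableSet_Ioi fun t ht => ?_)
    have ht : (0 : ℝ) < t := ht
    unfold wm ww; positivity
  · have hI : IntegrableOn (wm (α / 2) β) (Ioi 0) := by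
      refine IntegrableOn.congr_fun (integral_rpow_wm h2 hβ 0).1 (fun t _ => ?_) measurableSet_Ioi
      simp
    have hle : ∀ t ∈ Ioi n, ‖ww' α β t‖ ≤ 2 * Real.exp (-(α / 2 * n)) * wm (α / 2) β t := by
      intro t ht
      have ht : n < t := ht
      have ht0 : 0 < t := by linarith
      rw [Real.norm_eq_abs]
      refine (abs_ww'_le hα.le hβ.le ht0).trans ?_
      rw [wm, wm, ww, ww]
      have e1 : Real.exp (-(α * t) - β / t) ≤ Real.exp (-(α / 2 * n)) *
          Real.exp (-(α / 2 * t) - β / t) := by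
        rw [← Real.exp_add]
        refine Real.exp_le_exp.2 ?_
        nlinarith
      have e2 : 1 / (2 * t) + α + β / t ^ 2 ≤ 2 * (1 / (2 * t) + α / 2 + β / t ^ 2) := by
        have h1 : 0 ≤ 1 / (2 * t) := by positivity
        have h2 : 0 ≤ β / t ^ 2 := by positivity
        linarith
      calc (1 / (2 * t) + α + β / t ^ 2) * (t ^ (-(1 / 2) : ℝ) * Real.exp (-(α * t) - β / t))
          ≤ (2 * (1 / (2 * t) + α / 2 + β / t ^ 2)) * (t ^ (-(1 / 2) : ℝ) *
            (Real.exp (-(α / 2 * n)) * Real.exp (-(α / 2 * t) - β / t))) := by gcongr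
        _ = _ := by ring
    calc ∫ t in Ioi n, ‖ww' α β t‖ ≤ ∫ t in Ioi n, 2 * Real.exp (-(α / 2 * n)) * wm (α / 2) β t := by
          refine setIntegral_mono_on ?_ ((hI.mono_set (Ioi_subset_Ioi hn)).const_mul _)
            measurableSet_Ioi hle
          exact ((integrableOn_ww' hα hβ).mono_set (Ioi_subset_Ioi hn)).norm
      _ = 2 * Real.exp (-(α / 2 * n)) * ∫ t in Ioi n, wm (α / 2) β t := integral_const_mul _ _
      _ ≤ 2 * Real.exp (-(α / 2 * n)) * ∫ t in Ioi (0 : ℝ), wm (α / 2) β t := by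
          refine mul_le_mul_of_nonneg_left ?_ (by positivity)
          refine setIntegral_mono_set hI ?_ (Ioi_subset_Ioi hn).eventuallyLE
          refine (ae_restrict_iff' measurableSet_Ioi).2 (Eventually.of_forall fun t ht => ?_)
          have ht : (0 : ℝ) < t := ht
          show 0 ≤ wm (α / 2) β t
          unfold wm ww; positivity
      _ = _ := by ring

open Classical in
/-- partial sums over primary elements -/
noncomputable def PS (x : O → ℂ) (t : ℝ) : ℂ := ∑ c ∈ (nb t).filter Primary, x c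

theorem tsum_indicator_PS (x : O → ℂ) {t : ℝ} (ht : 0 ≤ t) (y : ℂ) :
    HasSum (fun d : Prim => if (N (d : O) : ℝ) ≤ t then x d * y else 0) (PS x t * y) := by
  classical
  have h1 : HasSum (fun c : O => if Primary c ∧ (N c : ℝ) ≤ t then x c * y else 0)
      (∑ c ∈ (nb t).filter Primary, if Primary c ∧ (N c : ℝ) ≤ t then x c * y else 0) := by
    refine hasSum_sum_of_ne_finset_zero fun c hc => ?_
    rw [if_neg]
    rintro ⟨h1, h2⟩
    exact hc (Finset.mem_filter.2 ⟨(mem_nb ht).2 h2, h1⟩)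
  have h2 : (∑ c ∈ (nb t).filter Primary, if Primary c ∧ (N c : ℝ) ≤ t then x c * y else 0) =
      PS x t * y := by
    rw [PS, Finset.sum_mul]
    refine Finset.sum_congr rfl fun c hc => ?_
    obtain ⟨h3, h4⟩ := Finset.mem_filter.1 hc
    rw [if_pos ⟨h4, (mem_nb ht).1 h3⟩]
  rw [h2] at h1
  have h3 := (hasSum_subtype_iff_of_support_subset (s := {c : O | Primary c}) (f := fun c : O =>
    if Primary c ∧ (N c : ℝ) ≤ t then x c * y else 0) (by
      intro c hc
      rw [Function.mem_support] at hc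
      by_contra hn
      exact hc (if_neg fun h => hn h.1))).2 h1
  have h4 : (fun d : Prim => if (N (d : O) : ℝ) ≤ t then x d * y else 0) =
      ((fun c : O => if Primary c ∧ (N c : ℝ) ≤ t then x c * y else 0) ∘ Subtype.val) := by
    funext d
    have hd : Primary (d : O) := d.2
    simp only [Function.comp_apply, hd, true_and]
  rw [h4]
  exact h3

theorem countable_Prim : Countable Prim := by
  have : Function.Injective (fun x : Prim => ((x : O).re, (x : O).im)) := by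
    intro x y h
    simp only [Prod.mk.injEq] at h
    exact Subtype.ext (QuadraticAlgebra.ext h.1 h.2)
  exact this.countable

/-- **partial summation** -/
theorem hasSum_abel (hα : 0 < α) (hβ : 0 < β) (x : O → ℂ) (hx : ∀ c, ‖x c‖ ≤ N c) :
    HasSum (fun d : Prim => x d * (ww α β (N (d : O)) : ℂ))
      (-∫ t in Ioi (0 : ℝ), PS x t * (ww' α β t : ℂ)) := by
  classical
  set Fn : Prim → ℝ → ℂ := fun d t => if (N (d : O) : ℝ) ≤ t then x d * (ww' α β t : ℂ) else 0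
    with hFn
  have hind : ∀ d : Prim, Fn d = (Ici (N (d : O) : ℝ)).indicator (fun t => x d * (ww' α β t : ℂ)) := by
    intro d
    funext t
    simp only [hFn, indicator, mem_Ici]
  have hwI := integrableOn_ww' hα hβ
  have hF1 : ∀ d : Prim, IntegrableOn (Fn d) (Ioi 0) := by
    intro d
    rw [hind]
    exact IntegrableOn.indicator (Integrable.const_mul hwI.ofReal _) measurableSet_Ici
  have hset : ∀ d : Prim, Ioi (0 : ℝ) ∩ Ici (N (d : O) : ℝ) = Ici (N (d : O) : ℝ) := by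
    intro d
    refine inter_eq_self_of_subset_right fun t ht => ?_
    have h1 : (N (d : O) : ℝ) ≤ t := ht
    exact lt_of_lt_of_le d.N_pos h1
  have hF2 : ∀ d : Prim, ∫ t in Ioi (0 : ℝ), Fn d t = -(x d * (ww α β (N (d : O)) : ℂ)) := by
    intro d
    rw [hind, setIntegral_indicator measurableSet_Ici, hset, integral_Ici_eq_integral_Ioi,
      integral_const_mul, ww_eq hα hβ d.N_pos, integral_complex_ofReal]
    push_cast
    ring
  obtain ⟨K, hK0, hK⟩ := tail_ww' hα hβ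
  have hF3 : ∀ d : Prim, ∫ t in Ioi (0 : ℝ), ‖Fn d t‖ ≤
      N (d : O) * (K * Real.exp (-(α / 2 * N (d : O)))) := by
    intro d
    have e1 : (fun t => ‖Fn d t‖) = (Ici (N (d : O) : ℝ)).indicator
        (fun t => ‖x d‖ * ‖ww' α β t‖) := by
      funext t
      rw [hind]
      by_cases h : t ∈ Ici (N (d : O) : ℝ)
      · rw [indicator_of_mem h, indicator_of_mem h, norm_mul, Complex.norm_real]
      · rw [indicator_of_notMem h, indicator_of_notMem h, norm_zero]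
    rw [e1, setIntegral_indicator measurableSet_Ici, hset, integral_Ici_eq_integral_Ioi,
      integral_const_mul]
    exact mul_le_mul (hx d) (hK _ d.N_pos.le) (integral_nonneg fun _ => norm_nonneg _)
      d.N_pos.le
  have hS : Summable fun d : Prim => ∫ t in Ioi (0 : ℝ), ‖Fn d t‖ := by
    have h1 : Summable fun d : Prim => (4 / α * K) * Real.exp (-(α / 4 * N (d : O))) :=
      Summable.mul_left _ ((summable_exp_N (show 0 < α / 4 by positivity)).subtype _)
    refine Summable.of_nonneg_of_le (fun d => integral_nonneg fun _ => norm_nonneg _)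
      (fun d => (hF3 d).trans ?_) h1
    have h2 : (N (d : O) : ℝ) ≤ 4 / α * Real.exp (α / 4 * N (d : O)) := by
      have := Real.add_one_le_exp (α / 4 * N (d : O))
      rw [div_mul_eq_mul_div, le_div_iff₀ hα]
      nlinarith
    calc (N (d : O) : ℝ) * (K * Real.exp (-(α / 2 * N (d : O))))
        ≤ (4 / α * Real.exp (α / 4 * N (d : O))) * (K * Real.exp (-(α / 2 * N (d : O)))) := by
          gcongr
      _ = (4 / α * K) * (Real.exp (α / 4 * N (d : O)) * Real.exp (-(α / 2 * N (d : O)))) := by ring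
      _ = _ := by rw [← Real.exp_add]; congr 2; ring
  have hcount := countable_Prim
  have hmain := hasSum_integral_of_summable_integral_norm (F := Fn) hF1 hS
  have e2 : ∫ t in Ioi (0 : ℝ), ∑' d, Fn d t = ∫ t in Ioi (0 : ℝ), PS x t * (ww' α β t : ℂ) := by
    refine setIntegral_congr_fun measurableSet_Ioi fun t ht => ?_
    have ht : (0 : ℝ) < t := ht
    exact (tsum_indicator_PS x ht.le _).tsum_eq
  rw [e2] at hmain
  have h4 := hmain.neg
  have h5 : (fun d : Prim => x d * (ww α β (N (d : O)) : ℂ)) =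
      fun d : Prim => -∫ t in Ioi (0 : ℝ), Fn d t := by
    funext d
    rw [hF2, neg_neg]
  rw [h5]
  exact h4

theorem measurable_PS (x : O → ℂ) : Measurable (PS x) := by
  classical
  have h : PS x = (fun n : ℕ => ∑ c ∈ ((finite_norm_le n).toFinset).filter Primary, x c) ∘
      (fun t : ℝ => ⌊t⌋₊) := by
    funext t
    rfl
  rw [h]
  exact (measurable_of_countable _).comp Nat.measurable_floor

theorem integral_rpow_ww' (hα : 0 < α) (hβ : 0 < β) :
    ∫ t in Ioi (0 : ℝ), t ^ (5 / 6 : ℝ) * ww' α β t =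
      -(5 / 6 * (α ^ (-(1 / 3) : ℝ) * G (α * β))) := by
  have e1 : ∀ t ∈ Ioi (0 : ℝ), t ^ (5 / 6 : ℝ) * ww' α β t =
      (-(1 / 2) * (t ^ (1 / 3 - 1 : ℝ) * Real.exp (-(α * t) - β / t)) +
      -α * (t ^ (4 / 3 - 1 : ℝ) * Real.exp (-(α * t) - β / t))) +
      β * (t ^ (-(2 / 3) - 1 : ℝ) * Real.exp (-(α * t) - β / t)) := by
    intro t ht
    have ht : (0 : ℝ) < t := ht
    rw [ww', ww]
    have h1 : t ^ (1 / 3 - 1 : ℝ) = t ^ (5 / 6 : ℝ) * t ^ (-(1 / 2) : ℝ) * t⁻¹ := by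
      rw [← Real.rpow_neg_one t, ← Real.rpow_add ht, ← Real.rpow_add ht]; norm_num
    have h2 : t ^ (4 / 3 - 1 : ℝ) = t ^ (5 / 6 : ℝ) * t ^ (-(1 / 2) : ℝ) := by
      rw [← Real.rpow_add ht]; norm_num
    have h3 : t ^ (-(2 / 3) - 1 : ℝ) = t ^ (5 / 6 : ℝ) * t ^ (-(1 / 2) : ℝ) * (t ^ 2)⁻¹ := by
      have : (t ^ 2)⁻¹ = t ^ (-2 : ℝ) := by
        rw [Real.rpow_neg ht.le]; norm_cast
      rw [this, ← Real.rpow_add ht, ← Real.rpow_add ht]; norm_num
    rw [h1, h2, h3]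
    field_simp
    ring
  have i1 := integrableOn_scale (a := 1 / 3) hα hβ
  have i2 := integrableOn_scale (a := 4 / 3) hα hβ
  have i3 := integrableOn_scale (a := -(2 / 3)) hα hβ
  have h12 : ∫ t in Ioi (0 : ℝ), (-(1 / 2) * (t ^ (1 / 3 - 1 : ℝ) * Real.exp (-(α * t) - β / t)) +
      -α * (t ^ (4 / 3 - 1 : ℝ) * Real.exp (-(α * t) - β / t))) =
      -(1 / 2) * (∫ t in Ioi (0 : ℝ), t ^ (1 / 3 - 1 : ℝ) * Real.exp (-(α * t) - β / t)) +
      -α * (∫ t in Ioi (0 : ℝ), t ^ (4 / 3 - 1 : ℝ) * Real.exp (-(α * t) - β / t)) := by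
    rw [← integral_const_mul, ← integral_const_mul]
    exact integral_add (i1.const_mul _) (i2.const_mul _)
  have h123 : ∫ t in Ioi (0 : ℝ), t ^ (5 / 6 : ℝ) * ww' α β t =
      (-(1 / 2) * (∫ t in Ioi (0 : ℝ), t ^ (1 / 3 - 1 : ℝ) * Real.exp (-(α * t) - β / t)) +
      -α * (∫ t in Ioi (0 : ℝ), t ^ (4 / 3 - 1 : ℝ) * Real.exp (-(α * t) - β / t))) +
      β * (∫ t in Ioi (0 : ℝ), t ^ (-(2 / 3) - 1 : ℝ) * Real.exp (-(α * t) - β / t)) := by
    rw [setIntegral_congr_fun measurableSet_Ioi e1, ← h12, ← integral_const_mul]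
    exact integral_add ((i1.const_mul _).add (i2.const_mul _)) (i3.const_mul _)
  rw [h123, integral_scale hα, integral_scale hα, integral_scale hα]
  have hrec := F_rec (a := 1 / 3) (y := α * β) (by norm_num) (by positivity)
  norm_num at hrec
  have k1 : α * α ^ (-(4 / 3) : ℝ) = α ^ (-(1 / 3) : ℝ) := by
    have h := Real.rpow_add hα 1 (-(4 / 3))
    rw [Real.rpow_one] at h
    rw [← h]; norm_num
  have k2 : α ^ (-(-(2 / 3)) : ℝ) = α * α ^ (-(1 / 3) : ℝ) := by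
    have h := Real.rpow_add hα 1 (-(1 / 3))
    rw [Real.rpow_one] at h
    rw [← h]; norm_num
  rw [k2, G]
  have e3 : -α * (α ^ (-(4 / 3) : ℝ) * F (4 / 3) (α * β)) =
      -(α ^ (-(1 / 3) : ℝ) * F (4 / 3) (α * β)) := by rw [← k1]; ring
  rw [e3, hrec]
  ring

/-- the error function -/
noncomputable def Hf (δ y : ℝ) : ℝ :=
  1 / 2 * F (1 / 3 - δ) y + F (4 / 3 - δ) y + y * F (-(2 / 3) - δ) y

/-- asymptotics of the twisted sums -/
theorem abel_asymp (hα : 0 < α) (hβ : 0 < β) (x : O → ℂ) (hx : ∀ c, ‖x c‖ ≤ N c) (θ : ℂ)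
    (C₀ δ : ℝ) (hA : ∀ t : ℝ, 0 < t →
      ‖PS x t - 6 / 5 * θ * ((t ^ (5 / 6 : ℝ) : ℝ) : ℂ)‖ ≤ C₀ * t ^ (5 / 6 - δ)) :
    ‖(∑' d : Prim, x d * (ww α β (N (d : O)) : ℂ)) - θ * ((α ^ (-(1 / 3) : ℝ) * G (α * β) : ℝ) : ℂ)‖ ≤
      C₀ * (α ^ (-(1 / 3 - δ)) * Hf δ (α * β)) := by
  rw [(hasSum_abel hα hβ x hx).tsum_eq]
  have hmain : (∫ t in Ioi (0 : ℝ), 6 / 5 * θ * ((t ^ (5 / 6 : ℝ) : ℝ) : ℂ) * (ww' α β t : ℂ)) =
      -(θ * ((α ^ (-(1 / 3) : ℝ) * G (α * β) : ℝ) : ℂ)) := by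
    have e1 : ∀ t : ℝ, 6 / 5 * θ * ((t ^ (5 / 6 : ℝ) : ℝ) : ℂ) * (ww' α β t : ℂ) =
        6 / 5 * θ * ((t ^ (5 / 6 : ℝ) * ww' α β t : ℝ) : ℂ) := by
      intro t; push_cast; ring
    simp_rw [e1]
    rw [integral_const_mul, integral_complex_ofReal, integral_rpow_ww' hα hβ]
    push_cast
    ring
  have hI1 : IntegrableOn (fun t : ℝ => 6 / 5 * θ * ((t ^ (5 / 6 : ℝ) : ℝ) : ℂ) * (ww' α β t : ℂ))
      (Ioi 0) := by
    have h := (integrableOn_rpow_ww' hα hβ (5 / 6)).ofReal (𝕜 := ℂ)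
    refine IntegrableOn.congr_fun (Integrable.const_mul h (6 / 5 * θ)) (fun t _ => ?_)
      measurableSet_Ioi
    simp only [Complex.coe_algebraMap, Complex.ofReal_mul]
    ring
  have hbd : ∀ t ∈ Ioi (0 : ℝ), ‖(PS x t - 6 / 5 * θ * ((t ^ (5 / 6 : ℝ) : ℝ) : ℂ)) *
      (ww' α β t : ℂ)‖ ≤ C₀ * (t ^ (5 / 6 - δ) * wm α β t) := by
    intro t ht
    have ht : (0 : ℝ) < t := ht
    rw [norm_mul, Complex.norm_real, Real.norm_eq_abs]
    have h1 := hA t ht
    have h2 : 0 ≤ C₀ * t ^ (5 / 6 - δ) := (norm_nonneg _).trans h1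
    calc _ ≤ (C₀ * t ^ (5 / 6 - δ)) * wm α β t :=
          mul_le_mul h1 (abs_ww'_le hα.le hβ.le ht) (abs_nonneg _) h2
      _ = _ := by ring
  have hJ := integral_rpow_wm hα hβ (5 / 6 - δ)
  have hI2 : IntegrableOn (fun t : ℝ => (PS x t - 6 / 5 * θ * ((t ^ (5 / 6 : ℝ) : ℝ) : ℂ)) *
      (ww' α β t : ℂ)) (Ioi 0) := by
    refine (hJ.1.const_mul C₀).mono' ?_
      ((ae_restrict_iff' measurableSet_Ioi).2 (Eventually.of_forall hbd))
    refine (Measurable.mul ?_ ?_).aestronglyMeasurable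
    · exact (measurable_PS x).sub (by fun_prop)
    · exact Complex.measurable_ofReal.comp measurable_ww'
  have hsplit : (∫ t in Ioi (0 : ℝ), PS x t * (ww' α β t : ℂ)) =
      (∫ t in Ioi (0 : ℝ), 6 / 5 * θ * ((t ^ (5 / 6 : ℝ) : ℝ) : ℂ) * (ww' α β t : ℂ)) +
      ∫ t in Ioi (0 : ℝ), (PS x t - 6 / 5 * θ * ((t ^ (5 / 6 : ℝ) : ℝ) : ℂ)) * (ww' α β t : ℂ) := by
    rw [← integral_add hI1 hI2]
    refine integral_congr_ae (Eventually.of_forall fun t => ?_)
    simp only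
    ring
  rw [hsplit, hmain]
  have e2 : -(-(θ * ((α ^ (-(1 / 3) : ℝ) * G (α * β) : ℝ) : ℂ)) +
      ∫ t in Ioi (0 : ℝ), (PS x t - 6 / 5 * θ * ((t ^ (5 / 6 : ℝ) : ℝ) : ℂ)) * (ww' α β t : ℂ)) -
      θ * ((α ^ (-(1 / 3) : ℝ) * G (α * β) : ℝ) : ℂ) =
      -∫ t in Ioi (0 : ℝ), (PS x t - 6 / 5 * θ * ((t ^ (5 / 6 : ℝ) : ℝ) : ℂ)) * (ww' α β t : ℂ) := by
    ring
  rw [e2, norm_neg]
  refine (norm_integral_le_of_norm_le (hJ.1.const_mul C₀)
    ((ae_restrict_iff' measurableSet_Ioi).2 (Eventually.of_forall hbd))).trans (le_of_eq ?_)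
  rw [integral_const_mul, hJ.2, Hf]
  have e3 : (5 / 6 - δ - 1 / 2 : ℝ) = 1 / 3 - δ := by ring
  have e4 : (5 / 6 - δ + 1 / 2 : ℝ) = 4 / 3 - δ := by ring
  have e5 : (5 / 6 - δ - 3 / 2 : ℝ) = -(2 / 3) - δ := by ring
  rw [e3, e4, e5]

end

end Vale.Agent.P006.SG
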