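import Vale.Agent.P006.SG.Pars
import Vale.Agent.P006.JB.ExpNorms
import Vale.Agent.P006.KU.Sharp3
import Vale.Agent.P006.Main.Aut

/-!
P006, block SG: **the sign of `θ 1`**, assembled.
-/

open MeasureTheory Filter Topology Set
open scoped Real ENNReal

namespace Vale.Agent.P006.SG

open PO H570 H9 R1

section
variable {θ : O → ℂ} {C : ℝ} {A : ℕ} {δ : ℝ} {c₀ : ℝ}

/-- the residues are limits of the sharp sums -/
theorem tendsto_PS (hθ : SharpHyp θ C A δ) (hδ : 0 < δ) {k : O} (hk : k ≠ 0) :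
    Tendsto (fun t : ℝ => PS (gt k) t / ((t ^ (5 / 6 : ℝ) : ℝ) : ℂ)) atTop (𝓝 (6 / 5 * θ k)) := by
  rw [tendsto_iff_norm_sub_tendsto_zero]
  have hlim : Tendsto (fun t : ℝ => C * (N k : ℝ) ^ A * t ^ (-δ)) atTop (𝓝 (C * (N k : ℝ) ^ A * 0)) :=
    (tendsto_rpow_neg_atTop hδ).const_mul _
  rw [mul_zero] at hlim
  refine tendsto_of_tendsto_of_tendsto_of_le_of_le' tendsto_const_nhds hlim
    (Eventually.of_forall fun _ => norm_nonneg _) ?_
  filter_upwards [eventually_gt_atTop 0] with t ht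
  have h1 := hθ k hk t ht
  have hp : 0 < t ^ (5 / 6 : ℝ) := by positivity
  have hne : ((t ^ (5 / 6 : ℝ) : ℝ) : ℂ) ≠ 0 := by exact_mod_cast hp.ne'
  have e : PS (gt k) t / ((t ^ (5 / 6 : ℝ) : ℝ) : ℂ) - 6 / 5 * θ k =
      (PS (gt k) t - 6 / 5 * θ k * ((t ^ (5 / 6 : ℝ) : ℝ) : ℂ)) / ((t ^ (5 / 6 : ℝ) : ℝ) : ℂ) := by
    field_simp
  rw [e, norm_div, Complex.norm_real, Real.norm_of_nonneg hp.le, div_le_iff₀ hp]
  refine h1.trans (le_of_eq ?_)
  rw [mul_assoc, mul_assoc, mul_assoc, ← Real.rpow_add ht]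
  congr 3
  ring

theorem PS_neg (k : O) (t : ℝ) : PS (gt (-k)) t = PS (gt k) t := by
  rw [PS, PS]
  refine Finset.sum_congr rfl fun c hc => ?_
  have hc0 : c ≠ 0 := (Finset.mem_filter.1 hc).2.ne_zero
  rw [gt, gt, gs_neg k hc0]

theorem PS_star (k : O) {t : ℝ} (ht : 0 ≤ t) : PS (gt (star k)) t = (starRingEnd ℂ) (PS (gt k) t) := by
  rw [PS, PS, map_sum]
  refine Finset.sum_bij' (fun c _ => star c) (fun c _ => star c) ?_ ?_ ?_ ?_ ?_
  · intro c hc
    rw [Finset.mem_filter, mem_nb ht] at hc ⊢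
    exact ⟨by rw [N_star]; exact hc.1, hc.2.star⟩
  · intro c hc
    rw [Finset.mem_filter, mem_nb ht] at hc ⊢
    exact ⟨by rw [N_star]; exact hc.1, hc.2.star⟩
  · intro c _; simp
  · intro c _; simp
  · intro c hc
    have hc' := (Finset.mem_filter.1 hc).2
    have h := gs_star k (c := star c) hc'.star.ne_zero
    rw [star_star] at h
    rw [gt, gt, h, N_star, map_div₀, Complex.conj_ofReal]

theorem theta_neg (hθ : SharpHyp θ C A δ) (hδ : 0 < δ) {k : O} (hk : k ≠ 0) : θ (-k) = θ k := by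
  have h1 := tendsto_PS hθ hδ (neg_ne_zero.2 hk)
  have h2 := tendsto_PS hθ hδ hk
  simp only [PS_neg] at h1
  have h3 := tendsto_nhds_unique h1 h2
  exact mul_left_cancel₀ (by norm_num) h3

theorem theta_one_im (hθ : SharpHyp θ C A δ) (hδ : 0 < δ) : (θ 1).im = 0 := by
  have h1 := tendsto_PS hθ hδ one_ne_zero
  have h2 := (Complex.continuous_conj.tendsto _).comp h1
  have h3 : Tendsto (fun t : ℝ => PS (gt 1) t / ((t ^ (5 / 6 : ℝ) : ℝ) : ℂ)) atTop
      (𝓝 ((starRingEnd ℂ) (6 / 5 * θ 1))) := by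
    refine h2.congr' ?_
    filter_upwards [eventually_ge_atTop 0] with t ht
    simp only [Function.comp_apply]
    rw [map_div₀, Complex.conj_ofReal, ← PS_star 1 ht, star_one]
  have h4 := tendsto_nhds_unique h1 h3
  have h5 : θ 1 = (starRingEnd ℂ) (θ 1) := by
    rw [map_mul, map_div₀, map_ofNat, map_ofNat] at h4
    exact mul_left_cancel₀ (by norm_num) h4
  exact Complex.conj_eq_iff_im.1 h5.symm

/-- **the linear relation** from `Th (0, 5/6) = Th (0, 6/5)` -/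
theorem hasSum_kap (hθ : SharpHyp θ C A δ) (hδ : 0 < δ) (hδ1 : δ < 1 / 3) (h0 : ConstHyp c₀)
    (hI : InvHyp) :
    HasSum (fun m : {m : O // m ≠ 0} => ((kap0 : ℂ) * θ m) * (kap (√(N (m : O))) : ℂ))
      ((c₀ * ((6 / 5 : ℝ) ^ (2 / 3 : ℝ) - (6 / 5 : ℝ) ^ (-(2 / 3) : ℝ)) : ℝ) : ℂ) := by
  have h65 : (0 : ℝ) < 6 / 5 := by norm_num
  have h56 : (0 : ℝ) < 5 / 6 := by norm_num
  have h1 := ThH_S hθ hδ hδ1 h0 hI (H3.mk 0 (6 / 5) h65) (by rw [H3.mk_v]; norm_num)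
  have e1 : KU.Smat O • H3.mk 0 (6 / 5) h65 = H3.mk 0 (5 / 6) h56 := by
    apply H3.ext
    · rw [Smat_smul_z]; simp
    · rw [Smat_smul_v]; simp; norm_num
  rw [e1, ThH, ThH] at h1
  simp only [H3.mk_z, H3.mk_v] at h1
  have s1 := (summable_Tk_eT hθ h56 0).hasSum
  have s2 := (summable_Tk_eT hθ h65 0).hasSum
  have s3 := s1.sub s2
  have e2 : (∑' k : {k : O // k ≠ 0}, Tk θ (5 / 6) k * eT (0 * (toC (k : O) / (3 * toC rt3)))) -
      ∑' k : {k : O // k ≠ 0}, Tk θ (6 / 5) k * eT (0 * (toC (k : O) / (3 * toC rt3))) =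
      ((c₀ * ((6 / 5 : ℝ) ^ (2 / 3 : ℝ) - (6 / 5 : ℝ) ^ (-(2 / 3) : ℝ)) : ℝ) : ℂ) := by
    rw [Th, Th] at h1
    have e3 : (5 / 6 : ℝ) ^ (2 / 3 : ℝ) = (6 / 5 : ℝ) ^ (-(2 / 3) : ℝ) := by
      rw [Real.rpow_neg (by norm_num), ← Real.inv_rpow (by norm_num)]; norm_num
    rw [e3] at h1
    have e4 : ((c₀ * ((6 / 5 : ℝ) ^ (2 / 3 : ℝ) - (6 / 5 : ℝ) ^ (-(2 / 3) : ℝ)) : ℝ) : ℂ) =
        ((c₀ * (6 / 5 : ℝ) ^ (2 / 3 : ℝ) : ℝ) : ℂ) - ((c₀ * (6 / 5 : ℝ) ^ (-(2 / 3) : ℝ) : ℝ) : ℂ) := by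
      push_cast; ring
    rw [e4]
    linear_combination h1
  rw [e2] at s3
  have e5 : (fun m : {m : O // m ≠ 0} => ((kap0 : ℂ) * θ m) * (kap (√(N (m : O))) : ℂ)) =
      fun k : {k : O // k ≠ 0} => Tk θ (5 / 6) k * eT (0 * (toC (k : O) / (3 * toC rt3))) -
        Tk θ (6 / 5) k * eT (0 * (toC (k : O) / (3 * toC rt3))) := by
    funext m
    rw [zero_mul, eT_zero, mul_one, mul_one, Tk, Tk, ← mul_sub, ← Complex.ofReal_sub, kap]
    have e3 : (5 / 6 : ℝ) ^ (2 / 3 : ℝ) = (6 / 5 : ℝ) ^ (-(2 / 3) : ℝ) := by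
      rw [Real.rpow_neg (by norm_num), ← Real.inv_rpow (by norm_num)]; norm_num
    rw [e3]
    congr 4
    · congr 1; ring
  rw [e5]
  exact s3

/-- **the sign**, from the analytic inputs -/
theorem sign_of (hθ : SharpHyp θ C A δ) (hδ : 0 < δ) (hδ1 : δ < 1 / 3) (h0 : ConstHyp c₀)
    (hI : InvHyp) (hG : GramHyp c₀) (hc₀ : 1 / 8 ≤ c₀)
    (hle : ∀ m, Primary m → ‖θ m‖ ≤ ‖θ 1‖) : 0 < (θ 1).re := by
  have hk0 := kap0_pos
  have h1 : 0 < ((kap0 : ℂ) * θ 1).re := by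
    refine sign_pos c₀ (fun m => (kap0 : ℂ) * (if m = 0 then 0 else θ m)) hc₀ ?_ ?_ ?_ ?_ ?_ ?_ |>
      fun h => by simpa using h
    · simp only [neg_eq_zero, one_ne_zero, if_false]
      rw [theta_neg hθ hδ one_ne_zero]
    · intro m h1 h2 h3
      by_cases hm : m = 0
      · simp [hm]
      · simp only [if_neg hm]
        by_contra hne
        have hθm : θ m ≠ 0 := fun h => hne (by rw [h, mul_zero])
        have h4 := theta_support hθ hδ hδ1 h0 hI hm hθm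
        have h5 : (3 : ℤ) ∣ m.re ∨ (3 : ℤ) ∣ m.re - 1 ∨ (3 : ℤ) ∣ m.re + 1 := by omega
        rcases h5 with h5 | h5 | h5
        · exact h1 (dvd_three_iff.2 ⟨h5, h4⟩)
        · exact h2 (dvd_three_iff.2 ⟨by rw [QuadraticAlgebra.re_sub, re_one']; exact h5,
            by rw [QuadraticAlgebra.im_sub, im_one', sub_zero]; exact h4⟩)
        · exact h3 (dvd_three_iff.2 ⟨by rw [QuadraticAlgebra.re_add, re_one']; exact h5,
            by rw [QuadraticAlgebra.im_add, im_one', add_zero]; exact h4⟩)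
    · intro m hm
      simp only [one_ne_zero, if_false]
      by_cases hm0 : m = 0
      · simp only [hm0, if_true, mul_zero, norm_zero]; positivity
      simp only [if_neg hm0]
      rw [norm_mul, norm_mul]
      refine mul_le_mul_of_nonneg_left ?_ (norm_nonneg _)
      rcases hm with hm | hm
      · exact hle m hm
      · rw [← theta_neg hθ hδ hm0]
        refine hle (-m) ?_
        show (3 : O) ∣ -m - 1
        have : -m - 1 = -(m + 1) := by ring
        rw [this]; exact (dvd_neg).2 hm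
    · intro s hs
      have h2 := hP_of hθ hδ hδ1 h0 (by linarith) hG s hs
      refine le_trans (le_of_eq ?_) h2
      congr 1
      refine Finset.sum_congr rfl fun m hm => ?_
      have hm0 : m ≠ 0 := fun h => hs (h ▸ hm)
      simp only [if_neg hm0]
    · simp only [one_ne_zero, if_false]
      rw [Complex.im_ofReal_mul, theta_one_im hθ hδ, mul_zero]
    · have h2 := hasSum_kap hθ hδ hδ1 h0 hI
      have e : (fun m : {m : O // m ≠ 0} => (kap0 : ℂ) * (if (m : O) = 0 then 0 else θ m) *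
          (kap (√(N (m : O))) : ℂ)) =
          fun m : {m : O // m ≠ 0} => ((kap0 : ℂ) * θ m) * (kap (√(N (m : O))) : ℂ) := by
        funext m
        rw [if_neg m.2]
      rw [e]
      exact h2
  have h2 : ((kap0 : ℂ) * θ 1).re = kap0 * (θ 1).re := by simp
  rw [h2] at h1
  exact (mul_pos_iff_of_pos_left hk0).1 h1

end

/-- the two facts about the constant term (helper357, helper909) -/
def ConstGoal : Prop := ConstHyp (4 * π ^ 2 / 243 * GRAM.D1) ∧ 1 / 8 ≤ 4 * π ^ 2 / 243 * GRAM.D1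

/-- **the sign of `θ 1`** -/
theorem autSign_of (hC : ConstGoal) : AutSign := by
  intro θ hF hρ
  obtain ⟨C, A, δ, hδ, hδ1, hθ⟩ := KU.Sharp.sharpHyp_of_FCHyp hF
  exact ⟨theta_one_im hθ hδ, sign_of hθ hδ hδ1 hC.1 inv_exp gram_exp hC.2
    (V2.norm_rho_le3 hρ)⟩

end Vale.Agent.P006.SG
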