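import Mathlib.Analysis.SpecialFunctions.Gaussian.GaussianIntegral
import Mathlib.MeasureTheory.Function.JacobianOneDim
import Mathlib.Analysis.SpecialFunctions.Gamma.Basic
import Mathlib.Analysis.MeanInequalities
import Mathlib.Tactic

/-!
P006, block SG (sign of the first coefficient of the cubic theta function).

The kernel functions `F a y = ∫_0^∞ s^{a-1} e^{-s-y/s} ds` and `G y = F (1/3) y`
(`G y = 2 y^{1/6} K_{1/3}(2 √y)`), with sharp elementary bounds for `G`.
-/

open MeasureTheory Set Real Filter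

namespace Vale.Agent.P006.SG

/-- the integrand of `F` -/
noncomputable def fker (a y s : ℝ) : ℝ := s ^ (a - 1) * exp (-s - y / s)

/-- `F a y = ∫_0^∞ s^{a-1} e^{-s-y/s} ds` -/
noncomputable def F (a y : ℝ) : ℝ := ∫ s in Ioi (0 : ℝ), fker a y s

/-- `G y = ∫_0^∞ s^{-2/3} e^{-s-y/s} ds` -/
noncomputable def G (y : ℝ) : ℝ := F (1 / 3) y

theorem fker_nonneg {a y s : ℝ} (hs : 0 < s) : 0 ≤ fker a y s := by
  unfold fker; positivity

theorem fker_pos {a y s : ℝ} (hs : 0 < s) : 0 < fker a y s := by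
  unfold fker; positivity

theorem measurable_fker (a y : ℝ) : Measurable (fker a y) := by
  unfold fker; fun_prop

theorem integrableOn_fker_of_pos {a y : ℝ} (ha : 0 < a) (hy : 0 ≤ y) :
    IntegrableOn (fker a y) (Ioi 0) := by
  refine (Real.GammaIntegral_convergent ha).mono' (measurable_fker a y).aestronglyMeasurable ?_
  refine (ae_restrict_iff' measurableSet_Ioi).2 (Eventually.of_forall fun s hs => ?_)
  have hs : (0 : ℝ) < s := hs
  rw [Real.norm_of_nonneg (fker_nonneg hs), fker, mul_comm]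
  refine mul_le_mul_of_nonneg_right (exp_le_exp.2 ?_) (by positivity)
  have : 0 ≤ y / s := by positivity
  linarith

theorem integrableOn_fker {a y : ℝ} (hy : 0 < y) : IntegrableOn (fker a y) (Ioi 0) := by
  obtain ⟨n, hn⟩ := exists_nat_gt (-a)
  have h1 : 0 < a + n := by linarith
  refine ((Real.GammaIntegral_convergent h1).const_mul (n.factorial / y ^ n)).mono'
    (measurable_fker a y).aestronglyMeasurable ?_
  refine (ae_restrict_iff' measurableSet_Ioi).2 (Eventually.of_forall fun s hs => ?_)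
  have hs : (0 : ℝ) < s := hs
  rw [Real.norm_of_nonneg (fker_nonneg hs), fker]
  have h2 : (y / s) ^ n / n.factorial ≤ exp (y / s) := Real.pow_div_factorial_le_exp (y / s) (by positivity) n
  have h3 : exp (-s - y / s) = exp (-s) * (exp (y / s))⁻¹ := by
    rw [← Real.exp_neg, ← Real.exp_add]; congr 1
  have h4 : (exp (y / s))⁻¹ ≤ n.factorial * s ^ n / y ^ n := by
    rw [inv_le_comm₀ (exp_pos _) (by positivity)]
    refine le_trans (le_of_eq ?_) h2
    rw [div_pow]
    field_simp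
  have h5 : s ^ (a + n - 1) = s ^ (a - 1) * s ^ n := by
    rw [← Real.rpow_natCast, ← Real.rpow_add hs]; congr 1; ring
  rw [h3, h5]
  calc s ^ (a - 1) * (exp (-s) * (exp (y / s))⁻¹)
      ≤ s ^ (a - 1) * (exp (-s) * (n.factorial * s ^ n / y ^ n)) := by gcongr
    _ = _ := by field_simp

theorem F_nonneg (a y : ℝ) : 0 ≤ F a y :=
  setIntegral_nonneg measurableSet_Ioi fun _ hs => fker_nonneg hs

/-- the substitution `s ↦ y/s` -/
theorem integral_inv_sub {y : ℝ} (hy : 0 < y) (g : ℝ → ℝ) :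
    ∫ s in Ioi (0 : ℝ), g s = ∫ s in Ioi (0 : ℝ), (y / s ^ 2) * g (y / s) := by
  have himg : (fun s : ℝ => y / s) '' Ioi 0 = Ioi 0 := by
    ext x
    simp only [mem_image, mem_Ioi]
    constructor
    · rintro ⟨s, hs, rfl⟩; positivity
    · intro hx
      exact ⟨y / x, by positivity, by field_simp⟩
  have hinj : InjOn (fun s : ℝ => y / s) (Ioi 0) := by
    intro s hs t ht h
    have hs : (0 : ℝ) < s := hs
    have ht : (0 : ℝ) < t := ht
    simp only at h
    rw [div_eq_div_iff hs.ne' ht.ne'] at h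
    exact (mul_left_cancel₀ hy.ne' h).symm
  have hder : ∀ s ∈ Ioi (0 : ℝ), HasDerivWithinAt (fun s : ℝ => y / s) (-(y / s ^ 2)) (Ioi 0) s := by
    intro s hs
    have hs : (0 : ℝ) < s := hs
    have h := ((hasDerivAt_inv hs.ne').const_mul y).hasDerivWithinAt (s := Ioi 0)
    refine (h.congr_deriv ?_).congr_of_eventuallyEq ?_ ?_
    · field_simp
    · exact Eventually.of_forall fun x => by simp [div_eq_mul_inv]
    · simp [div_eq_mul_inv]
  have h := integral_image_eq_integral_abs_deriv_smul measurableSet_Ioi hder hinj g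
  rw [himg] at h
  rw [h]
  refine setIntegral_congr_fun measurableSet_Ioi fun s hs => ?_
  have hs : (0 : ℝ) < s := hs
  simp only [smul_eq_mul, abs_neg]
  rw [abs_of_pos (by positivity)]

theorem F_inv {a y : ℝ} (hy : 0 < y) : F a y = y ^ a * F (-a) y := by
  unfold F
  rw [integral_inv_sub hy, ← integral_const_mul]
  refine setIntegral_congr_fun measurableSet_Ioi fun s hs => ?_
  have hs : (0 : ℝ) < s := hs
  simp only [fker]
  have h1 : y / (y / s) = s := by field_simp
  have h2 : (y / s) ^ (a - 1) = y ^ a * y⁻¹ * (s ^ (-a - 1) * s ^ 2) := by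
    rw [Real.div_rpow hy.le hs.le, Real.rpow_sub hy, Real.rpow_one, ← Real.rpow_natCast s 2,
      ← Real.rpow_add hs, div_eq_mul_inv, ← Real.rpow_neg hs.le, div_eq_mul_inv]
    congr 2
    push_cast; ring
  rw [h1, h2, show -(y / s) - s = -s - y / s by ring]
  field_simp

/-- the substitution `u = √s - b/√s`, which maps `(0,∞)` onto `ℝ` -/
theorem integral_sqrt_sub {b : ℝ} (hb : 0 < b) (g : ℝ → ℝ) :
    ∫ u, g u = ∫ s in Ioi (0 : ℝ), ((s ^ (-(1 / 2) : ℝ) + b * s ^ (-(3 / 2) : ℝ)) / 2) *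
      g (√s - b / √s) := by
  have himg : (fun s : ℝ => √s - b / √s) '' Ioi 0 = univ := by
    ext u
    simp only [mem_image, mem_Ioi, mem_univ, iff_true]
    have h1 : 0 < u ^ 2 + 4 * b := by positivity
    have h2 : |u| < √(u ^ 2 + 4 * b) := by
      rw [← Real.sqrt_sq_eq_abs]
      exact Real.sqrt_lt_sqrt (sq_nonneg _) (by linarith)
    have h3 : 0 < u + √(u ^ 2 + 4 * b) := by
      have := (abs_lt.1 h2).1; linarith
    refine ⟨((u + √(u ^ 2 + 4 * b)) / 2) ^ 2, by positivity, ?_⟩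
    rw [Real.sqrt_sq (by positivity)]
    have h4 : √(u ^ 2 + 4 * b) ^ 2 = u ^ 2 + 4 * b := Real.sq_sqrt h1.le
    field_simp
    nlinarith
  have hmono : StrictMonoOn (fun s : ℝ => √s - b / √s) (Ioi 0) := by
    intro s hs t ht hst
    have hs : (0 : ℝ) < s := hs
    have h1 : √s < √t := Real.sqrt_lt_sqrt hs.le hst
    have h0 : 0 < √s := Real.sqrt_pos.2 hs
    have h2 : b / √t < b / √s := div_lt_div_of_pos_left hb h0 h1
    simp only
    linarith
  have hder : ∀ s ∈ Ioi (0 : ℝ), HasDerivWithinAt (fun s : ℝ => √s - b / √s)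
      ((s ^ (-(1 / 2) : ℝ) + b * s ^ (-(3 / 2) : ℝ)) / 2) (Ioi 0) s := by
    intro s hs
    have hs : (0 : ℝ) < s := hs
    have h0 : 0 < √s := Real.sqrt_pos.2 hs
    have h1 := Real.hasDerivAt_sqrt hs.ne'
    have h2 := (h1.inv h0.ne').const_mul b
    have h3 := (h1.sub h2).hasDerivWithinAt (s := Ioi 0)
    have e1 : s ^ (-(1 / 2) : ℝ) = (√s)⁻¹ := by
      rw [Real.rpow_neg hs.le, Real.sqrt_eq_rpow]
    have e2 : s ^ (-(3 / 2) : ℝ) = (√s)⁻¹ ^ 3 := by
      rw [Real.sqrt_eq_rpow, ← Real.rpow_neg hs.le, ← Real.rpow_natCast, ← Real.rpow_mul hs.le]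
      congr 1; norm_num
    refine (h3.congr_deriv ?_).congr_of_eventuallyEq ?_ ?_
    · rw [e1, e2]
      field_simp
      ring
    · exact Eventually.of_forall fun x => by simp [div_eq_mul_inv]
    · simp [div_eq_mul_inv]
  have h := integral_image_eq_integral_abs_deriv_smul measurableSet_Ioi hder hmono.injOn g
  rw [himg, Measure.restrict_univ] at h
  rw [h]
  refine setIntegral_congr_fun measurableSet_Ioi fun s hs => ?_
  have hs : (0 : ℝ) < s := hs
  simp only [smul_eq_mul]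
  rw [abs_of_pos (by positivity)]

theorem F_half {y : ℝ} (hy : 0 < y) : F (1 / 2) y = √π * exp (-(2 * √y)) := by
  have hb : 0 < √y := Real.sqrt_pos.2 hy
  have h1 := integral_sqrt_sub hb (fun u => exp (-1 * u ^ 2))
  rw [integral_gaussian, div_one] at h1
  have h2 : F (1 / 2) y = √y * F (-(1 / 2)) y := by
    rw [F_inv hy, ← Real.sqrt_eq_rpow]
  have h3 : (∫ s in Ioi (0 : ℝ), ((s ^ (-(1 / 2) : ℝ) + √y * s ^ (-(3 / 2) : ℝ)) / 2) *
      exp (-1 * (√s - √y / √s) ^ 2)) =
      exp (2 * √y) * ((F (1 / 2) y + √y * F (-(1 / 2)) y) / 2) := by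
    unfold F
    rw [← integral_const_mul, ← integral_add (integrableOn_fker hy)
      ((integrableOn_fker hy).const_mul _), ← integral_div, ← integral_const_mul]
    refine setIntegral_congr_fun measurableSet_Ioi fun s hs => ?_
    have hs : (0 : ℝ) < s := hs
    have h0 : 0 < √s := Real.sqrt_pos.2 hs
    have e1 : -1 * (√s - √y / √s) ^ 2 = 2 * √y + (-s - y / s) := by
      have e2 : √s ^ 2 = s := Real.sq_sqrt hs.le
      have e3 : √y ^ 2 = y := Real.sq_sqrt hy.le
      have e4 : (√s - √y / √s) ^ 2 = √s ^ 2 - 2 * √y + √y ^ 2 / √s ^ 2 := by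
        field_simp
        ring
      rw [e4, e2, e3]; ring
    simp only [fker]
    rw [e1, Real.exp_add, show (1 / 2 - 1 : ℝ) = -(1 / 2) by norm_num,
      show (-(1 / 2) - 1 : ℝ) = -(3 / 2) by norm_num]
    ring
  rw [h3, ← h2] at h1
  rw [h1, Real.exp_neg]
  field_simp
  ring

theorem F_neg_half {y : ℝ} (hy : 0 < y) : √y * F (-(1 / 2)) y = √π * exp (-(2 * √y)) := by
  rw [← F_half hy, F_inv (a := 1 / 2) hy, ← Real.sqrt_eq_rpow]

theorem F_three_half {y : ℝ} (hy : 0 < y) :
    F (3 / 2) y = (√y + 1 / 2) * (√π * exp (-(2 * √y))) := by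
  have hb : 0 < √y := Real.sqrt_pos.2 hy
  have hyy : √y * √y = y := Real.mul_self_sqrt hy.le
  set f : ℝ → ℝ := fun s => s ^ (1 / 2 : ℝ) * exp (-s - y / s) with hf
  set f' : ℝ → ℝ := fun s => 1 / 2 * fker (1 / 2) y s - fker (3 / 2) y s +
    y * fker (-(1 / 2)) y s with hf'
  have hfn : ∀ s : ℝ, 0 < s → 0 ≤ f s := fun s hs => by simp only [hf]; positivity
  have hfle : ∀ s : ℝ, 0 < s → f s ≤ s ^ (1 / 2 : ℝ) := fun s hs => by
    simp only [hf]
    refine mul_le_of_le_one_right (by positivity) (Real.exp_le_one_iff.2 ?_)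
    have : 0 ≤ y / s := by positivity
    linarith
  have hfle2 : ∀ s : ℝ, 0 < s → f s ≤ s ^ (1 / 2 : ℝ) * exp (-1 * s) := fun s hs => by
    simp only [hf]
    refine mul_le_mul_of_nonneg_left (Real.exp_le_exp.2 ?_) (by positivity)
    have : 0 ≤ y / s := by positivity
    linarith
  have hcont : ContinuousWithinAt f (Ici 0) 0 := by
    have h0 : f 0 = 0 := by simp [hf]
    rw [ContinuousWithinAt, h0]
    have h1 : Tendsto (fun s : ℝ => s ^ (1 / 2 : ℝ)) (nhdsWithin 0 (Ici 0)) (nhds 0) := by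
      have h2 : ContinuousAt (fun s : ℝ => s ^ (1 / 2 : ℝ)) 0 :=
        Real.continuousAt_rpow_const 0 (1 / 2) (Or.inr (by norm_num))
      have h3 := h2.tendsto
      simp only [Real.zero_rpow (show (1 / 2 : ℝ) ≠ 0 by norm_num)] at h3
      exact h3.mono_left nhdsWithin_le_nhds
    refine tendsto_of_tendsto_of_tendsto_of_le_of_le' tendsto_const_nhds h1 ?_ ?_
    · filter_upwards [self_mem_nhdsWithin] with s hs
      rcases (show (0 : ℝ) ≤ s from hs).eq_or_lt with h | h
      · rw [← h, h0]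
      · exact hfn s h
    · filter_upwards [self_mem_nhdsWithin] with s hs
      rcases (show (0 : ℝ) ≤ s from hs).eq_or_lt with h | h
      · rw [← h, h0]; simp
      · exact hfle s h
  have hderiv : ∀ s ∈ Ioi (0 : ℝ), HasDerivAt f (f' s) s := by
    intro s hs
    have hs : (0 : ℝ) < s := hs
    have h1 := Real.hasDerivAt_rpow_const (p := (1 / 2 : ℝ)) (Or.inl hs.ne')
    have h2 : HasDerivAt (fun s : ℝ => -s - y / s) (-1 + y / s ^ 2) s := by
      have h3 := ((hasDerivAt_id s).neg).sub ((hasDerivAt_inv hs.ne').const_mul y)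
      refine (h3.congr_deriv ?_).congr_of_eventuallyEq ?_
      · field_simp
        ring
      · exact Eventually.of_forall fun x => by simp [div_eq_mul_inv]
    refine (h1.mul h2.exp).congr_deriv ?_
    simp only [hf', fker]
    rw [show (1 / 2 - 1 : ℝ) = -(1 / 2) by norm_num, show (3 / 2 - 1 : ℝ) = 1 / 2 by norm_num,
      show (-(1 / 2) - 1 : ℝ) = 1 / 2 - 2 by norm_num, Real.rpow_sub hs, Real.rpow_two]
    ring
  have hint : IntegrableOn f' (Ioi 0) :=
    ((integrableOn_fker hy).const_mul _ |>.sub (integrableOn_fker hy)).add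
      ((integrableOn_fker hy).const_mul _)
  have hlim : Tendsto f atTop (nhds 0) := by
    refine tendsto_of_tendsto_of_tendsto_of_le_of_le' tendsto_const_nhds
      (tendsto_rpow_mul_exp_neg_mul_atTop_nhds_zero (1 / 2) 1 one_pos) ?_ ?_
    · filter_upwards [eventually_gt_atTop 0] with s hs using hfn s hs
    · filter_upwards [eventually_gt_atTop 0] with s hs using hfle2 s hs
  have h := integral_Ioi_of_hasDerivAt_of_tendsto hcont hderiv hint hlim
  have h0 : f 0 = 0 := by simp [hf]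
  rw [h0, sub_zero] at h
  have h4 : ∫ s in Ioi (0 : ℝ), f' s = 1 / 2 * F (1 / 2) y - F (3 / 2) y + y * F (-(1 / 2)) y := by
    unfold F
    rw [← integral_const_mul, ← integral_const_mul, ← integral_sub
      ((integrableOn_fker hy).const_mul _) (integrableOn_fker hy)]
    exact integral_add (((integrableOn_fker hy).const_mul _).sub (integrableOn_fker hy))
      ((integrableOn_fker hy).const_mul _)
  have h5 : y * F (-(1 / 2)) y = √y * (√π * exp (-(2 * √y))) := by
    rw [← F_neg_half hy, ← mul_assoc, hyy]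
  rw [h4, h5, F_half hy] at h
  linarith

/-- upper bound: `G y ≤ √π y^{-1/12} e^{-2√y}` -/
theorem G_le {y : ℝ} (hy : 0 < y) : G y ≤ y ^ (-(1 / 12) : ℝ) * (√π * exp (-(2 * √y))) := by
  have hb : 0 < √y := Real.sqrt_pos.2 hy
  have hG : y ^ (1 / 12 : ℝ) * G y ≤ 1 / 6 * (√y * F (-(1 / 2)) y) + 5 / 6 * F (1 / 2) y := by
    unfold G F
    rw [← integral_const_mul, ← integral_const_mul, ← integral_const_mul, ← integral_const_mul,
      ← integral_add (((integrableOn_fker hy).const_mul _).const_mul _)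
      ((integrableOn_fker hy).const_mul _)]
    refine setIntegral_mono_on ((integrableOn_fker hy).const_mul _)
      ((((integrableOn_fker hy).const_mul _).const_mul _).add ((integrableOn_fker hy).const_mul _))
      measurableSet_Ioi fun s hs => ?_
    have hs : (0 : ℝ) < s := hs
    simp only [fker]
    have h1 := Real.geom_mean_le_arith_mean2_weighted (w₁ := 1 / 6) (w₂ := 5 / 6)
      (p₁ := √y * s ^ (-(3 / 2) : ℝ)) (p₂ := s ^ (-(1 / 2) : ℝ)) (by norm_num) (by norm_num)
      (by positivity) (by positivity) (by norm_num)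
    have h2 : (√y * s ^ (-(3 / 2) : ℝ)) ^ (1 / 6 : ℝ) * (s ^ (-(1 / 2) : ℝ)) ^ (5 / 6 : ℝ) =
        y ^ (1 / 12 : ℝ) * s ^ (-(2 / 3) : ℝ) := by
      rw [Real.mul_rpow (by positivity) (by positivity), Real.sqrt_eq_rpow,
        ← Real.rpow_mul hy.le, ← Real.rpow_mul hs.le, ← Real.rpow_mul hs.le, mul_assoc,
        ← Real.rpow_add hs]
      norm_num
    rw [h2] at h1
    rw [show (1 / 3 - 1 : ℝ) = -(2 / 3) by norm_num, show (1 / 2 - 1 : ℝ) = -(1 / 2) by norm_num,
      show (-(1 / 2) - 1 : ℝ) = -(3 / 2) by norm_num]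
    have h3 : 0 < exp (-s - y / s) := exp_pos _
    nlinarith [mul_le_mul_of_nonneg_right h1 h3.le]
  rw [F_neg_half hy, F_half hy] at hG
  rw [Real.rpow_neg hy.le, ← div_eq_inv_mul, le_div_iff₀' (by positivity)]
  linarith

/-- lower bound: `√π (√y+1/2)^{-1/6} e^{-2√y} ≤ G y` -/
theorem le_G {y : ℝ} (hy : 0 < y) :
    (√y + 1 / 2) ^ (-(1 / 6) : ℝ) * (√π * exp (-(2 * √y))) ≤ G y := by
  have hb : 0 < √y := Real.sqrt_pos.2 hy
  have hb2 : 0 < √y + 1 / 2 := by positivity
  set t : ℝ := (√y + 1 / 2) ^ (1 / 6 : ℝ) with ht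
  have ht0 : 0 < t := by positivity
  have ht6 : t ^ 6 = √y + 1 / 2 := by
    rw [ht, ← Real.rpow_natCast, ← Real.rpow_mul hb2.le]; norm_num
  have hG : F (1 / 2) y ≤ 6 / 7 * (t * G y) + 1 / 7 * ((t ^ 6)⁻¹ * F (3 / 2) y) := by
    unfold G F
    rw [← integral_const_mul, ← integral_const_mul, ← integral_const_mul, ← integral_const_mul,
      ← integral_add (((integrableOn_fker hy).const_mul _).const_mul _)
      (((integrableOn_fker hy).const_mul _).const_mul _)]
    refine setIntegral_mono_on (integrableOn_fker hy)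
      ((((integrableOn_fker hy).const_mul _).const_mul _).add
      (((integrableOn_fker hy).const_mul _).const_mul _))
      measurableSet_Ioi fun s hs => ?_
    have hs : (0 : ℝ) < s := hs
    simp only [fker]
    have h1 := Real.geom_mean_le_arith_mean2_weighted (w₁ := 6 / 7) (w₂ := 1 / 7)
      (p₁ := t * s ^ (-(2 / 3) : ℝ)) (p₂ := (t ^ 6)⁻¹ * s ^ (1 / 2 : ℝ)) (by norm_num) (by norm_num)
      (by positivity) (by positivity) (by norm_num)
    have h2 : (t * s ^ (-(2 / 3) : ℝ)) ^ (6 / 7 : ℝ) * ((t ^ 6)⁻¹ * s ^ (1 / 2 : ℝ)) ^ (1 / 7 : ℝ) =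
        s ^ (-(1 / 2) : ℝ) := by
      have e1 : (t ^ 6)⁻¹ = t ^ (-6 : ℝ) := by
        rw [Real.rpow_neg ht0.le]; norm_cast
      rw [e1, Real.mul_rpow (by positivity) (by positivity),
        Real.mul_rpow (by positivity) (by positivity),
        ← Real.rpow_mul hs.le, ← Real.rpow_mul hs.le, ← Real.rpow_mul ht0.le]
      have e2 : t ^ (6 / 7 : ℝ) * s ^ (-(2 / 3) * (6 / 7) : ℝ) *
          (t ^ (-6 * (1 / 7) : ℝ) * s ^ (1 / 2 * (1 / 7) : ℝ)) =
          (t ^ (6 / 7 : ℝ) * t ^ (-6 * (1 / 7) : ℝ)) *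
          (s ^ (-(2 / 3) * (6 / 7) : ℝ) * s ^ (1 / 2 * (1 / 7) : ℝ)) := by ring
      rw [e2, ← Real.rpow_add ht0, ← Real.rpow_add hs]
      norm_num
    rw [h2] at h1
    rw [show (1 / 3 - 1 : ℝ) = -(2 / 3) by norm_num, show (1 / 2 - 1 : ℝ) = -(1 / 2) by norm_num,
      show (3 / 2 - 1 : ℝ) = 1 / 2 by norm_num]
    have h3 : 0 < exp (-s - y / s) := exp_pos _
    nlinarith [mul_le_mul_of_nonneg_right h1 h3.le]
  rw [F_three_half hy, F_half hy, ht6, inv_mul_cancel_left₀ hb2.ne'] at hG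
  have h4 : √π * exp (-(2 * √y)) ≤ t * G y := by linarith
  rw [Real.rpow_neg hb2.le, ← ht, ← div_eq_inv_mul, div_le_iff₀' ht0]
  exact h4

theorem G_pos {y : ℝ} (hy : 0 < y) : 0 < G y :=
  lt_of_lt_of_le (by positivity) (le_G hy)

end Vale.Agent.P006.SG
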