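import Vale.Agent.P006.SG.Theta
import Vale.Agent.P006.SG.Noise
import Vale.Agent.P006.R1.Strip13

/-!
P006, block SG: the Eisenstein series of block H with the profile `e^{-x/X}`; pointwise limits of the
normalised series at both cusps.
-/

open MeasureTheory Filter Topology Set
open scoped Real

namespace Vale.Agent.P006.SG

open PO H570 H9 R1

theorem fX_pos {X x : ℝ} (hx : 0 < x) : fX X x = ((Real.exp (-(x / X)) : ℝ) : ℂ) := by
  rw [fX, if_pos hx]

theorem measurable_fX (X : ℝ) : Measurable (fX X) := by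
  unfold fX
  refine Complex.measurable_ofReal.comp (Measurable.ite measurableSet_Ioi ?_ measurable_const)
  fun_prop

theorem decay_fX {X : ℝ} (hX : 0 < X) : Decay (fX X) ((1 + 3 * X) ^ 3) := by
  intro x hx
  rw [fX_pos hx, Complex.norm_real, Real.norm_of_nonneg (Real.exp_pos _).le,
    ← div_eq_mul_inv, le_div_iff₀ (by positivity)]
  have h1 : 1 + x ≤ (1 + 3 * X) * Real.exp (x / (3 * X)) := by
    have h2 : x / (3 * X) + 1 ≤ Real.exp (x / (3 * X)) := Real.add_one_le_exp _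
    have h3 : (1 + 3 * X) * (x / (3 * X) + 1) = 1 + 3 * X + x / (3 * X) + x := by
      field_simp
      ring
    have h4 : 0 ≤ x / (3 * X) := by positivity
    nlinarith
  have h5 : (1 + x) ^ 3 ≤ ((1 + 3 * X) * Real.exp (x / (3 * X))) ^ 3 := by
    gcongr
  have h6 : ((1 + 3 * X) * Real.exp (x / (3 * X))) ^ 3 = (1 + 3 * X) ^ 3 * Real.exp (x / X) := by
    rw [mul_pow, ← Real.exp_nat_mul]
    congr 2
    push_cast
    field_simp
  rw [h6] at h5
  calc Real.exp (-(x / X)) * (1 + x) ^ 3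
      ≤ Real.exp (-(x / X)) * ((1 + 3 * X) ^ 3 * Real.exp (x / X)) := by gcongr
    _ = (1 + 3 * X) ^ 3 * (Real.exp (-(x / X)) * Real.exp (x / X)) := by ring
    _ = (1 + 3 * X) ^ 3 := by rw [← Real.exp_add]; simp

theorem FS_fX {X v : ℝ} (hX : 0 < X) (hv : 0 < v) (z : ℂ) : FC.FS (fX X) (z, v) = E0 X v z := by
  rw [FC.FS, E0]
  refine tsum_congr fun p => ?_
  have hN : 0 < (N (p.1 : O) : ℝ) := Prim.N_pos p.1
  have hd : toC (p.1 : O) ≠ 0 := by simpa using p.1.2.ne_zero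
  have hpos : 0 < (N (p.1 : O) : ℝ) * (‖z - 3 * toC p.2 / toC (p.1 : O)‖ ^ 2 + v ^ 2) / v := by
    positivity
  rw [FC.term, FC.fd, E0t, mul_assoc]
  simp only
  rw [fX_pos hpos, gk, ← Complex.ofReal_mul, ← Real.exp_add]
  congr 4
  have e : toC (p.1 : O) * z - toC (3 * p.2) = toC (p.1 : O) * (z - 3 * toC p.2 / toC (p.1 : O)) := by
    rw [map_mul, map_ofNat]; field_simp
  have e2 : ‖toC (p.1 : O)‖ ^ 2 = N (p.1 : O) := by
    rw [← Complex.normSq_eq_norm_sq, ← N_cast_real]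
  rw [e, norm_mul, mul_pow, e2]
  field_simp
  ring

/-- the theta function on `H3` -/
noncomputable def ThH (c₀ : ℝ) (θ : O → ℂ) (w : H3) : ℂ := Th c₀ θ w.z w.v

theorem S_S_smul (w : H3) : KU.Smat O • (KU.Smat O • w) = w := by
  apply ext_Q
  intro c d
  rw [smul_eq, smul_eq, Q_smulC, Q_smulC]
  simp [KU.Smat]
  rw [Q, Q, den, den]
  congr 1
  have e1 : Complex.normSq (-(c * w.z) + -d) = Complex.normSq (c * w.z + d) := by
    rw [← Complex.normSq_neg]; congr 1; ring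
  simp [e1]

theorem E_S' {X : ℝ} (hX : 0 < X) (w : H3) : E 1 R1.eta (fX X) (KU.Smat O • w) = E0 X w.v w.z := by
  have h := E_S (fX X) (z := w.z) (y := w.v) w.v_pos
  rw [H3.of_self, FS_fX hX w.v_pos] at h
  exact h

section
variable {θ : O → ℂ} {C : ℝ} {A : ℕ} {δ : ℝ} {c₀ : ℝ}

/-- the constant term hypothesis -/
def ConstHyp (c₀ : ℝ) : Prop := ∀ v : ℝ, 0 < v →
  Tendsto (fun X : ℝ => bk X v 0) atTop (𝓝 ((c₀ * v ^ (2 / 3 : ℝ) : ℝ) : ℂ))

/-- limit at the cusp `0` -/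
theorem tendsto_E_S (hθ : SharpHyp θ C A δ) (hδ : 0 < δ) (hδ1 : δ < 1 / 3) (h0 : ConstHyp c₀)
    (w : H3) :
    Tendsto (fun X : ℝ => E 1 R1.eta (fX X) (KU.Smat O • w) / lX X) atTop (𝓝 (ThH c₀ θ w)) := by
  refine (tendsto_E0 hθ hδ hδ1 w.v_pos (h0 w.v w.v_pos) w.z).congr' ?_
  filter_upwards [eventually_gt_atTop 0] with X hX
  rw [E_S' hX]

/-- limit at the cusp `∞` -/
theorem tendsto_E_id (hθ : SharpHyp θ C A δ) (hδ : 0 < δ) (hδ1 : δ < 1 / 3) (h0 : ConstHyp c₀)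
    (w : H3) :
    Tendsto (fun X : ℝ => E 1 R1.eta (fX X) w / lX X) atTop (𝓝 (ThH c₀ θ (KU.Smat O • w))) := by
  have h := tendsto_E_S hθ hδ hδ1 h0 (KU.Smat O • w)
  rwa [S_S_smul] at h

theorem continuous_ThH (hθ : SharpHyp θ C A δ) (c₀ : ℝ) : Continuous (ThH c₀ θ) := by
  have h := continuousOn_Th hθ c₀
  rw [continuousOn_iff_continuous_domRestrict] at h
  exact h

end

end Vale.Agent.P006.SG
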