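import Vale.Agent.P006.SG.Gauss

/-!
P006, block SG: the Eisenstein series with exponential weight, expanded at the cusp `0`.
-/

open MeasureTheory Filter Topology Set
open scoped Real

namespace Vale.Agent.P006.SG

open PO

theorem summable_exp_sqrt {b : ℝ} (hb : 0 < b) : Summable fun k : O => Real.exp (-(b * √(N k))) := by
  refine summable_of_sum_le (c := (2 * Real.exp (-(b / 2 * (0 : ℕ))) / (1 - Real.exp (-(b / 2)))) *
    (2 * Real.exp (-(b / 2 * (0 : ℕ))) / (1 - Real.exp (-(b / 2))))) (fun k => (Real.exp_pos _).le) ?_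
  intro s
  refine sum_O_le s (fun j => (0 : ℤ) ≤ |j|) _
    (fun j => Real.exp (-(b / 2 * |(j : ℝ)|)))
    (fun j x => Real.exp (-(b / 2 * |(x : ℝ)|))) _ _ ?_ ?_ ?_ ?_ ?_ ?_
  · intro m _; exact abs_nonneg _
  · intro m _
    rw [← Real.exp_add]
    refine Real.exp_le_exp.2 ?_
    have := sqrt_N_ge' m
    nlinarith
  · intro j; positivity
  · intro j x; positivity
  · intro j A
    exact sum_exp_tail (b / 2) (by positivity) 0 A fun n _ => by simp
  · intro B _
    exact sum_exp_tail (b / 2) (by positivity) 0 B fun n _ => by simp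

theorem summable_exp_N {b : ℝ} (hb : 0 < b) : Summable fun k : O => Real.exp (-(b * N k)) := by
  refine Summable.of_nonneg_of_le (fun k => (Real.exp_pos _).le) (fun k => ?_) (summable_exp_sqrt hb)
  refine Real.exp_le_exp.2 (neg_le_neg (mul_le_mul_of_nonneg_left ?_ hb.le))
  rcases Nat.eq_zero_or_pos (N k) with h | h
  · rw [h]; simp
  · have h1 : (1 : ℝ) ≤ N k := by exact_mod_cast h
    rw [Real.sqrt_le_left (by positivity)]
    nlinarith

theorem two_param_le {n K α β : ℝ} (hn : 0 < n) (hK : 0 ≤ K) (hα : 0 < α) (hβ : 0 ≤ β) :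
    Real.exp (-(α * n) - β * K / n) ≤ Real.exp (-(α / 2 * n)) * Real.exp (-(√(2 * α * β) * √K)) := by
  rw [← Real.exp_add]
  refine Real.exp_le_exp.2 ?_
  rw [← Real.sqrt_mul (by positivity)]
  have h1 : √(2 * α * β * K) ≤ α / 2 * n + β * K / n := by
    refine Real.sqrt_le_iff.2 ⟨by positivity, ?_⟩
    have h2 : 0 ≤ (α / 2 * n - β * K / n) ^ 2 := sq_nonneg _
    have h3 : α / 2 * n * (β * K / n) = α * β * K / 2 := by field_simp
    nlinarith
  linarith

/-- index set of the Eisenstein series -/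
abbrev Prim : Type := {d : O // Primary d}

theorem Prim.N_pos (d : Prim) : 0 < (N (d : O) : ℝ) := by
  exact_mod_cast Vale.Agent.P006.N_pos d.2.ne_zero

theorem Prim.one_le_N (d : Prim) : 1 ≤ (N (d : O) : ℝ) := by
  exact_mod_cast Vale.Agent.P006.N_pos d.2.ne_zero

/-- `4π²/27` -/
noncomputable def qq : ℝ := 4 * π ^ 2 / 27

theorem qq_pos : 0 < qq := by unfold qq; positivity

/-- the term of the Eisenstein series -/
noncomputable def E0t (X v : ℝ) (z : ℂ) (p : Prim × O) : ℂ :=
  toC (sym (3 * p.2) p.1) * gk (1 / (v * X)) (toC p.1 * z - toC (3 * p.2)) *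
    ((Real.exp (-(v / X * N (p.1 : O))) : ℝ) : ℂ)

/-- the Eisenstein series with weight `e^{-x/X}`, at the cusp `0` -/
noncomputable def E0 (X v : ℝ) (z : ℂ) : ℂ := ∑' p : Prim × O, E0t X v z p

/-- its Fourier coefficients, without the factor `2πvX/(9√3)` -/
noncomputable def Bk (X v : ℝ) (k : O) : ℂ :=
  ∑' d : Prim, gs k d / N (d : O) *
    ((Real.exp (-(v / X * N (d : O)) - qq * v * X * N k / N (d : O)) : ℝ) : ℂ)

section
variable {X v : ℝ}

theorem summable_pair (hX : 0 < X) (hv : 0 < v) : Summable fun p : Prim × O =>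
    Real.exp (-(v / X * N (p.1 : O)) - qq * v * X * N p.2 / N (p.1 : O)) := by
  have hα : 0 < v / X := by positivity
  have hβ : 0 < qq * v * X := by have := qq_pos; positivity
  have h1 : Summable fun d : Prim => Real.exp (-(v / X / 2 * N (d : O))) :=
    (summable_exp_N (show 0 < v / X / 2 by positivity)).subtype _
  have h2 : Summable fun k : O => Real.exp (-(√(2 * (v / X) * (qq * v * X)) * √(N k))) :=
    summable_exp_sqrt (Real.sqrt_pos.2 (by positivity))
  refine Summable.of_nonneg_of_le (fun p => (Real.exp_pos _).le) (fun p => ?_)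
    (h1.mul_of_nonneg h2 (fun _ => (Real.exp_pos _).le) (fun _ => (Real.exp_pos _).le))
  exact two_param_le p.1.N_pos (by positivity) hα hβ.le

theorem norm_gs_div_le (k : O) (d : Prim) : ‖gs k d / N (d : O)‖ ≤ 1 := by
  have : NeZero (d : O) := ⟨d.2.ne_zero⟩
  rw [norm_div, Complex.norm_natCast, div_le_one d.N_pos]
  exact norm_gs_le k d

theorem summable_pair_C (hX : 0 < X) (hv : 0 < v) (z : ℂ) : Summable fun p : Prim × O =>
    gs p.2 p.1 / N (p.1 : O) *
    ((Real.exp (-(v / X * N (p.1 : O)) - qq * v * X * N p.2 / N (p.1 : O)) : ℝ) : ℂ) *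
    eT (z * (toC p.2 / (3 * toC rt3))) := by
  refine Summable.of_norm_bounded (summable_pair hX hv) fun p => ?_
  rw [norm_mul, norm_mul, norm_eT, mul_one, Complex.norm_real,
    Real.norm_of_nonneg (Real.exp_pos _).le]
  exact mul_le_of_le_one_left (Real.exp_pos _).le (norm_gs_div_le _ _)

theorem norm_gk (t : ℝ) (z : ℂ) : ‖gk t z‖ = Real.exp (-(t * ‖z‖ ^ 2)) := by
  rw [gk, Complex.norm_real, Real.norm_of_nonneg (Real.exp_pos _).le]

/-- uniform bound of Gaussian lattice sums -/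
theorem tsum_gk_le {s : ℝ} (hs : 0 < s) : ∃ C : ℝ, ∀ w : ℂ, Summable (fun x : O => ‖gk s (w - toC (3 * x))‖) ∧
    ∑' x : O, ‖gk s (w - toC (3 * x))‖ ≤ C := by
  have h9 : 0 < 9 * s := by positivity
  have e1 : ∀ (w : ℂ) (x : O), ‖gk s (w - toC (3 * x))‖ = ‖gk (9 * s) (-(w / 3) + toC x)‖ := by
    intro w x
    rw [norm_gk, norm_gk]
    congr 2
    have h3 : toC 3 = 3 := by
      have := toC_natCast 3
      simpa using this
    have : w - toC (3 * x) = -3 * (-(w / 3) + toC x) := by rw [map_mul, h3]; ring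
    rw [this, norm_mul, mul_pow]
    norm_num
    ring
  refine ⟨∑' k : O, (2 * π / (√3 * (9 * s)) * Real.exp (-(4 * π ^ 2 * N k / (3 * (9 * s))))),
    fun w => ?_⟩
  have h1 := (summable_gk h9 (-(w / 3))).norm
  refine ⟨h1.congr fun x => (e1 w x).symm, ?_⟩
  have h2 := gauss_poisson h9 (-(w / 3))
  have h3 : (∑' x : O, ‖gk s (w - toC (3 * x))‖ : ℝ) = ‖∑' y : O, gk (9 * s) (-(w / 3) + toC y)‖ := by
    have h4 : (∑' y : O, gk (9 * s) (-(w / 3) + toC y)) =
        ((∑' y : O, ‖gk (9 * s) (-(w / 3) + toC y)‖ : ℝ) : ℂ) := by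
      rw [Complex.ofReal_tsum]
      refine tsum_congr fun y => ?_
      rw [norm_gk]; rfl
    rw [h4, Complex.norm_real, Real.norm_of_nonneg (tsum_nonneg fun _ => norm_nonneg _)]
    exact tsum_congr (e1 w)
  rw [h3, ← h2.tsum_eq]
  have h5 : Summable fun k : O => (2 * π / (√3 * (9 * s)) *
      Real.exp (-(4 * π ^ 2 * N k / (3 * (9 * s))))) := by
    refine Summable.mul_left _ ?_
    refine (summable_exp_N (show 0 < 4 * π ^ 2 / (3 * (9 * s)) by positivity)).congr fun k => ?_
    congr 1; ring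
  refine tsum_of_norm_bounded h5.hasSum fun k => ?_
  rw [norm_mul, norm_eT, mul_one, Complex.norm_real, Real.norm_of_nonneg (by positivity)]

theorem norm_toC_sym_le (a b : O) : ‖toC (sym a b)‖ ≤ 1 := norm_sym_le a b

theorem summable_E0t (hX : 0 < X) (hv : 0 < v) (z : ℂ) : Summable fun p : Prim × O => ‖E0t X v z p‖ := by
  obtain ⟨C, hC⟩ := tsum_gk_le (s := 1 / (v * X)) (by positivity)
  have hle : ∀ p : Prim × O, ‖E0t X v z p‖ ≤
      ‖gk (1 / (v * X)) (toC p.1 * z - toC (3 * p.2))‖ * Real.exp (-(v / X * N (p.1 : O))) := by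
    intro p
    rw [E0t, norm_mul, norm_mul, Complex.norm_real, Real.norm_of_nonneg (Real.exp_pos _).le]
    refine mul_le_mul_of_nonneg_right ?_ (Real.exp_pos _).le
    exact mul_le_of_le_one_left (norm_nonneg _) (norm_toC_sym_le _ _)
  refine Summable.of_nonneg_of_le (fun _ => norm_nonneg _) hle ?_
  have h0 : (0 : Prim × O → ℝ) ≤ fun p : Prim × O =>
      ‖gk (1 / (v * X)) (toC p.1 * z - toC (3 * p.2))‖ * Real.exp (-(v / X * N (p.1 : O))) :=
    fun p => mul_nonneg (norm_nonneg _) (Real.exp_pos _).le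
  refine (summable_prod_of_nonneg h0).2 ⟨fun d => ?_, ?_⟩
  · exact Summable.mul_right (Real.exp (-(v / X * N (d : O)))) (hC (toC d * z)).1
  · have h1 : Summable fun d : Prim => C * Real.exp (-(v / X * N (d : O))) :=
      Summable.mul_left C ((summable_exp_N (show 0 < v / X by positivity)).subtype _)
    refine Summable.of_nonneg_of_le (fun d => tsum_nonneg fun x => h0 (d, x)) (fun d => ?_) h1
    have h2 : (∑' x : O, ‖gk (1 / (v * X)) (toC (d : O) * z - toC (3 * x))‖ *
        Real.exp (-(v / X * N (d : O)))) = (∑' x : O, ‖gk (1 / (v * X)) (toC (d : O) * z -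
        toC (3 * x))‖) * Real.exp (-(v / X * N (d : O))) := tsum_mul_right
    exact h2.le.trans (mul_le_mul_of_nonneg_right (hC _).2 (Real.exp_pos _).le)

/-- **Fourier expansion** of the Eisenstein series with exponential weight at the cusp `0`. -/
theorem hasSum_E0 (hX : 0 < X) (hv : 0 < v) (z : ℂ) :
    HasSum (fun k : O => ((2 * π * (v * X) / (9 * √3) : ℝ) : ℂ) * Bk X v k *
      eT (z * (toC k / (3 * toC rt3)))) (E0 X v z) := by
  have hs : 0 < 1 / (v * X) := by positivity
  have hSC := summable_pair_C hX hv z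
  -- the value of the Eisenstein series
  have h1 : E0 X v z = ∑' d : Prim, (∑' x : O, toC (sym (3 * x) d) *
      gk (1 / (v * X)) (toC d * z - toC (3 * x))) * ((Real.exp (-(v / X * N (d : O))) : ℝ) : ℂ) := by
    rw [E0, (summable_norm_iff.1 (summable_E0t hX hv z)).tsum_prod]
    refine tsum_congr fun d => ?_
    rw [← tsum_mul_right]
    rfl
  have h2 : ∀ d : Prim, (∑' x : O, toC (sym (3 * x) d) *
      gk (1 / (v * X)) (toC d * z - toC (3 * x))) * ((Real.exp (-(v / X * N (d : O))) : ℝ) : ℂ) =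
      ∑' k : O, ((2 * π * (v * X) / (9 * √3) : ℝ) : ℂ) * (gs k d / N (d : O) *
      ((Real.exp (-(v / X * N (d : O)) - qq * v * X * N k / N (d : O)) : ℝ) : ℂ) *
      eT (z * (toC k / (3 * toC rt3)))) := by
    intro d
    rw [← (hasSum_inner d d.2 hs z).2.tsum_eq, ← tsum_mul_right]
    refine tsum_congr fun k => ?_
    have hN := d.N_pos
    have hNC : (N (d : O) : ℂ) ≠ 0 := by exact_mod_cast hN.ne'
    have e1 : (2 * π / (9 * √3 * (1 / (v * X)) * N (d : O)) : ℝ) =
        (2 * π * (v * X) / (9 * √3)) * (1 / N (d : O)) := by field_simp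
    have e2 : Real.exp (-(v / X * N (d : O)) - qq * v * X * N k / N (d : O)) =
        Real.exp (-(4 * π ^ 2 * N k / (27 * (1 / (v * X)) * N (d : O)))) *
          Real.exp (-(v / X * N (d : O))) := by
      rw [← Real.exp_add]
      congr 1
      unfold qq
      field_simp
      ring
    rw [e1, e2]
    push_cast
    ring
  rw [h1, tsum_congr h2]
  have hSC' : Summable fun p : Prim × O => ((2 * π * (v * X) / (9 * √3) : ℝ) : ℂ) *
      (gs p.2 p.1 / N (p.1 : O) *
      ((Real.exp (-(v / X * N (p.1 : O)) - qq * v * X * N p.2 / N (p.1 : O)) : ℝ) : ℂ) *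
      eT (z * (toC p.2 / (3 * toC rt3)))) := hSC.mul_left _
  have hswap : Summable fun p : O × Prim => ((2 * π * (v * X) / (9 * √3) : ℝ) : ℂ) *
      (gs p.1 p.2 / N (p.2 : O) *
      ((Real.exp (-(v / X * N (p.2 : O)) - qq * v * X * N p.1 / N (p.2 : O)) : ℝ) : ℂ) *
      eT (z * (toC p.1 / (3 * toC rt3)))) := hSC'.prod_symm
  have h3 : (∑' d : Prim, ∑' k : O, ((2 * π * (v * X) / (9 * √3) : ℝ) : ℂ) * (gs k d / N (d : O) *
      ((Real.exp (-(v / X * N (d : O)) - qq * v * X * N k / N (d : O)) : ℝ) : ℂ) *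
      eT (z * (toC k / (3 * toC rt3))))) =
      ∑' k : O, ∑' d : Prim, ((2 * π * (v * X) / (9 * √3) : ℝ) : ℂ) * (gs k d / N (d : O) *
      ((Real.exp (-(v / X * N (d : O)) - qq * v * X * N k / N (d : O)) : ℝ) : ℂ) *
      eT (z * (toC k / (3 * toC rt3)))) := hswap.tsum_comm
  rw [h3]
  have h4 : ∀ k : O, (∑' d : Prim, ((2 * π * (v * X) / (9 * √3) : ℝ) : ℂ) * (gs k d / N (d : O) *
      ((Real.exp (-(v / X * N (d : O)) - qq * v * X * N k / N (d : O)) : ℝ) : ℂ) *
      eT (z * (toC k / (3 * toC rt3))))) =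
      ((2 * π * (v * X) / (9 * √3) : ℝ) : ℂ) * Bk X v k * eT (z * (toC k / (3 * toC rt3))) := by
    intro k
    rw [tsum_mul_left, tsum_mul_right, Bk]
    ring
  have h5 := hswap.prod
  refine (h5.congr fun k => ?_).hasSum_iff.2 ?_
  · exact h4 k
  · exact tsum_congr fun k => (h4 k).symm

end

end Vale.Agent.P006.SG
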