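import Vale.Agent.P006.SG.Num
import Vale.Agent.P006.CR.Basic

/-!
P006, block SG: bounds for the lattice sums over the Eisenstein integers used in the sign argument.
-/

open Real

namespace Vale.Agent.P006.SG

/-! ### Geometric sums over finite sets of integers -/

theorem sum_exp_nat (c : ℝ) (hc : 0 < c) (s : Finset ℕ) :
    ∑ n ∈ s, exp (-(c * n)) ≤ 1 / (1 - exp (-c)) := by
  have hr : exp (-c) < 1 := Real.exp_lt_one_iff.2 (by linarith)
  have h0 : 0 ≤ exp (-c) := (exp_pos _).le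
  have h1 : ∀ n : ℕ, exp (-(c * n)) = exp (-c) ^ n := fun n => by
    rw [← Real.exp_nat_mul]; congr 1; ring
  simp only [h1]
  have h2 := (summable_geometric_of_lt_one h0 hr).sum_le_tsum s fun n _ => by positivity
  rw [tsum_geometric_of_lt_one h0 hr] at h2
  rw [one_div]; exact h2

theorem sum_exp_ge (c : ℝ) (hc : 0 < c) (p : ℤ) (s : Finset ℤ) (hs : ∀ n ∈ s, p ≤ n) :
    ∑ n ∈ s, exp (-(c * (n - p))) ≤ 1 / (1 - exp (-c)) := by
  have hinj : Set.InjOn (fun n : ℤ => (n - p).toNat) s := by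
    intro m hm n hn h
    have h1 := hs m hm
    have h2 := hs n hn
    simp only at h
    omega
  refine le_trans (le_of_eq ?_) (sum_exp_nat c hc (s.image fun n => (n - p).toNat))
  rw [Finset.sum_image hinj]
  refine Finset.sum_congr rfl fun n hn => ?_
  have h1 := hs n hn
  have h2 : (((n - p).toNat : ℕ) : ℝ) = ((n - p : ℤ) : ℝ) := by
    rw [← Int.cast_natCast, Int.toNat_of_nonneg (by omega)]
  rw [h2]; push_cast; ring_nf

theorem sum_exp_le (c : ℝ) (hc : 0 < c) (p : ℤ) (s : Finset ℤ) (hs : ∀ n ∈ s, n ≤ p) :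
    ∑ n ∈ s, exp (-(c * (p - n))) ≤ 1 / (1 - exp (-c)) := by
  have h := sum_exp_ge c hc (-p) (s.image fun n => -n) (by
    intro n hn
    obtain ⟨m, hm, rfl⟩ := Finset.mem_image.1 hn
    have := hs m hm
    omega)
  rw [Finset.sum_image (fun a _ b _ h => neg_injective h)] at h
  refine le_trans (le_of_eq ?_) h
  refine Finset.sum_congr rfl fun n _ => ?_
  push_cast; ring_nf

/-- geometric sum with a real shift -/
theorem sum_exp_shift (c : ℝ) (hc : 0 < c) (σ : ℝ) (s : Finset ℤ) :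
    ∑ n ∈ s, exp (-(c * |(n : ℝ) - σ|)) ≤ 2 / (1 - exp (-c)) := by
  have hr : exp (-c) < 1 := Real.exp_lt_one_iff.2 (by linarith)
  rw [← Finset.sum_filter_add_sum_filter_not s (fun n => ⌈σ⌉ ≤ n)]
  have h1 := sum_exp_ge c hc ⌈σ⌉ (s.filter fun n => ⌈σ⌉ ≤ n) (fun n hn => (Finset.mem_filter.1 hn).2)
  have h2 := sum_exp_le c hc (⌈σ⌉ - 1) (s.filter fun n => ¬ ⌈σ⌉ ≤ n)
    (fun n hn => by have := (Finset.mem_filter.1 hn).2; omega)
  have h3 : ∑ n ∈ s.filter (fun n => ⌈σ⌉ ≤ n), exp (-(c * |(n : ℝ) - σ|)) ≤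
      ∑ n ∈ s.filter (fun n => ⌈σ⌉ ≤ n), exp (-(c * (n - (⌈σ⌉ : ℤ)))) := by
    refine Finset.sum_le_sum fun n hn => Real.exp_le_exp.2 ?_
    have h4 := Int.le_ceil σ
    have h5 : (n : ℝ) - σ ≤ |(n : ℝ) - σ| := le_abs_self _
    nlinarith
  have h6 : ∑ n ∈ s.filter (fun n => ¬ ⌈σ⌉ ≤ n), exp (-(c * |(n : ℝ) - σ|)) ≤
      ∑ n ∈ s.filter (fun n => ¬ ⌈σ⌉ ≤ n), exp (-(c * ((⌈σ⌉ - 1 : ℤ) - n))) := by
    refine Finset.sum_le_sum fun n hn => Real.exp_le_exp.2 ?_
    have h4 := Int.ceil_lt_add_one σ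
    have h5 : -((n : ℝ) - σ) ≤ |(n : ℝ) - σ| := neg_le_abs _
    push_cast
    nlinarith
  have h7 : 2 / (1 - exp (-c)) = 1 / (1 - exp (-c)) + 1 / (1 - exp (-c)) := by ring
  rw [h7]
  exact add_le_add (h3.trans h1) (h6.trans h2)

/-- geometric sum over `|n| ≥ k` -/
theorem sum_exp_tail (c : ℝ) (hc : 0 < c) (k : ℕ) (s : Finset ℤ) (hs : ∀ n ∈ s, (k : ℤ) ≤ |n|) :
    ∑ n ∈ s, exp (-(c * |(n : ℝ)|)) ≤ 2 * exp (-(c * k)) / (1 - exp (-c)) := by
  have hr : exp (-c) < 1 := Real.exp_lt_one_iff.2 (by linarith)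
  rw [← Finset.sum_filter_add_sum_filter_not s (fun n => (k : ℤ) ≤ n)]
  have h1 := sum_exp_ge c hc k (s.filter fun n => (k : ℤ) ≤ n) (fun n hn => (Finset.mem_filter.1 hn).2)
  have h2 := sum_exp_le c hc (-k) (s.filter fun n => ¬ (k : ℤ) ≤ n)
    (fun n hn => by
      have h3 := (Finset.mem_filter.1 hn).2
      have h4 := hs n (Finset.mem_filter.1 hn).1
      rcases le_abs.1 h4 with h | h <;> omega)
  have h3 : ∑ n ∈ s.filter (fun n => (k : ℤ) ≤ n), exp (-(c * |(n : ℝ)|)) ≤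
      exp (-(c * k)) * ∑ n ∈ s.filter (fun n => (k : ℤ) ≤ n), exp (-(c * (n - (k : ℤ)))) := by
    rw [Finset.mul_sum]
    refine Finset.sum_le_sum fun n hn => ?_
    rw [← Real.exp_add]
    refine Real.exp_le_exp.2 ?_
    have h5 : (n : ℝ) ≤ |(n : ℝ)| := le_abs_self _
    push_cast
    nlinarith
  have h6 : ∑ n ∈ s.filter (fun n => ¬ (k : ℤ) ≤ n), exp (-(c * |(n : ℝ)|)) ≤
      exp (-(c * k)) * ∑ n ∈ s.filter (fun n => ¬ (k : ℤ) ≤ n), exp (-(c * ((-k : ℤ) - n))) := by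
    rw [Finset.mul_sum]
    refine Finset.sum_le_sum fun n hn => ?_
    rw [← Real.exp_add]
    refine Real.exp_le_exp.2 ?_
    have h5 : -(n : ℝ) ≤ |(n : ℝ)| := neg_le_abs _
    push_cast
    nlinarith
  have h7 : 2 * exp (-(c * k)) / (1 - exp (-c)) =
      exp (-(c * k)) * (1 / (1 - exp (-c))) + exp (-(c * k)) * (1 / (1 - exp (-c))) := by ring
  rw [h7]
  exact add_le_add (h3.trans (by gcongr)) (h6.trans (by gcongr))

/-- sums over finite sets of Eisenstein integers, dominated by iterated sums -/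
theorem sum_O_le (s : Finset O) (P : ℤ → Prop) [DecidablePred P] (f : O → ℝ) (g : ℤ → ℝ)
    (h : ℤ → ℤ → ℝ) (Gb H : ℝ) (hP : ∀ m ∈ s, P m.im) (hf : ∀ m ∈ s, f m ≤ g m.im * h m.im m.re)
    (hg : ∀ j, 0 ≤ g j) (hh : ∀ j x, 0 ≤ h j x) (hH : ∀ j, ∀ A : Finset ℤ, ∑ x ∈ A, h j x ≤ H)
    (hG : ∀ B : Finset ℤ, (∀ j ∈ B, P j) → ∑ j ∈ B, g j ≤ Gb) :
    ∑ m ∈ s, f m ≤ Gb * H := by
  have hH0 : 0 ≤ H := by simpa using hH 0 ∅
  have h1 : ∑ m ∈ s, f m ≤ ∑ m ∈ s, g m.im * h m.im m.re := Finset.sum_le_sum hf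
  have hinj : Set.InjOn (fun m : O => ((m.im, m.re) : ℤ × ℤ)) s := by
    intro m _ n _ hmn
    simp only [Prod.mk.injEq] at hmn
    exact QuadraticAlgebra.ext hmn.2 hmn.1
  have h2 : ∑ m ∈ s, g m.im * h m.im m.re =
      ∑ p ∈ s.image (fun m : O => ((m.im, m.re) : ℤ × ℤ)), g p.1 * h p.1 p.2 := by
    rw [Finset.sum_image hinj]
  set B := s.image (fun m : O => m.im) with hB
  set A := s.image (fun m : O => m.re) with hA
  have h3 : ∑ p ∈ s.image (fun m : O => ((m.im, m.re) : ℤ × ℤ)), g p.1 * h p.1 p.2 ≤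
      ∑ p ∈ B ×ˢ A, g p.1 * h p.1 p.2 := by
    refine Finset.sum_le_sum_of_subset_of_nonneg ?_ fun p _ _ => mul_nonneg (hg _) (hh _ _)
    intro p hp
    obtain ⟨m, hm, rfl⟩ := Finset.mem_image.1 hp
    exact Finset.mem_product.2 ⟨Finset.mem_image_of_mem _ hm, Finset.mem_image_of_mem _ hm⟩
  have h4 : ∑ p ∈ B ×ˢ A, g p.1 * h p.1 p.2 = ∑ j ∈ B, g j * ∑ x ∈ A, h j x := by
    rw [Finset.sum_product]
    exact Finset.sum_congr rfl fun j _ => by rw [Finset.mul_sum]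
  have h5 : ∑ j ∈ B, g j * ∑ x ∈ A, h j x ≤ ∑ j ∈ B, g j * H :=
    Finset.sum_le_sum fun j _ => mul_le_mul_of_nonneg_left (hH j A) (hg j)
  have h6 : ∑ j ∈ B, g j * H ≤ Gb * H := by
    rw [← Finset.sum_mul]
    refine mul_le_mul_of_nonneg_right (hG B ?_) hH0
    intro j hj
    obtain ⟨m, hm, rfl⟩ := Finset.mem_image.1 hj
    exact hP m hm
  calc ∑ m ∈ s, f m ≤ _ := h1
    _ = _ := h2
    _ ≤ _ := h3
    _ = _ := h4
    _ ≤ _ := h5
    _ ≤ _ := h6

/-! ### Lower bounds for the length -/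

theorem N_real (m : O) : (N m : ℝ) = (m.re : ℝ) ^ 2 - m.re * m.im + (m.im : ℝ) ^ 2 := by
  have h := N_cast_int' m
  have h2 : ((N m : ℤ) : ℝ) = ((m.re * m.re - m.re * m.im + m.im * m.im : ℤ) : ℝ) := by rw [h]
  push_cast at h2
  rw [h2]; ring

theorem sqrt_N_ge (m : O) :
    |(m.re : ℝ) - m.im / 2| / 2 + 3 / 4 * |(m.im : ℝ)| ≤ √(N m) := by
  refine Real.le_sqrt_of_sq_le ?_
  rw [N_real]
  have h1 : |(m.re : ℝ) - m.im / 2| ^ 2 = ((m.re : ℝ) - m.im / 2) ^ 2 := sq_abs _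
  have h2 : |(m.im : ℝ)| ^ 2 = (m.im : ℝ) ^ 2 := sq_abs _
  nlinarith [sq_nonneg (|(m.re : ℝ) - m.im / 2| - |(m.im : ℝ)| / 2)]

theorem sqrt_N_ge' (m : O) : (|(m.re : ℝ)| + |(m.im : ℝ)|) / 2 ≤ √(N m) := by
  refine Real.le_sqrt_of_sq_le ?_
  rw [N_real]
  have h1 : |(m.re : ℝ)| ^ 2 = (m.re : ℝ) ^ 2 := sq_abs _
  have h2 : |(m.im : ℝ)| ^ 2 = (m.im : ℝ) ^ 2 := sq_abs _
  have h3 : (m.re : ℝ) * m.im ≤ |(m.re : ℝ)| * |(m.im : ℝ)| := by
    rw [← abs_mul]; exact le_abs_self _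
  nlinarith [sq_nonneg (|(m.re : ℝ)| - |(m.im : ℝ)|)]

theorem sqrt_N_re {m : O} (h : m.im = 0) : √(N m) = |(m.re : ℝ)| := by
  rw [N_real, h]
  simp [Real.sqrt_sq_eq_abs]

theorem three_dvd_iff (m : O) : (3 : O) ∣ m ↔ (3 : ℤ) ∣ m.re ∧ (3 : ℤ) ∣ m.im := by
  constructor
  · rintro ⟨k, rfl⟩
    have h3 : (3 : O) = ⟨3, 0⟩ := by decide
    rw [h3]
    constructor
    · refine ⟨k.re, ?_⟩
      simp [QuadraticAlgebra.re_mul]
    · refine ⟨k.im, ?_⟩
      simp [QuadraticAlgebra.im_mul]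
  · rintro ⟨⟨a, ha⟩, ⟨b, hb⟩⟩
    refine ⟨⟨a, b⟩, ?_⟩
    have h3 : (3 : O) = ⟨3, 0⟩ := by decide
    rw [h3]
    apply QuadraticAlgebra.ext
    · simp [ha]
    · simp [hb]

/-! ### Numerical bounds of exponentials -/

theorem exp_neg_one_lt : exp (-1) < 0.36788 := by
  rw [Real.exp_neg, inv_lt_comm₀ (exp_pos _) (by norm_num)]
  have := Real.exp_one_gt_d9
  refine lt_of_le_of_lt ?_ this
  norm_num

theorem exp_neg_half_lt : exp (-(1 / 2)) < 0.6066 := by
  have h := exp_neg_one_lt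
  have h2 : exp (-(1 / 2)) ^ 2 = exp (-1) := by
    rw [← Real.exp_nat_mul]; congr 1; norm_num
  nlinarith [exp_pos (-(1 / 2) : ℝ)]

theorem exp_neg_nat_lt (n : ℕ) (hn : n ≠ 0) : exp (-(n : ℝ)) < 0.36788 ^ n := by
  have h : exp (-(n : ℝ)) = exp (-1) ^ n := by rw [← Real.exp_nat_mul]; congr 1; ring
  rw [h]
  exact pow_lt_pow_left₀ exp_neg_one_lt (exp_pos _).le hn

/-- the primary frequencies other than `±1` -/
theorem sum_primary_le (s : Finset O) (hs : ∀ m ∈ s, ((3 : O) ∣ m - 1 ∨ (3 : O) ∣ m + 1))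
    (h1 : (1 : O) ∉ s) (h2 : (-1 : O) ∉ s) :
    ∑ m ∈ s, exp (-(5 / 3 * aa * √(N m))) ≤ 0.1145 := by
  have ha := aa_gt
  have hpos := aa_pos
  have him : ∀ m ∈ s, (3 : ℤ) ∣ m.im := by
    intro m hm
    rcases hs m hm with h | h
    · have := ((three_dvd_iff _).1 h).2
      simpa [QuadraticAlgebra.im_one] using this
    · have := ((three_dvd_iff _).1 h).2
      simpa [QuadraticAlgebra.im_one] using this
  have hre : ∀ m ∈ s, m.im = 0 → (2 : ℤ) ≤ |m.re| := by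
    intro m hm h0
    have hm1 : m ≠ 1 := fun h => h1 (h ▸ hm)
    have hm2 : m ≠ -1 := fun h => h2 (h ▸ hm)
    by_contra hlt
    have h3 : |m.re| ≤ 1 := by omega
    have h4 := abs_le.1 h3
    have h5 : m.re = -1 ∨ m.re = 0 ∨ m.re = 1 := by omega
    rcases h5 with h5 | h5 | h5
    · exact hm2 (QuadraticAlgebra.ext (by simp [h5, QuadraticAlgebra.re_one])
        (by simp [h0, QuadraticAlgebra.im_one]))
    · rcases hs m hm with h | h
      · have := ((three_dvd_iff _).1 h).1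
        simp only [QuadraticAlgebra.re_sub, h5, QuadraticAlgebra.re_one] at this
        omega
      · have := ((three_dvd_iff _).1 h).1
        simp only [QuadraticAlgebra.re_add, h5, QuadraticAlgebra.re_one] at this
        omega
    · exact hm1 (QuadraticAlgebra.ext (by simp [h5, QuadraticAlgebra.re_one])
        (by simp [h0, QuadraticAlgebra.im_one]))
  rw [← Finset.sum_filter_add_sum_filter_not s (fun m => m.im = 0)]
  -- rational frequencies
  have hA : ∑ m ∈ s.filter (fun m => m.im = 0), exp (-(5 / 3 * aa * √(N m))) ≤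
      2 * exp (-(5 / 3 * aa * (2 : ℕ))) / (1 - exp (-(5 / 3 * aa))) := by
    have hinj : Set.InjOn (fun m : O => m.re) (s.filter (fun m => m.im = 0)) := by
      intro m hm n hn h
      have hm := (Finset.mem_filter.1 (Finset.mem_coe.1 hm)).2
      have hn := (Finset.mem_filter.1 (Finset.mem_coe.1 hn)).2
      exact QuadraticAlgebra.ext h (by rw [hm, hn])
    have h3 := sum_exp_tail (5 / 3 * aa) (by positivity) 2
      ((s.filter (fun m => m.im = 0)).image (fun m : O => m.re)) (by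
        intro n hn
        obtain ⟨m, hm, rfl⟩ := Finset.mem_image.1 hn
        have hm := Finset.mem_filter.1 hm
        exact hre m hm.1 hm.2)
    rw [Finset.sum_image hinj] at h3
    refine le_trans (le_of_eq ?_) h3
    refine Finset.sum_congr rfl fun m hm => ?_
    rw [sqrt_N_re (Finset.mem_filter.1 hm).2]
  -- the others
  have hB : ∑ m ∈ s.filter (fun m => ¬ m.im = 0), exp (-(5 / 3 * aa * √(N m))) ≤
      (2 * exp (-(15 / 4 * aa * (1 : ℕ))) / (1 - exp (-(15 / 4 * aa)))) *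
      (2 / (1 - exp (-(5 / 6 * aa)))) := by
    refine sum_O_le _ (fun j => (3 : ℤ) ∣ j ∧ j ≠ 0) _ (fun j => exp (-(5 / 4 * aa * |(j : ℝ)|)))
      (fun j x => exp (-(5 / 6 * aa * |(x : ℝ) - (j : ℝ) / 2|))) _ _ ?_ ?_ ?_ ?_ ?_ ?_
    · intro m hm
      have hm := Finset.mem_filter.1 hm
      exact ⟨him m hm.1, hm.2⟩
    · intro m _
      rw [← Real.exp_add]
      refine Real.exp_le_exp.2 ?_
      have := sqrt_N_ge m
      nlinarith
    · intro j; positivity
    · intro j x; positivity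
    · intro j A
      exact sum_exp_shift (5 / 6 * aa) (by positivity) _ A
    · intro B hB
      have hinj : Set.InjOn (fun j : ℤ => j / 3) B := by
        intro i hi j hj h
        have hi := (hB i hi).1
        have hj := (hB j hj).1
        simp only at h
        omega
      have h3 := sum_exp_tail (15 / 4 * aa) (by positivity) 1 (B.image (fun j : ℤ => j / 3)) (by
        intro n hn
        obtain ⟨j, hj, rfl⟩ := Finset.mem_image.1 hn
        have h4 := hB j hj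
        have h5 : j / 3 ≠ 0 := by omega
        have := Int.one_le_abs h5
        simpa using this)
      rw [Finset.sum_image hinj] at h3
      refine le_trans (le_of_eq ?_) h3
      refine Finset.sum_congr rfl fun j hj => ?_
      obtain ⟨k, hk⟩ := (hB j hj).1
      have h6 : j / 3 = k := by omega
      rw [h6, hk]
      push_cast
      rw [abs_mul, abs_of_pos (show (0 : ℝ) < 3 by norm_num)]
      congr 1; ring
  refine (add_le_add hA hB).trans ?_
  have e1 : exp (-(5 / 3 * aa * (2 : ℕ))) ≤ 0.36788 ^ 4 := by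
    refine le_trans (Real.exp_le_exp.2 ?_) (exp_neg_nat_lt 4 (by norm_num)).le
    push_cast; linarith
  have e2 : exp (-(5 / 3 * aa)) ≤ 0.36788 ^ 2 := by
    refine le_trans (Real.exp_le_exp.2 ?_) (exp_neg_nat_lt 2 (by norm_num)).le
    push_cast; linarith
  have e3 : exp (-(5 / 6 * aa)) ≤ 0.36788 := by
    refine le_trans (Real.exp_le_exp.2 ?_) exp_neg_one_lt.le
    linarith
  have e4 : exp (-(15 / 4 * aa)) ≤ 0.36788 ^ 4 * 0.6066 := by
    have : exp (-(15 / 4 * aa)) ≤ exp (-((4 : ℕ) : ℝ)) * exp (-(1 / 2)) := by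
      rw [← Real.exp_add]
      refine Real.exp_le_exp.2 ?_
      push_cast; linarith
    refine this.trans ?_
    have h3 := (exp_neg_nat_lt 4 (by norm_num)).le
    have h4 := exp_neg_half_lt.le
    gcongr
  have e5 : exp (-(15 / 4 * aa * (1 : ℕ))) = exp (-(15 / 4 * aa)) := by simp
  rw [e5]
  have k1 : 2 * exp (-(5 / 3 * aa * (2 : ℕ))) / (1 - exp (-(5 / 3 * aa))) ≤
      2 * 0.36788 ^ 4 / (1 - 0.36788 ^ 2) := by
    have : (0 : ℝ) < 1 - 0.36788 ^ 2 := by norm_num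
    gcongr
  have k2 : 2 * exp (-(15 / 4 * aa)) / (1 - exp (-(15 / 4 * aa))) ≤
      2 * (0.36788 ^ 4 * 0.6066) / (1 - 0.36788 ^ 4 * 0.6066) := by
    have : (0 : ℝ) < 1 - 0.36788 ^ 4 * 0.6066 := by norm_num
    gcongr
  have k3 : 2 / (1 - exp (-(5 / 6 * aa))) ≤ 2 / (1 - 0.36788) := by
    have : (0 : ℝ) < 1 - 0.36788 := by norm_num
    gcongr
  have k4 : 0 ≤ 2 / (1 - exp (-(5 / 6 * aa))) := by
    have : (0 : ℝ) ≤ 1 - exp (-(5 / 6 * aa)) := by linarith
    positivity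
  calc _ ≤ 2 * 0.36788 ^ 4 / (1 - 0.36788 ^ 2) +
        2 * (0.36788 ^ 4 * 0.6066) / (1 - 0.36788 ^ 4 * 0.6066) * (2 / (1 - 0.36788)) :=
        add_le_add k1 (mul_le_mul k2 k3 k4 (by norm_num))
    _ ≤ _ := by norm_num

theorem N_eq_one_mem {m : O} (h : N m = 1) :
    m ∈ ({⟨1, 0⟩, ⟨-1, 0⟩, ⟨0, 1⟩, ⟨0, -1⟩, ⟨1, 1⟩, ⟨-1, -1⟩} : Finset O) := by
  have h1 := N_cast_int' m
  rw [h] at h1
  push_cast at h1
  have h2 : |m.im| ≤ 1 := by rw [← sq_le_one_iff_abs_le_one]; nlinarith [sq_nonneg (2 * m.re - m.im)]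
  have h3 : |m.re| ≤ 1 := by rw [← sq_le_one_iff_abs_le_one]; nlinarith [sq_nonneg (2 * m.im - m.re)]
  rw [abs_le] at h2 h3
  obtain ⟨x, y⟩ := m
  simp only at h1 h2 h3
  have hx : x = -1 ∨ x = 0 ∨ x = 1 := by omega
  have hy : y = -1 ∨ y = 0 ∨ y = 1 := by omega
  rcases hx with rfl | rfl | rfl <;> rcases hy with rfl | rfl | rfl <;>
    first
    | (exfalso; omega)
    | decide

theorem N_ne_two (m : O) : N m ≠ 2 := by
  intro h
  have h1 := N_cast_int' m
  rw [h] at h1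
  push_cast at h1
  have h2 : |m.im| ≤ 1 := by
    rw [← sq_le_one_iff_abs_le_one]
    by_contra hlt
    have : m.im ^ 2 ≥ 4 := by
      have h5 : 1 < |m.im| := by
        by_contra h6
        exact hlt ((sq_le_one_iff_abs_le_one _).2 (not_lt.1 h6))
      have h6 : 2 ≤ |m.im| := by omega
      rw [← sq_abs]; nlinarith
    nlinarith [sq_nonneg (2 * m.re - m.im)]
  have h3 : |m.re| ≤ 1 := by
    rw [← sq_le_one_iff_abs_le_one]
    by_contra hlt
    have : m.re ^ 2 ≥ 4 := by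
      have h5 : 1 < |m.re| := by
        by_contra h6
        exact hlt ((sq_le_one_iff_abs_le_one _).2 (not_lt.1 h6))
      have h6 : 2 ≤ |m.re| := by omega
      rw [← sq_abs]; nlinarith
    nlinarith [sq_nonneg (2 * m.im - m.re)]
  rw [abs_le] at h2 h3
  obtain ⟨x, y⟩ := m
  simp only at h1 h2 h3
  have hx : x = -1 ∨ x = 0 ∨ x = 1 := by omega
  have hy : y = -1 ∨ y = 0 ∨ y = 1 := by omega
  rcases hx with rfl | rfl | rfl <;> rcases hy with rfl | rfl | rfl <;> omega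

/-- the sum controlling the frequencies divisible by `3` -/
theorem sum_all_le (s : Finset O) (hs : (0 : O) ∉ s) :
    ∑ m ∈ s, √(N m) * exp (-(6 * aa * √(N m))) ≤ 0.00537 := by
  have ha := aa_gt
  have hpos := aa_pos
  rw [← Finset.sum_filter_add_sum_filter_not s (fun m => N m = 1)]
  have hA : ∑ m ∈ s.filter (fun m => N m = 1), √(N m) * exp (-(6 * aa * √(N m))) ≤
      6 * exp (-(6 * aa)) := by
    have h1 : ∀ m ∈ s.filter (fun m => N m = 1), √(N m) * exp (-(6 * aa * √(N m))) =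
        exp (-(6 * aa)) := by
      intro m hm
      rw [(Finset.mem_filter.1 hm).2]; simp
    rw [Finset.sum_congr rfl h1, Finset.sum_const, nsmul_eq_mul]
    refine mul_le_mul_of_nonneg_right ?_ (exp_pos _).le
    have h2 : s.filter (fun m => N m = 1) ⊆
        ({⟨1, 0⟩, ⟨-1, 0⟩, ⟨0, 1⟩, ⟨0, -1⟩, ⟨1, 1⟩, ⟨-1, -1⟩} : Finset O) :=
      fun m hm => N_eq_one_mem (Finset.mem_filter.1 hm).2
    have h3 := (Finset.card_le_card h2).trans Finset.card_le_six
    exact_mod_cast h3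
  have hB : ∑ m ∈ s.filter (fun m => ¬ N m = 1), √(N m) * exp (-(6 * aa * √(N m))) ≤
      (2 * exp (-1) * exp (-(9.5 : ℝ)) * (2 * exp (-(aa / 2 * (0 : ℕ))) / (1 - exp (-(aa / 2))))) *
      (2 * exp (-(aa / 2 * (0 : ℕ))) / (1 - exp (-(aa / 2)))) := by
    refine sum_O_le _ (fun j => (0 : ℤ) ≤ |j|) _
      (fun j => 2 * exp (-1) * exp (-(9.5 : ℝ)) * exp (-(aa / 2 * |(j : ℝ)|)))
      (fun j x => exp (-(aa / 2 * |(x : ℝ)|))) _ _ ?_ ?_ ?_ ?_ ?_ ?_
    · intro m _; exact abs_nonneg _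
    · intro m hm
      have hm := Finset.mem_filter.1 hm
      have h0 : N m ≠ 0 := by
        rw [Ne, N_eq_zero]; rintro rfl; exact hs hm.1
      have h3 : 3 ≤ N m := by
        have := N_ne_two m
        have := hm.2
        omega
      have h4 : 1.73205 ≤ √(N m) := by
        have h5 : √3 ≤ √(N m) := Real.sqrt_le_sqrt (by exact_mod_cast h3)
        have := sqrt3_gt
        linarith
      have h5 := sqrt_N_ge' m
      set X := √(N m) with hX
      have h6 : X ≤ 2 * exp (-1) * exp (X / 2) := by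
        have := Real.add_one_le_exp (X / 2 - 1)
        have e1 : exp (X / 2 - 1) = exp (-1) * exp (X / 2) := by
          rw [← Real.exp_add]; congr 1; ring
        rw [e1] at this
        linarith
      calc X * exp (-(6 * aa * X)) ≤ (2 * exp (-1) * exp (X / 2)) * exp (-(6 * aa * X)) := by
            gcongr
        _ = 2 * exp (-1) * exp (X / 2 - 6 * aa * X) := by
            rw [mul_assoc (2 * exp (-1)), ← Real.exp_add]; congr 2
        _ ≤ 2 * exp (-1) * exp (-9.5 + (-(aa / 2 * |(m.im : ℝ)|) + -(aa / 2 * |(m.re : ℝ)|))) := by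
            gcongr
            nlinarith
        _ = _ := by rw [Real.exp_add, Real.exp_add]; ring
    · intro j; positivity
    · intro j x; positivity
    · intro j A
      exact sum_exp_tail (aa / 2) (by positivity) 0 A fun n _ => by simp
    · intro B hB
      rw [← Finset.mul_sum]
      refine mul_le_mul_of_nonneg_left ?_ (by positivity)
      exact sum_exp_tail (aa / 2) (by positivity) 0 B fun n _ => by simp
  refine (add_le_add hA hB).trans ?_
  have e1 : exp (-(6 * aa)) ≤ 0.36788 ^ 7 / 1.287 := by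
    have h1 : exp (-(6 * aa)) ≤ exp (-((7 : ℕ) : ℝ)) * (exp (0.2546))⁻¹ := by
      rw [← Real.exp_neg, ← Real.exp_add]
      refine Real.exp_le_exp.2 ?_
      push_cast; linarith
    have h2 : (1.287 : ℝ) ≤ exp 0.2546 := by
      refine le_trans ?_ (Real.quadratic_le_exp_of_nonneg (by norm_num))
      norm_num
    have h3 := (exp_neg_nat_lt 7 (by norm_num)).le
    refine h1.trans ?_
    rw [div_eq_mul_inv]
    gcongr
  have e2 : exp (-(9.5 : ℝ)) ≤ 0.36788 ^ 9 * 0.6066 := by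
    have : exp (-(9.5 : ℝ)) = exp (-((9 : ℕ) : ℝ)) * exp (-(1 / 2)) := by
      rw [← Real.exp_add]; congr 1; norm_num
    rw [this]
    have h3 := (exp_neg_nat_lt 9 (by norm_num)).le
    have h4 := exp_neg_half_lt.le
    gcongr
  have e3 : exp (-(aa / 2)) ≤ 0.551 := by
    have h1 : exp (-(aa / 2)) ≤ (exp 0.6)⁻¹ := by
      rw [← Real.exp_neg]
      exact Real.exp_le_exp.2 (by linarith)
    have h2 : (1.815 : ℝ) ≤ exp 0.6 := by
      have h5 := exp_neg_half_lt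
      have h6 : exp 0.6 = (exp (-(1 / 2)))⁻¹ * exp 0.1 := by
        rw [← Real.exp_neg, ← Real.exp_add]; congr 1; norm_num
      rw [h6]
      have h7 : (1.105 : ℝ) ≤ exp 0.1 := by
        refine le_trans ?_ (Real.quadratic_le_exp_of_nonneg (by norm_num))
        norm_num
      have h8 : (0.6066 : ℝ)⁻¹ ≤ (exp (-(1 / 2)))⁻¹ := by gcongr
      calc (1.815 : ℝ) ≤ (0.6066 : ℝ)⁻¹ * 1.105 := by norm_num
        _ ≤ _ := by gcongr
    refine h1.trans ?_
    rw [inv_le_comm₀ (exp_pos _) (by norm_num)]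
    refine le_trans (by norm_num) h2
  have e0 : exp (-(aa / 2 * (0 : ℕ))) = 1 := by simp
  rw [e0, mul_one]
  have k1 : 2 / (1 - exp (-(aa / 2))) ≤ 2 / (1 - 0.551) := by
    have : (0 : ℝ) < 1 - 0.551 := by norm_num
    gcongr
  have k0 : 0 ≤ 2 / (1 - exp (-(aa / 2))) := by
    have : (0 : ℝ) ≤ 1 - exp (-(aa / 2)) := by linarith
    positivity
  have k2 := exp_neg_one_lt.le
  have k3 : 6 * exp (-(6 * aa)) ≤ 6 * (0.36788 ^ 7 / 1.287) := by gcongr
  have k4 : (2 * exp (-1) * exp (-(9.5 : ℝ)) * (2 / (1 - exp (-(aa / 2))))) *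
      (2 / (1 - exp (-(aa / 2)))) ≤
      (2 * 0.36788 * (0.36788 ^ 9 * 0.6066) * (2 / (1 - 0.551))) * (2 / (1 - 0.551)) := by
    gcongr
  refine (add_le_add k3 k4).trans ?_
  norm_num

end Vale.Agent.P006.SG
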