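import Vale.Agent.P006.H485.PoissonO
import Vale.Agent.P006.CR.GaussSum
import Vale.Agent.P006.SG.Lat

/-!
P006, block SG: Gaussian Poisson summation on `O` twisted by the cubic symbol.
-/

open MeasureTheory Filter Topology Set
open scoped Real

namespace Vale.Agent.P006.SG

open PO

/-- the Gaussian -/
noncomputable def gk (t : ℝ) (z : ℂ) : ℂ := ((Real.exp (-(t * ‖z‖ ^ 2)) : ℝ) : ℂ)

theorem continuous_gk (t : ℝ) : Continuous (gk t) := by
  unfold gk; fun_prop

theorem dec_gk {t : ℝ} (ht : 0 < t) : Dec (gk t) := by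
  -- `(1+r)^3 e^{-t r²}` is bounded
  have h1 : ∃ C : ℝ, ∀ r : ℝ, 0 ≤ r → (1 + r) ^ 3 * Real.exp (-(t * r ^ 2)) ≤ C := by
    refine ⟨8 + 8 * (2 / t ^ 2), fun r hr => ?_⟩
    have hexp : Real.exp (-(t * r ^ 2)) ≤ 1 := Real.exp_le_one_iff.2 (by nlinarith [sq_nonneg r])
    rcases le_total r 1 with h | h
    · have : (1 + r) ^ 3 ≤ 8 := by
        have : (1 + r) ^ 3 ≤ (1 + 1) ^ 3 := by gcongr
        linarith
      have h2 : (1 + r) ^ 3 * Real.exp (-(t * r ^ 2)) ≤ 8 * 1 := by gcongr
      have : 0 ≤ 8 * (2 / t ^ 2) := by positivity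
      linarith
    · have h3 : (1 + r) ^ 3 ≤ 8 * r ^ 4 := by
        have : (1 + r) ^ 3 ≤ (2 * r) ^ 3 := by gcongr; linarith
        have h4 : r ^ 3 ≤ r ^ 4 := pow_le_pow_right₀ h (by norm_num)
        nlinarith
      have h5 : (t * r ^ 2) ^ 2 / 2 ≤ Real.exp (t * r ^ 2) := by
        have := Real.quadratic_le_exp_of_nonneg (show 0 ≤ t * r ^ 2 by positivity)
        have : 0 ≤ t * r ^ 2 := by positivity
        linarith
      have h6 : r ^ 4 * Real.exp (-(t * r ^ 2)) ≤ 2 / t ^ 2 := by
        rw [Real.exp_neg, ← div_eq_mul_inv, div_le_div_iff₀ (Real.exp_pos _) (by positivity)]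
        nlinarith
      calc (1 + r) ^ 3 * Real.exp (-(t * r ^ 2)) ≤ 8 * r ^ 4 * Real.exp (-(t * r ^ 2)) := by gcongr
        _ = 8 * (r ^ 4 * Real.exp (-(t * r ^ 2))) := by ring
        _ ≤ 8 * (2 / t ^ 2) := by gcongr
        _ ≤ _ := by linarith
  obtain ⟨C, hC⟩ := h1
  refine ⟨C, fun z => ?_⟩
  rw [gk, Complex.norm_real, Real.norm_of_nonneg (Real.exp_pos _).le]
  exact hC _ (norm_nonneg z)

theorem FT_gk {t : ℝ} (ht : 0 < t) (y : ℂ) :
    FT (gk t) y = ((π / t : ℝ) : ℂ) * gk (4 * π ^ 2 / t) y := by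
  have hre : 0 < ((t : ℂ)).re := by simpa using ht
  have h := GaussianFourier.integral_cexp_neg_mul_sq_norm_add (V := ℂ) hre
    (-(4 * π * Complex.I)) ((starRingEnd ℂ) y)
  have e1 : ∀ z : ℂ, eT (-(z * y)) * gk t z =
      Complex.exp (-(t : ℂ) * ‖z‖ ^ 2 + -(4 * π * Complex.I) * inner ℝ ((starRingEnd ℂ) y) z) := by
    intro z
    rw [eT, e, TrC, gk, Complex.ofReal_exp, ← Complex.exp_add]
    congr 1
    rw [Complex.inner]
    simp only [Complex.conj_conj, Complex.neg_re]
    rw [mul_comm z y]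
    push_cast
    ring
  rw [FT, integral_congr_ae (Eventually.of_forall e1), h]
  have e2 : ((Module.finrank ℝ ℂ : ℂ) / 2) = 1 := by
    rw [Complex.finrank_real_complex]; norm_num
  rw [e2, Complex.cpow_one, gk, Complex.norm_conj]
  have ht' : (t : ℂ) ≠ 0 := by exact_mod_cast ht.ne'
  congr 1
  · push_cast; ring
  · rw [Complex.ofReal_exp]
    congr 1
    push_cast
    have : Complex.I ^ 2 = -1 := Complex.I_sq
    field_simp
    linear_combination ((‖y‖ : ℂ) ^ 2) * this

theorem dec_FT_gk {t : ℝ} (ht : 0 < t) : Dec (FT (gk t)) := by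
  obtain ⟨C, hC⟩ := dec_gk (show 0 < 4 * π ^ 2 / t by positivity)
  refine ⟨(π / t) * C, fun z => ?_⟩
  rw [FT_gk ht, norm_mul, Complex.norm_real, Real.norm_of_nonneg (by positivity)]
  calc (1 + ‖z‖) ^ 3 * (π / t * ‖gk (4 * π ^ 2 / t) z‖)
      = (π / t) * ((1 + ‖z‖) ^ 3 * ‖gk (4 * π ^ 2 / t) z‖) := by ring
    _ ≤ _ := by gcongr; exact hC z

theorem norm_sq_div_rt3 (k : O) : ‖toC k / toC rt3‖ ^ 2 = N k / 3 := by
  rw [norm_div, div_pow, ← N_eq_sq_norm, norm_toC_rt3, Real.sq_sqrt (by norm_num)]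

/-- Gaussian Poisson summation -/
theorem gauss_poisson {t : ℝ} (ht : 0 < t) (u : ℂ) :
    HasSum (fun k : O => ((2 * π / (√3 * t) * Real.exp (-(4 * π ^ 2 * N k / (3 * t))) : ℝ) : ℂ) *
      eT (u * (toC k / toC rt3))) (∑' y : O, gk t (u + toC y)) := by
  have h := poisson_O (continuous_gk t) (dec_gk ht) (dec_FT_gk ht) u (q := 1) one_ne_zero
  simp only [mul_one, one_mul, norm_one] at h
  convert h using 1
  funext k
  rw [FT_gk ht, gk, norm_sq_div_rt3, show 4 * π ^ 2 / t * ((N k : ℝ) / 3) =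
    4 * π ^ 2 * N k / (3 * t) by field_simp]
  have ht' : (t : ℂ) ≠ 0 := by exact_mod_cast ht.ne'
  have h3 : ((√3 : ℝ) : ℂ) ≠ 0 := by
    have : (0 : ℝ) < √3 := Real.sqrt_pos.2 (by norm_num)
    exact_mod_cast this.ne'
  push_cast
  field_simp

/-! ### Residue systems -/

/-- the bijection `Rs d × O ≃ O`, `(r, y) ↦ outR r + d y` -/
noncomputable def rsEquiv (d : O) [NeZero d] : (Rs d × O) ≃ O :=
  Equiv.ofBijective (fun p => outR d p.1 + d * p.2) (by
    constructor
    · rintro ⟨r, y⟩ ⟨r', y'⟩ h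
      simp only at h
      have h1 : r = r' := by
        have := congrArg (rs d) h
        rw [map_add, map_add, rs_outR, rs_outR, map_mul, map_mul,
          (rs_eq_zero (c := d) (x := d)).2 dvd_rfl, zero_mul, zero_mul, add_zero, add_zero] at this
        exact this
      subst h1
      have h2 : d * y = d * y' := add_left_cancel h
      rw [mul_left_cancel₀ (NeZero.ne d) h2]
    · intro x
      have h1 : rs d x = rs d (outR d (rs d x)) := (rs_outR d _).symm
      obtain ⟨y, hy⟩ := rs_eq.1 h1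
      exact ⟨(rs d x, y), by simp only; rw [← hy]; ring⟩)

theorem rsEquiv_apply (d : O) [NeZero d] (r : Rs d) (y : O) :
    rsEquiv d (r, y) = outR d r + d * y := rfl

/-- the finite Fourier coefficient of the twisted symbol is the Gauss sum -/
theorem sum_sym_eT (k d : O) [NeZero d] (hd : Primary d) :
    ∑ r : Rs d, toC (sym (3 * outR d r) d) * eT (toC (outR d r) * (toC k / (toC d * toC rt3))) =
      gs k d := by
  have hdC : toC d ≠ 0 := by simpa using NeZero.ne d
  have hr3 : toC rt3 ≠ 0 := toC_rt3_ne_zero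
  set F : O → ℂ := fun a => toC (sym (3 * a) d) * eT (toC a * (toC k / (toC d * toC rt3))) with hF
  have hper : ∀ a b : O, d ∣ a - b → F a = F b := by
    rintro a b ⟨t, ht⟩
    have e1 : sym (3 * a) d = sym (3 * b) d := by
      apply sym_periodic
      refine ⟨3 * t, ?_⟩
      rw [← mul_sub, ht]; ring
    have e2 : toC a * (toC k / (toC d * toC rt3)) =
        toC b * (toC k / (toC d * toC rt3)) + toC (t * k) / toC rt3 := by
      have : toC a = toC b + toC d * toC t := by
        rw [← map_mul, ← map_add, ← ht]; congr 1; ring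
      rw [this, map_mul]
      field_simp
    have e3 : eT (toC (t * k) / toC rt3) = 1 := by
      rw [eT, TrC_div_rt3, e_int]
    simp only [hF]
    rw [e1, e2, eT_add, e3, mul_one]
  have hu : IsUnit (rs d rt3) := by
    rw [isUnit_rs_iff]
    have h1 : IsCoprime lam d := hd.isCoprime_lam
    have h2 : rt3 = om * lam := by decide
    rw [h2]
    exact (isCoprime_mul_unit_left_left (isUnit_iff_N.2 N_om) lam d).2 h1
  have hcub : sym (3 * rt3) d = 1 := by
    have h1 : (3 : O) * rt3 = (-rt3) ^ 3 := by decide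
    rw [h1, sym_pow_left, sym_neg_left]
    exact sym_cube (isUnit_rs_iff.1 hu)
  have hval : ∀ b : O, F (rt3 * b) = toC (sym b d) * psi d (rs d (k * b)) := by
    intro b
    simp only [hF]
    rw [show 3 * (rt3 * b) = (3 * rt3) * b by ring, sym_mul_left, hcub, one_mul, psi_rs]
    congr 1
    rw [eT]
    congr 2
    rw [map_mul, map_mul]
    field_simp
  have hbij : Function.Bijective (fun r : Rs d => rs d rt3 * r) := by
    obtain ⟨u, hu⟩ := hu
    rw [← hu]
    exact u.mulLeft_bijective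
  rw [← hbij.sum_comp, gs_eq_sum]
  refine Finset.sum_congr rfl fun r _ => ?_
  have h1 : F (outR d (rs d rt3 * r)) = F (rt3 * outR d r) := by
    apply hper
    rw [← rs_eq, rs_outR, map_mul, rs_outR]
  show F (outR d (rs d rt3 * r)) = _
  rw [h1, hval, map_mul, rs_outR]
  congr 1
  rw [← chi_rs, rs_outR]

theorem summable_gk {t : ℝ} (ht : 0 < t) (u : ℂ) : Summable fun y : O => gk t (u + toC y) := by
  have := (dec_gk ht).summable u (q := 1) one_ne_zero
  simpa using this

/-- the inner sum of the Eisenstein series at the cusp `0` with exponential weight -/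
theorem hasSum_inner (d : O) (hd : Primary d) {s : ℝ} (hs : 0 < s) (z : ℂ) :
    Summable (fun x : O => toC (sym (3 * x) d) * gk s (toC d * z - toC (3 * x))) ∧
    HasSum (fun k : O => ((2 * π / (9 * √3 * s * N d) *
        Real.exp (-(4 * π ^ 2 * N k / (27 * s * N d))) : ℝ) : ℂ) * gs k d *
        eT (z * (toC k / (3 * toC rt3))))
      (∑' x : O, toC (sym (3 * x) d) * gk s (toC d * z - toC (3 * x))) := by
  have : NeZero d := ⟨hd.ne_zero⟩
  have hdC : toC d ≠ 0 := by simpa using NeZero.ne d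
  have hr3 : toC rt3 ≠ 0 := toC_rt3_ne_zero
  have hN : 0 < (N d : ℝ) := by exact_mod_cast N_pos hd.ne_zero
  set t : ℝ := 9 * s * N d with ht
  have ht0 : 0 < t := by positivity
  -- each residue class
  have hcls : ∀ (r : Rs d) (y : O), toC (sym (3 * (rsEquiv d (r, y))) d) *
      gk s (toC d * z - toC (3 * (rsEquiv d (r, y)))) =
      toC (sym (3 * outR d r) d) * gk t ((toC (outR d r) / toC d - z / 3) + toC y) := by
    intro r y
    rw [rsEquiv_apply]
    have e1 : sym (3 * (outR d r + d * y)) d = sym (3 * outR d r) d := by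
      apply sym_periodic
      exact ⟨3 * y, by ring⟩
    rw [e1]
    congr 1
    unfold gk
    congr 2
    have e2 : toC d * z - toC (3 * (outR d r + d * y)) =
        -(3 * toC d) * ((toC (outR d r) / toC d - z / 3) + toC y) := by
      have h3 : toC 3 = 3 := by
        have := toC_natCast 3
        simpa using this
      rw [map_mul, map_add, map_mul, h3]
      field_simp
      ring
    rw [e2, norm_mul, norm_neg, norm_mul, mul_pow, mul_pow, ← N_eq_sq_norm]
    norm_num
    rw [ht]
    ring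
  have hsumr : ∀ r : Rs d, Summable fun y : O => toC (sym (3 * outR d r) d) *
      gk t ((toC (outR d r) / toC d - z / 3) + toC y) := fun r => (summable_gk ht0 _).mul_left _
  have hS0 : Summable (fun p : Rs d × O => toC (sym (3 * (rsEquiv d p)) d) *
      gk s (toC d * z - toC (3 * (rsEquiv d p)))) := by
    have h1 : Summable (fun p : Rs d × O => toC (sym (3 * outR d p.1) d) *
        gk t ((toC (outR d p.1) / toC d - z / 3) + toC p.2)) := by
      rw [← summable_norm_iff]
      rw [summable_prod_of_nonneg (fun _ => norm_nonneg _)]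
      exact ⟨fun r => (hsumr r).norm, (hasSum_fintype _).summable⟩
    refine h1.congr fun p => ?_
    exact (hcls p.1 p.2).symm
  have hS : Summable (fun x : O => toC (sym (3 * x) d) * gk s (toC d * z - toC (3 * x))) := by
    rw [← (rsEquiv d).summable_iff]
    exact hS0
  refine ⟨hS, ?_⟩
  have hval : (∑' x : O, toC (sym (3 * x) d) * gk s (toC d * z - toC (3 * x))) =
      ∑ r : Rs d, toC (sym (3 * outR d r) d) *
        ∑' y : O, gk t ((toC (outR d r) / toC d - z / 3) + toC y) := by
    rw [← (rsEquiv d).tsum_eq, hS0.tsum_prod, tsum_fintype]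
    refine Finset.sum_congr rfl fun r _ => ?_
    rw [← tsum_mul_left]
    exact tsum_congr fun y => hcls r y
  rw [hval]
  have hP : ∀ r : Rs d, HasSum (fun k : O => toC (sym (3 * outR d r) d) *
      (((2 * π / (√3 * t) * Real.exp (-(4 * π ^ 2 * N k / (3 * t))) : ℝ) : ℂ) *
      eT ((toC (outR d r) / toC d - z / 3) * (toC k / toC rt3))))
      (toC (sym (3 * outR d r) d) *
        ∑' y : O, gk t ((toC (outR d r) / toC d - z / 3) + toC y)) := fun r =>
    (gauss_poisson ht0 _).mul_left _
  have hsum := hasSum_sum (fun r (_ : r ∈ (Finset.univ : Finset (Rs d))) => hP r)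
  have hneg := (Equiv.neg O).hasSum_iff.2 hsum
  convert hneg using 1
  funext k
  simp only [Function.comp_apply, Equiv.neg_apply, N_neg]
  have e1 : ∀ r : Rs d, toC (sym (3 * outR d r) d) *
      (((2 * π / (√3 * t) * Real.exp (-(4 * π ^ 2 * N k / (3 * t))) : ℝ) : ℂ) *
      eT ((toC (outR d r) / toC d - z / 3) * (toC (-k) / toC rt3))) =
      ((2 * π / (√3 * t) * Real.exp (-(4 * π ^ 2 * N k / (3 * t))) : ℝ) : ℂ) *
      eT (z * (toC k / (3 * toC rt3))) *
      (toC (sym (3 * outR d r) d) * eT (toC (outR d r) * (toC (-k) / (toC d * toC rt3)))) := by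
    intro r
    have : (toC (outR d r) / toC d - z / 3) * (toC (-k) / toC rt3) =
        z * (toC k / (3 * toC rt3)) + toC (outR d r) * (toC (-k) / (toC d * toC rt3)) := by
      rw [map_neg]; field_simp; ring
    rw [this, eT_add]; ring
  rw [Finset.sum_congr rfl fun r _ => e1 r, ← Finset.mul_sum, sum_sym_eT (-k) d hd,
    gs_neg k hd.ne_zero]
  have e2 : 2 * π / (√3 * t) = 2 * π / (9 * √3 * s * N d) := by rw [ht]; ring_nf
  have e3 : 4 * π ^ 2 * N k / (3 * t) = 4 * π ^ 2 * N k / (27 * s * N d) := by rw [ht]; ring_nf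
  rw [e2, e3]
  ring

end Vale.Agent.P006.SG
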