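import Vale.Agent.P006.SG.Tinv
import Vale.Agent.P006.H2.Bessel2

/-!
P006, block SG: the theta function is invariant under `S` and `z ↦ z + 1`.
-/

open MeasureTheory Filter Topology Set
open scoped Real ENNReal

namespace Vale.Agent.P006.SG

open PO H570 H9 R1

/-- **Fatou** for the normalised series -/
theorem lintegral_lim_le {F : ℝ → H3 → ℂ} {G : H3 → ℂ} (hF : ∀ X, Measurable (F X)) (s : Set H3)
    (hlim : ∀ w, Tendsto (fun X : ℝ => F X w / lX X) atTop (𝓝 (G w))) {c : ℝ} (hc : 0 ≤ c)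
    (hb : ∀ ε : ℝ, 0 < ε → ∀ᶠ X : ℝ in atTop, ∫⁻ w in s, ‖F X w‖ₑ ^ 2 ∂muH ≤
      ENNReal.ofReal ((c + ε) * lX X ^ 2)) :
    ∫⁻ w in s, ‖G w‖ₑ ^ 2 ∂muH ≤ ENNReal.ofReal c := by
  have hnat : Tendsto (fun n : ℕ => (n : ℝ)) atTop atTop := tendsto_natCast_atTop_atTop
  set g : ℕ → H3 → ℝ≥0∞ := fun n w => ‖F n w / (lX n : ℂ)‖ₑ ^ 2 with hg
  have hgm : ∀ n, Measurable (g n) := fun n => ((hF n).div_const _).enorm.pow_const 2
  have hglim : ∀ w, Tendsto (fun n => g n w) atTop (𝓝 (‖G w‖ₑ ^ 2)) := by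
    intro w
    have h1 := (hlim w).comp hnat
    have h2 : Continuous fun z : ℂ => ‖z‖ₑ ^ 2 := by fun_prop
    exact (h2.tendsto _).comp h1
  have h1 : ∫⁻ w in s, ‖G w‖ₑ ^ 2 ∂muH ≤ liminf (fun n => ∫⁻ w in s, g n w ∂muH) atTop := by
    have h2 := lintegral_liminf_le (μ := muH.restrict s) (u := (atTop : Filter ℕ)) hgm
    refine le_trans (le_of_eq ?_) h2
    exact lintegral_congr fun w => (hglim w).liminf_eq.symm
  refine h1.trans ?_
  refine ENNReal.le_of_forall_pos_le_add fun ε hε _ => ?_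
  have hε' : (0 : ℝ) < ε := by exact_mod_cast hε
  have h3 : ∀ᶠ n : ℕ in atTop, ∫⁻ w in s, g n w ∂muH ≤ ENNReal.ofReal c + ε := by
    filter_upwards [hnat.eventually (hb ε hε'), eventually_gt_atTop 0] with n hn hn0
    have hn0' : (0 : ℝ) < n := by exact_mod_cast hn0
    have hl := lX_pos hn0'
    have e1 : ∀ w, g n w = ‖F n w‖ₑ ^ 2 * ENNReal.ofReal ((lX n ^ 2)⁻¹) := by
      intro w
      simp only [hg]
      rw [div_eq_mul_inv, enorm_mul, mul_pow]
      congr 1
      rw [← ofReal_norm, norm_inv, Complex.norm_real, Real.norm_of_nonneg hl.le,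
        ← ENNReal.ofReal_pow (by positivity), inv_pow]
    rw [lintegral_congr e1, lintegral_mul_const _ ((hF n).enorm.pow_const 2)]
    calc _ ≤ ENNReal.ofReal ((c + ε) * lX n ^ 2) * ENNReal.ofReal ((lX n ^ 2)⁻¹) := by gcongr
      _ = ENNReal.ofReal (c + ε) := by
        rw [← ENNReal.ofReal_mul (by positivity), mul_assoc, mul_inv_cancel₀ (by positivity),
          mul_one]
      _ = ENNReal.ofReal c + ε := by
        rw [ENNReal.ofReal_add hc hε'.le]; simp
  exact liminf_le_of_le (by isBoundedDefault) fun b hb => by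
    obtain ⟨n, hn⟩ := (hb.and h3).exists
    exact hn.1.trans hn.2

/-- open sets have positive measure -/
theorem muH_ne_zero {V : Set H3} (hV : IsOpen V) (hne : V.Nonempty) : muH V ≠ 0 := by
  intro h0
  have hm : MeasurableSet V := hV.measurableSet
  rw [← lintegral_indicator_one hm, lintegral_muH (measurable_one.indicator hm)] at h0
  obtain ⟨w0, hw0⟩ := hne
  set V' : Set (ℂ × ℝ) := (Subtype.val : H3 → ℂ × ℝ) '' V with hV'
  have hopen : IsOpen V' := by
    have h1 : IsOpen {p : ℂ × ℝ | 0 < p.2} := isOpen_lt continuous_const continuous_snd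
    exact h1.isOpenMap_subtype_val V hV
  have hmem : ((w0.z, w0.v) : ℂ × ℝ) ∈ V' := ⟨w0, hw0, rfl⟩
  obtain ⟨Bz, Bv, hBz, hBv, hz, hv, hsub⟩ := isOpen_prod_iff.1 hopen _ _ hmem
  have hmeas : Measurable fun v : ℝ => ∫⁻ z : ℂ, V.indicator (1 : H3 → ℝ≥0∞) (H3.of z v) :=
    Measurable.lintegral_prod_left' ((measurable_one.indicator hm).comp H3.measurable_of)
  rw [lintegral_eq_zero_iff (by fun_prop)] at h0
  have h1 : ∀ v ∈ Bv, 0 < v ∧ ENNReal.ofReal ((v ^ 3)⁻¹) *
      ∫⁻ z : ℂ, V.indicator (1 : H3 → ℝ≥0∞) (H3.of z v) ≠ 0 := by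
    intro v hv
    obtain ⟨w, hw, hwe⟩ := hsub (show ((w0.z, v) : ℂ × ℝ) ∈ Bz ×ˢ Bv from ⟨hz, hv⟩)
    have hv0 : 0 < v := by
      have := w.2
      rw [show w.1 = (w0.z, v) from hwe] at this
      exact this
    refine ⟨hv0, mul_ne_zero ?_ ?_⟩
    · rw [Ne, ENNReal.ofReal_eq_zero, not_le]; positivity
    · have h2 : volume Bz ≤ ∫⁻ z : ℂ, V.indicator (1 : H3 → ℝ≥0∞) (H3.of z v) := by
        rw [← lintegral_indicator_one hBz.measurableSet]
        refine lintegral_mono fun z => ?_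
        by_cases hzB : z ∈ Bz
        · obtain ⟨w', hw', hwe'⟩ := hsub (show ((z, v) : ℂ × ℝ) ∈ Bz ×ˢ Bv from ⟨hzB, hv⟩)
          have h5 : H3.of z v = w' := by
            rw [H3.of_eq hv0]; exact Subtype.ext hwe'.symm
          have h6 : H3.of z v ∈ V := by rw [h5]; exact hw'
          rw [indicator_of_mem hzB, indicator_of_mem h6]
          simp
        · rw [indicator_of_notMem hzB]; exact zero_le
      have h3 : 0 < volume Bz := hBz.measure_pos volume ⟨_, hz⟩
      exact (h3.trans_le h2).ne'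
  have h4 : (volume.restrict (Ioi (0 : ℝ))) Bv = 0 := by
    refine measure_mono_null ?_ (ae_iff.1 h0)
    intro v hv
    exact (h1 v hv).2
  have h5 : (volume.restrict (Ioi (0 : ℝ))) Bv = volume Bv := by
    have h6 : Bv ∩ Ioi 0 = Bv := inter_eq_left.2 fun v hv => (h1 v hv).1
    rw [Measure.restrict_apply hBv.measurableSet, h6]
  rw [h5] at h4
  exact (hBv.measure_pos volume ⟨_, hv⟩).ne' h4

/-- a continuous function invariant under `3 O` that vanishes almost everywhere on the top of the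
strip vanishes everywhere at these heights -/
theorem eq_zero_of_ae {g : H3 → ℂ} (hg : Continuous g) {v0 : ℝ}
    (hinv : ∀ (x : O) (w : H3), g (KU.tr (3 * x) • w) = g w)
    (h0 : ∫⁻ w in Ptop v0, ‖g w‖ₑ ^ 2 ∂muH = 0) (w : H3) (hw : v0 < w.v) : g w = 0 := by
  by_contra hne
  set U : Set H3 := {w | v0 < w.v ∧ g w ≠ 0} with hU
  have hUo : IsOpen U := (isOpen_lt continuous_const H3.continuous_v).inter
    (isOpen_ne_fun hg continuous_const)
  have h1 : muH (U ∩ Ptop v0) = 0 := by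
    rw [lintegral_eq_zero_iff (hg.measurable.enorm.pow_const 2)] at h0
    have h2 := ae_iff.1 h0
    rw [Measure.restrict_apply' (measurableSet_Ptop v0)] at h2
    refine measure_mono_null ?_ h2
    rintro w ⟨hw1, hw2⟩
    refine ⟨?_, hw2⟩
    have h3 := hw1.2
    show ¬ (‖g w‖ₑ ^ 2 = 0)
    simpa using h3
  have h2 : U ⊆ ⋃ x : O, (fun w => KU.tr (3 * x) • w) ⁻¹' (U ∩ Ptop v0) := by
    intro w hw
    obtain ⟨t, ht, -⟩ := existsUnique_T3 w
    obtain ⟨x, ⟨y, hy⟩, hx⟩ := t.2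
    rw [mem_iUnion]
    refine ⟨y, ?_⟩
    have e : KU.tr (3 * y) • w = (t : Matrix.SpecialLinearGroup (Fin 2) O) • w := by rw [hx, hy]
    have hv : (KU.tr (3 * y) • w).v = w.v := by rw [tr_smul, H3.mk_v]
    have hP : KU.tr (3 * y) • w ∈ P3 := by rw [e]; exact ht
    refine ⟨⟨?_, ?_⟩, hP, ?_⟩
    · rw [hv]; exact hw.1
    · rw [hinv]; exact hw.2
    · show v0 < _
      rw [hv]; exact hw.1
  have : Countable O := H9.countable_O
  have h3 : muH U = 0 := by
    refine measure_mono_null h2 (measure_iUnion_null fun x => ?_)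
    have hm : MeasurableSet (U ∩ Ptop v0) := hUo.measurableSet.inter (measurableSet_Ptop v0)
    have := (measurePreserving_smul (KU.tr (3 * x) : Matrix.SpecialLinearGroup (Fin 2) O)
      muH).measure_preimage hm.nullMeasurableSet
    rw [this, h1]
  exact muH_ne_zero hUo ⟨w, hw, hne⟩ h3

end Vale.Agent.P006.SG
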