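import Vale.Agent.P006.SG.Inv

/-!
P006, block SG: invariance of the theta function under `S` and `z ↦ z + 1`; support of its
coefficients.
-/

open MeasureTheory Filter Topology Set
open scoped Real ENNReal

namespace Vale.Agent.P006.SG

open PO H570 H9 R1

/-- the frequencies -/
theorem eT_freq_eq (k : O) (z : ℂ) :
    eT (z * (toC k / (3 * toC rt3))) = (starRingEnd ℂ) (FC.En k z) := by
  have h3 : toC lam ^ 3 = -(3 * toC rt3) := by
    rw [← map_pow, show lam ^ 3 = -(3 * rt3) by decide, map_neg, map_mul, map_ofNat]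
  have h4 := toC_rt3_ne_zero
  rw [FC.En, h3, eT, ← e_neg, ← TrC_neg]
  congr 2
  field_simp

theorem eT_three_mul (x k : O) : eT (toC (3 * x) * (toC k / (3 * toC rt3))) = 1 := by
  have h4 := toC_rt3_ne_zero
  have : toC (3 * x) * (toC k / (3 * toC rt3)) = toC (x * k) / toC rt3 := by
    rw [map_mul, map_mul, map_ofNat]; field_simp
  rw [this, eT, TrC_div_rt3, e_int]

theorem ThH_tr_three (c₀ : ℝ) (θ : O → ℂ) (x : O) (w : H3) :
    ThH c₀ θ (KU.tr (3 * x) • w) = ThH c₀ θ w := by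
  rw [tr_smul, ThH, ThH, Th, Th, H3.mk_z, H3.mk_v]
  congr 1
  refine tsum_congr fun k => ?_
  rw [add_mul, eT_add, eT_three_mul, mul_one]

/-- invariance hypothesis, from the Gram identities -/
def InvHyp : Prop := ∀ ε : ℝ, 0 < ε → ∀ᶠ X : ℝ in atTop,
  ∫⁻ w in Ptop (1 / 3), ‖E 1 R1.eta (fX X) (KU.Smat O • w) - E 1 R1.eta (fX X) w‖ₑ ^ 2 ∂muH ≤
    ENNReal.ofReal (ε * lX X ^ 2)

section
variable {θ : O → ℂ} {C : ℝ} {A : ℕ} {δ : ℝ} {c₀ : ℝ}

theorem ThH_S_tr (hθ : SharpHyp θ C A δ) (hδ : 0 < δ) (hδ1 : δ < 1 / 3) (h0 : ConstHyp c₀)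
    {μ : O} (hμ : ∀ (f : ℝ → ℂ) (w : H3), E 1 R1.eta f (KU.tr μ • w) = E 1 R1.eta f w) (w : H3) :
    ThH c₀ θ (KU.Smat O • (KU.tr μ • w)) = ThH c₀ θ (KU.Smat O • w) := by
  have h1 := tendsto_E_id hθ hδ hδ1 h0 (KU.tr μ • w)
  have h2 := tendsto_E_id hθ hδ hδ1 h0 w
  simp only [hμ] at h1
  exact tendsto_nhds_unique h1 h2

/-- **invariance under `S`** -/
theorem ThH_S (hθ : SharpHyp θ C A δ) (hδ : 0 < δ) (hδ1 : δ < 1 / 3) (h0 : ConstHyp c₀)
    (hI : InvHyp) (w : H3) (hw : 1 / 3 < w.v) : ThH c₀ θ (KU.Smat O • w) = ThH c₀ θ w := by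
  set g : H3 → ℂ := fun w => ThH c₀ θ w - ThH c₀ θ (KU.Smat O • w) with hg
  have hT := continuous_ThH hθ c₀
  have hgc : Continuous g := hT.sub (hT.comp (continuous_const_smul (KU.Smat O)))
  have hlim : ∀ w, Tendsto (fun X : ℝ =>
      (E 1 R1.eta (fX X) (KU.Smat O • w) - E 1 R1.eta (fX X) w) / lX X) atTop (𝓝 (g w)) := by
    intro w
    have := (tendsto_E_S hθ hδ hδ1 h0 w).sub (tendsto_E_id hθ hδ hδ1 h0 w)
    refine this.congr fun X => ?_
    rw [sub_div]
  have hF : ∀ X : ℝ, Measurable fun w : H3 =>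
      E 1 R1.eta (fX X) (KU.Smat O • w) - E 1 R1.eta (fX X) w := fun X =>
    ((measurable_E 1 R1.eta (measurable_fX X)).comp (measurable_const_smul _)).sub
      (measurable_E 1 R1.eta (measurable_fX X))
  have h1 : ∫⁻ w in Ptop (1 / 3), ‖g w‖ₑ ^ 2 ∂muH ≤ ENNReal.ofReal 0 :=
    lintegral_lim_le hF _ hlim le_rfl (fun ε hε => by
      simpa only [zero_add] using hI ε hε)
  rw [ENNReal.ofReal_zero, nonpos_iff_eq_zero] at h1
  have hinv : ∀ (x : O) (w : H3), g (KU.tr (3 * x) • w) = g w := by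
    intro x w
    simp only [hg]
    rw [ThH_tr_three, ThH_S_tr hθ hδ hδ1 h0 (μ := 3 * x) (fun f w => E_tr_three f x w)]
  have h2 := eq_zero_of_ae hgc hinv h1 w hw
  simp only [hg] at h2
  exact (sub_eq_zero.1 h2).symm

/-- **invariance under `z ↦ z + 1`** -/
theorem ThH_tr_one (hθ : SharpHyp θ C A δ) (hδ : 0 < δ) (hδ1 : δ < 1 / 3) (h0 : ConstHyp c₀)
    (hI : InvHyp) (w : H3) (hw : 1 / 3 < w.v) : ThH c₀ θ (KU.tr (1 : O) • w) = ThH c₀ θ w := by
  have hv : (KU.tr (1 : O) • w).v = w.v := by rw [tr_smul, H3.mk_v]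
  rw [← ThH_S hθ hδ hδ1 h0 hI (KU.tr (1 : O) • w) (by rw [hv]; exact hw),
    ThH_S_tr hθ hδ hδ1 h0 (μ := 1) (fun f w => E_tr_one f w), ThH_S hθ hδ hδ1 h0 hI w hw]

end

/-! ### Fourier coefficients -/

theorem volume_real_B : (volume : Measure ℂ).real FC.B = H9.area := by
  rw [Measure.real, B_eq_box, volume_box, ENNReal.toReal_ofReal area_pos.le]

/-- Fourier coefficients of absolutely convergent series -/
theorem fourier_coeff {b : O → ℂ} (hb : Summable fun k => ‖b k‖) (k0 : O) :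
    ∫ z in FC.B, (∑' k, b k * eT (z * (toC k / (3 * toC rt3)))) * FC.En k0 z =
      (H9.area : ℂ) * b k0 := by
  have : Countable O := H9.countable_O
  have hfin : IsFiniteMeasure ((volume : Measure ℂ).restrict FC.B) :=
    ⟨by rw [Measure.restrict_apply_univ]; exact FC.volume_B_lt_top⟩
  set F : O → ℂ → ℂ := fun k z => b k * (starRingEnd ℂ) (FC.En k z) * FC.En k0 z with hF
  have hcont : ∀ k, Continuous (F k) := fun k =>
    (continuous_const.mul (Complex.continuous_conj.comp (FC.continuous_En k))).mul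
      (FC.continuous_En k0)
  have hnorm : ∀ k z, ‖F k z‖ = ‖b k‖ := by
    intro k z
    simp only [hF]
    rw [norm_mul, norm_mul, RCLike.norm_conj, FC.norm_En, FC.norm_En, mul_one, mul_one]
  have hint : ∀ k, Integrable (F k) ((volume : Measure ℂ).restrict FC.B) := fun k =>
    Integrable.of_bound (hcont k).aestronglyMeasurable ‖b k‖
      (Eventually.of_forall fun z => (hnorm k z).le)
  have hsum : Summable fun k => ∫ z in FC.B, ‖F k z‖ := by
    simp only [hnorm, integral_const]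
    exact hb.mul_left _
  have h1 := hasSum_integral_of_summable_integral_norm hint hsum
  have h2 : ∀ k, ∫ z in FC.B, F k z = if k = k0 then (H9.area : ℂ) * b k0 else 0 := by
    intro k
    have e : ∀ z, F k z = b k * (FC.En k0 z * (starRingEnd ℂ) (FC.En k z)) := by
      intro z; simp only [hF]; ring
    simp only [e]
    rw [integral_const_mul, FC.integral_En, volume_real_B]
    by_cases hk : k = k0
    · subst hk; simp; ring
    · rw [if_neg hk, if_neg (Ne.symm hk), mul_zero]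
  simp only [h2] at h1
  have h3 : HasSum (fun k => if k = k0 then (H9.area : ℂ) * b k0 else 0)
      ((H9.area : ℂ) * b k0) := by
    convert hasSum_ite_eq k0 ((H9.area : ℂ) * b k0) using 1
  have h4 := h1.unique h3
  rw [← h4]
  refine integral_congr_ae (Eventually.of_forall fun z => ?_)
  simp only [hF]
  rw [← tsum_mul_right]
  exact tsum_congr fun k => by rw [eT_freq_eq]

/-- uniqueness of Fourier coefficients -/
theorem fourier_unique {b : O → ℂ} (hb : Summable fun k => ‖b k‖)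
    (h : ∀ z, ∑' k, b k * eT (z * (toC k / (3 * toC rt3))) = 0) (k : O) : b k = 0 := by
  have h1 := fourier_coeff hb k
  simp only [h, zero_mul, integral_zero] at h1
  have h2 : (H9.area : ℂ) ≠ 0 := by exact_mod_cast area_pos.ne'
  exact (mul_eq_zero.1 h1.symm).resolve_left h2

/-- the coefficients including the constant one -/
noncomputable def Tk0 (c₀ : ℝ) (θ : O → ℂ) (v : ℝ) (k : O) : ℂ :=
  if k = 0 then ((c₀ * v ^ (2 / 3 : ℝ) : ℝ) : ℂ) else Tk θ v k

section
variable {θ : O → ℂ} {C : ℝ} {A : ℕ} {δ : ℝ} {c₀ : ℝ}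

theorem summable_Tk0 (hθ : SharpHyp θ C A δ) (c₀ : ℝ) {v : ℝ} (hv : 0 < v) :
    Summable fun k : O => ‖Tk0 c₀ θ v k‖ := by
  classical
  have h1 := summable_Tk hθ hv
  have h2 : Summable (fun k : O => if k = 0 then 0 else ‖Tk θ v k‖) := by
    have h3 := (summable_subtype_iff_indicator (f := fun k : O => ‖Tk θ v k‖)
      (s := {k : O | k ≠ 0})).1 h1
    refine h3.congr fun k => ?_
    by_cases hk : k = 0
    · subst hk; simp
    · rw [indicator_of_mem (show k ∈ {k : O | k ≠ 0} from hk), if_neg hk]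
  have h3 : Summable (fun k : O => if k = 0 then ‖((c₀ * v ^ (2 / 3 : ℝ) : ℝ) : ℂ)‖ else 0) := by
    refine summable_of_ne_finset_zero (s := {0}) fun k hk => ?_
    rw [if_neg (by simpa using hk)]
  refine (h2.add h3).congr fun k => ?_
  rw [Tk0]
  by_cases hk : k = 0
  · simp [hk]
  · simp [hk]

theorem hasSum_Th (hθ : SharpHyp θ C A δ) (c₀ : ℝ) {v : ℝ} (hv : 0 < v) (z : ℂ) :
    HasSum (fun k : O => Tk0 c₀ θ v k * eT (z * (toC k / (3 * toC rt3)))) (Th c₀ θ z v) := by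
  classical
  have h1 : Summable (fun k : O => Tk0 c₀ θ v k * eT (z * (toC k / (3 * toC rt3)))) := by
    refine Summable.of_norm_bounded (summable_Tk0 hθ c₀ hv) fun k => ?_
    rw [norm_mul, norm_eT, mul_one]
  have h2 := hasSum_split_zero h1.hasSum
  have h3 := (summable_Tk_eT hθ hv z).hasSum
  have h4 : (fun k : {k : O // k ≠ 0} => Tk0 c₀ θ v k * eT (z * (toC (k : O) / (3 * toC rt3)))) =
      fun k : {k : O // k ≠ 0} => Tk θ v k * eT (z * (toC (k : O) / (3 * toC rt3))) := by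
    funext k
    rw [Tk0, if_neg k.2]
  rw [h4] at h2
  have h5 := h2.unique h3
  simp only [map_zero, zero_div, mul_zero, eT_zero, mul_one, Tk0, if_true] at h5
  have h6 : Th c₀ θ z v = ∑' k : O, Tk0 c₀ θ v k * eT (z * (toC k / (3 * toC rt3))) := by
    rw [Th, ← h5]
    simp only [Tk0]
    ring
  rw [h6]
  exact h1.hasSum

theorem Th_eq (hθ : SharpHyp θ C A δ) (c₀ : ℝ) {v : ℝ} (hv : 0 < v) (z : ℂ) :
    Th c₀ θ z v = ∑' k : O, Tk0 c₀ θ v k * eT (z * (toC k / (3 * toC rt3))) :=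
  (hasSum_Th hθ c₀ hv z).tsum_eq.symm

/-- **support of the coefficients** -/
theorem theta_support (hθ : SharpHyp θ C A δ) (hδ : 0 < δ) (hδ1 : δ < 1 / 3) (h0 : ConstHyp c₀)
    (hI : InvHyp) {k : O} (hk : k ≠ 0) (hθk : θ k ≠ 0) : (3 : ℤ) ∣ k.im := by
  have hinv : ∀ z : ℂ, Th c₀ θ (z + 1) 1 = Th c₀ θ z 1 := by
    intro z
    have h := ThH_tr_one hθ hδ hδ1 h0 hI (H3.mk z 1 one_pos) (by rw [H3.mk_v]; norm_num)
    rw [tr_smul, ThH, ThH] at h
    simpa using h
  set b : O → ℂ := fun k => Tk0 c₀ θ 1 k * (eT (toC k / (3 * toC rt3)) - 1) with hb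
  have hs := summable_Tk0 hθ c₀ one_pos
  have hbs : Summable fun k => ‖b k‖ := by
    refine Summable.of_nonneg_of_le (fun _ => norm_nonneg _) (fun k => ?_) (hs.mul_right 2)
    simp only [hb]
    rw [norm_mul]
    refine mul_le_mul_of_nonneg_left ?_ (norm_nonneg _)
    calc ‖eT (toC k / (3 * toC rt3)) - 1‖ ≤ ‖eT (toC k / (3 * toC rt3))‖ + ‖(1 : ℂ)‖ :=
          norm_sub_le _ _
      _ = 2 := by rw [norm_eT]; norm_num
  have h1 : ∀ z, ∑' k, b k * eT (z * (toC k / (3 * toC rt3))) = 0 := by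
    intro z
    have h2 := (hasSum_Th hθ c₀ one_pos (z + 1)).sub (hasSum_Th hθ c₀ one_pos z)
    rw [hinv, sub_self] at h2
    rw [← h2.tsum_eq]
    refine tsum_congr fun k => ?_
    simp only [hb]
    rw [add_mul, one_mul, eT_add]
    ring
  have h2 := fourier_unique hbs h1 k
  simp only [hb, Tk0, if_neg hk] at h2
  have h3 : Tk θ 1 k ≠ 0 := by
    rw [Tk]
    refine mul_ne_zero (mul_ne_zero ?_ hθk) ?_
    · exact_mod_cast kap0_pos.ne'
    · have hN : 0 < √(N k : ℝ) := by linarith [sqrt_N_one_le hk]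
      have ha := aa_pos
      have : 0 < (1 : ℝ) ^ (2 / 3 : ℝ) * G ((aa * √(N k) * 1) ^ 2) := by
        rw [Real.one_rpow, one_mul]; exact G_pos (by positivity)
      exact_mod_cast this.ne'
  have h4 := (mul_eq_zero.1 h2).resolve_left h3
  have h5 : TrC (toC k / (3 * toC rt3)) = (k.im : ℝ) / 3 := by
    have e : toC k / (3 * toC rt3) = ((1 / 3 : ℝ) : ℂ) * (toC k / toC rt3) := by
      have := toC_rt3_ne_zero
      push_cast; field_simp
    rw [e, TrC_ofReal_mul, TrC_div_rt3]; ring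
  rw [sub_eq_zero, eT, h5, e_eq_one_iff] at h4
  obtain ⟨n, hn⟩ := h4
  refine ⟨n, ?_⟩
  have : (k.im : ℝ) = 3 * n := by linarith
  exact_mod_cast this

end

end Vale.Agent.P006.SG
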