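import Vale.Agent.P006.JB.ExpNorms

/-!
P006, block SG: `SG.gram_exp` and `SG.inv_exp` are proved in `Vale/Agent/P006/JB/ExpNorms.lean`;
this file only re-exports them.
-/
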