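import Vale.Agent.P006.SG.Bessel
import Mathlib.Analysis.Real.Pi.Bounds
import Mathlib.Analysis.Complex.ExponentialBounds

/-!
P006, block SG: numerical facts on the kernel
`kap X = v^{-2/3} G((aX)²/v²) - v^{2/3} G((aX)² v²)`, `v = 6/5`, `a = 2π/(3√3)`,
(the coefficient of `ρ(m)`, `X = √N(m)`, in the identity `Θ(0,v) = Θ(0,1/v)`).
-/

open MeasureTheory Set Real Filter

namespace Vale.Agent.P006.SG

theorem G_sq_le {t : ℝ} (ht : 0 < t) : G (t ^ 2) ≤ t ^ (-(1 / 6) : ℝ) * (√π * exp (-(2 * t))) := by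
  have h := G_le (show 0 < t ^ 2 by positivity)
  rw [Real.sqrt_sq ht.le, ← Real.rpow_natCast, ← Real.rpow_mul ht.le] at h
  norm_num at h ⊢
  exact h

theorem le_G_sq {t : ℝ} (ht : 0 < t) :
    (t + 1 / 2) ^ (-(1 / 6) : ℝ) * (√π * exp (-(2 * t))) ≤ G (t ^ 2) := by
  have h := le_G (show 0 < t ^ 2 by positivity)
  rwa [Real.sqrt_sq ht.le] at h

/-- `a = 2π/(3√3)` -/
noncomputable def aa : ℝ := 2 * π / (3 * √3)

theorem sqrt3_gt : 1.73205 < √3 := by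
  rw [Real.lt_sqrt (by norm_num)]; norm_num

theorem sqrt3_lt : √3 < 1.73206 := by
  rw [Real.sqrt_lt' (by norm_num)]; norm_num

theorem aa_gt : 1.2091 < aa := by
  unfold aa
  rw [lt_div_iff₀ (by positivity)]
  have := Real.pi_gt_d4
  have := sqrt3_lt
  nlinarith

theorem aa_lt : aa < 1.2093 := by
  unfold aa
  rw [div_lt_iff₀ (by positivity)]
  have := Real.pi_lt_d4
  have := sqrt3_gt
  nlinarith

theorem aa_pos : 0 < aa := by have := aa_gt; linarith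

/-- the kernel of the difference identity at `v = 6/5` -/
noncomputable def kap (X : ℝ) : ℝ :=
  (6 / 5 : ℝ) ^ (-(2 / 3) : ℝ) * G ((aa * X / (6 / 5)) ^ 2) -
    (6 / 5 : ℝ) ^ (2 / 3 : ℝ) * G ((aa * X * (6 / 5)) ^ 2)

theorem abs_kap_le {X : ℝ} (hX : 1 ≤ X) : |kap X| ≤
    (6 / 5 : ℝ) ^ (-(1 / 2) : ℝ) * (aa * X) ^ (-(1 / 6) : ℝ) * (√π * exp (-(5 / 3 * aa * X))) := by
  have ha := aa_gt
  have haX : 0 < aa * X := by nlinarith
  have h1 := G_sq_le (show 0 < aa * X / (6 / 5) by positivity)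
  have h2 := G_sq_le (show 0 < aa * X * (6 / 5) by positivity)
  have p1 : 0 ≤ G ((aa * X / (6 / 5)) ^ 2) := F_nonneg _ _
  have p2 : 0 ≤ G ((aa * X * (6 / 5)) ^ 2) := F_nonneg _ _
  set B := (6 / 5 : ℝ) ^ (-(1 / 2) : ℝ) * (aa * X) ^ (-(1 / 6) : ℝ) *
    (√π * exp (-(5 / 3 * aa * X))) with hB
  have e1 : (6 / 5 : ℝ) ^ (-(2 / 3) : ℝ) * ((aa * X / (6 / 5)) ^ (-(1 / 6) : ℝ) *
      (√π * exp (-(2 * (aa * X / (6 / 5)))))) = B := by
    rw [Real.div_rpow haX.le (by norm_num), hB,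
      show -(2 * (aa * X / (6 / 5))) = -(5 / 3 * aa * X) by ring,
      show (6 / 5 : ℝ) ^ (-(1 / 2) : ℝ) = (6 / 5 : ℝ) ^ (-(2 / 3) : ℝ) / (6 / 5 : ℝ) ^ (-(1 / 6) : ℝ) by
        rw [← Real.rpow_sub (by norm_num)]; norm_num]
    ring
  have e2 : (6 / 5 : ℝ) ^ (2 / 3 : ℝ) * ((aa * X * (6 / 5)) ^ (-(1 / 6) : ℝ) *
      (√π * exp (-(2 * (aa * X * (6 / 5)))))) ≤ B := by
    rw [Real.mul_rpow haX.le (by norm_num), hB]
    have e3 : (6 / 5 : ℝ) ^ (2 / 3 : ℝ) * (6 / 5 : ℝ) ^ (-(1 / 6) : ℝ) =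
        (6 / 5 : ℝ) ^ (-(1 / 2) : ℝ) * (6 / 5) := by
      rw [← Real.rpow_add (by norm_num)]
      nth_rewrite 3 [← Real.rpow_one (6 / 5 : ℝ)]
      rw [← Real.rpow_add (by norm_num)]
      norm_num
    have e4 : (6 / 5 : ℝ) * exp (-(2 * (aa * X * (6 / 5)))) ≤ exp (-(5 / 3 * aa * X)) := by
      have h3 : (6 / 5 : ℝ) ≤ exp (11 / 15 * (aa * X)) := by
        have := Real.add_one_le_exp (11 / 15 * (aa * X))
        nlinarith
      calc (6 / 5 : ℝ) * exp (-(2 * (aa * X * (6 / 5))))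
          ≤ exp (11 / 15 * (aa * X)) * exp (-(2 * (aa * X * (6 / 5)))) := by gcongr
        _ = _ := by rw [← Real.exp_add]; congr 1; ring
    calc (6 / 5 : ℝ) ^ (2 / 3 : ℝ) * ((aa * X) ^ (-(1 / 6) : ℝ) * (6 / 5 : ℝ) ^ (-(1 / 6) : ℝ) *
          (√π * exp (-(2 * (aa * X * (6 / 5))))))
        = ((6 / 5 : ℝ) ^ (2 / 3 : ℝ) * (6 / 5 : ℝ) ^ (-(1 / 6) : ℝ)) * (aa * X) ^ (-(1 / 6) : ℝ) *
          (√π * exp (-(2 * (aa * X * (6 / 5))))) := by ring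
      _ = (6 / 5 : ℝ) ^ (-(1 / 2) : ℝ) * (aa * X) ^ (-(1 / 6) : ℝ) *
          (√π * ((6 / 5) * exp (-(2 * (aa * X * (6 / 5)))))) := by rw [e3]; ring
      _ ≤ _ := by gcongr
  have h3 : (6 / 5 : ℝ) ^ (-(2 / 3) : ℝ) * G ((aa * X / (6 / 5)) ^ 2) ≤ B := by
    rw [← e1]; gcongr
  have h4 : (6 / 5 : ℝ) ^ (2 / 3 : ℝ) * G ((aa * X * (6 / 5)) ^ 2) ≤ B := by
    refine le_trans ?_ e2; gcongr
  have h5 : 0 ≤ (6 / 5 : ℝ) ^ (-(2 / 3) : ℝ) * G ((aa * X / (6 / 5)) ^ 2) := by positivity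
  have h6 : 0 ≤ (6 / 5 : ℝ) ^ (2 / 3 : ℝ) * G ((aa * X * (6 / 5)) ^ 2) := by positivity
  rw [kap, abs_le]
  constructor <;> linarith

theorem rpow_sixth_le {x t : ℝ} (hx : 0 < x) (ht : 0 < t) (h : 1 ≤ t ^ 6 * x) :
    x ^ (-(1 / 6) : ℝ) ≤ t := by
  have h1 : t⁻¹ ^ 6 ≤ x := by
    rw [inv_pow, inv_le_iff_one_le_mul₀' (by positivity)]; exact h
  have h2 : t⁻¹ ≤ x ^ (1 / 6 : ℝ) := by
    have h3 := Real.rpow_le_rpow (by positivity) h1 (show (0 : ℝ) ≤ 1 / 6 by norm_num)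
    rw [← Real.rpow_natCast, ← Real.rpow_mul (by positivity)] at h3
    norm_num at h3 ⊢
    exact h3
  rw [Real.rpow_neg hx.le]
  exact inv_le_of_inv_le₀ ht h2

theorem le_rpow_sixth {x t : ℝ} (hx : 0 < x) (ht : 0 < t) (h : t ^ 6 * x ≤ 1) :
    t ≤ x ^ (-(1 / 6) : ℝ) := by
  have h1 : x ≤ t⁻¹ ^ 6 := by
    rw [inv_pow, le_inv_comm₀ hx (by positivity), ← one_div, le_div_iff₀ hx]; exact h
  have h2 : x ^ (1 / 6 : ℝ) ≤ t⁻¹ := by
    have h3 := Real.rpow_le_rpow hx.le h1 (show (0 : ℝ) ≤ 1 / 6 by norm_num)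
    rw [← Real.rpow_natCast, ← Real.rpow_mul (by positivity)] at h3
    norm_num at h3 ⊢
    exact h3
  rw [Real.rpow_neg hx.le]
  exact le_inv_of_le_inv₀ (by positivity) h2

/-- the main coefficient -/
theorem kap_one_ge : 0.0513 * √π ≤ kap 1 := by
  have ha := aa_gt
  have hb := aa_lt
  have hp := aa_pos
  have h1 := le_G_sq (show 0 < aa / (6 / 5) by positivity)
  have h2 := G_sq_le (show 0 < aa * (6 / 5) by positivity)
  have e1 : (6 / 5 : ℝ) ^ (-(2 / 3) : ℝ) * (aa / (6 / 5) + 1 / 2) ^ (-(1 / 6) : ℝ) =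
      ((6 / 5) ^ 4 * (aa / (6 / 5) + 1 / 2)) ^ (-(1 / 6) : ℝ) := by
    rw [Real.mul_rpow (by positivity) (by positivity), ← Real.rpow_natCast (6 / 5 : ℝ) 4,
      ← Real.rpow_mul (by norm_num)]
    norm_num
  have e2 : (6 / 5 : ℝ) ^ (2 / 3 : ℝ) * (aa * (6 / 5)) ^ (-(1 / 6) : ℝ) =
      (aa / (6 / 5) ^ 3) ^ (-(1 / 6) : ℝ) := by
    rw [Real.mul_rpow hp.le (by norm_num), Real.div_rpow hp.le (by positivity),
      ← Real.rpow_natCast (6 / 5 : ℝ) 3, ← Real.rpow_mul (by norm_num),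
      eq_div_iff (by positivity), mul_left_comm, mul_assoc, ← Real.rpow_add (by norm_num),
      ← Real.rpow_add (by norm_num)]
    norm_num
  have h3 : (0.8268 : ℝ) ≤ ((6 / 5) ^ 4 * (aa / (6 / 5) + 1 / 2)) ^ (-(1 / 6) : ℝ) := by
    refine le_rpow_sixth (by positivity) (by norm_num) ?_
    nlinarith
  have h4 : (aa / (6 / 5) ^ 3) ^ (-(1 / 6) : ℝ) ≤ 1.0615 := by
    refine rpow_sixth_le (by positivity) (by norm_num) ?_
    norm_num
    linarith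
  have x1 := Real.exp_one_lt_d9
  have x2 := Real.exp_one_gt_d9
  have h5 : (0.1331 : ℝ) ≤ exp (-(2 * (aa / (6 / 5)))) := by
    have : exp (-(2 * (aa / (6 / 5)))) = (exp 1)⁻¹ ^ 2 * exp (2 - 2 * (aa / (6 / 5))) := by
      rw [← Real.exp_neg, ← Real.exp_nat_mul, ← Real.exp_add]; congr 1; push_cast; ring
    rw [this]
    have h6 : (0.9844 : ℝ) ≤ exp (2 - 2 * (aa / (6 / 5))) := by
      have := Real.add_one_le_exp (2 - 2 * (aa / (6 / 5)))
      linarith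
    have h7 : (0.36787 : ℝ) ≤ (exp 1)⁻¹ := by
      rw [le_inv_comm₀ (by norm_num) (exp_pos _)]
      refine x1.le.trans (by norm_num)
    calc (0.1331 : ℝ) ≤ 0.36787 ^ 2 * 0.9844 := by norm_num
      _ ≤ _ := by gcongr
  have h8 : exp (-(2 * (aa * (6 / 5)))) ≤ 0.0553 := by
    have : exp (-(2 * (aa * (6 / 5)))) = (exp 1)⁻¹ ^ 3 * (exp (2 * (aa * (6 / 5)) - 3))⁻¹ := by
      rw [← Real.exp_neg, ← Real.exp_neg, ← Real.exp_nat_mul, ← Real.exp_add]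
      congr 1; push_cast; ring
    rw [this]
    have h6 : (0.90184 : ℝ) ≤ exp (2 * (aa * (6 / 5)) - 3) := by
      have := Real.add_one_le_exp (2 * (aa * (6 / 5)) - 3)
      linarith
    have h7 : (exp 1)⁻¹ ≤ 0.36788 := by
      rw [inv_le_comm₀ (exp_pos _) (by norm_num)]
      refine le_trans (by norm_num) x2.le
    calc (exp 1)⁻¹ ^ 3 * (exp (2 * (aa * (6 / 5)) - 3))⁻¹ ≤ 0.36788 ^ 3 * (0.90184)⁻¹ := by gcongr
      _ ≤ _ := by norm_num
  have hpi : 0 < √π := Real.sqrt_pos.2 Real.pi_pos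
  rw [kap, mul_one]
  have k1 : 0.8268 * (√π * 0.1331) ≤ (6 / 5 : ℝ) ^ (-(2 / 3) : ℝ) * G ((aa / (6 / 5)) ^ 2) := by
    calc 0.8268 * (√π * 0.1331) ≤ ((6 / 5) ^ 4 * (aa / (6 / 5) + 1 / 2)) ^ (-(1 / 6) : ℝ) *
          (√π * exp (-(2 * (aa / (6 / 5))))) := by gcongr
      _ = (6 / 5 : ℝ) ^ (-(2 / 3) : ℝ) * ((aa / (6 / 5) + 1 / 2) ^ (-(1 / 6) : ℝ) *
          (√π * exp (-(2 * (aa / (6 / 5)))))) := by rw [← e1]; ring
      _ ≤ _ := by gcongr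
  have k2 : (6 / 5 : ℝ) ^ (2 / 3 : ℝ) * G ((aa * (6 / 5)) ^ 2) ≤ 1.0615 * (√π * 0.0553) := by
    calc (6 / 5 : ℝ) ^ (2 / 3 : ℝ) * G ((aa * (6 / 5)) ^ 2)
        ≤ (6 / 5 : ℝ) ^ (2 / 3 : ℝ) * ((aa * (6 / 5)) ^ (-(1 / 6) : ℝ) *
          (√π * exp (-(2 * (aa * (6 / 5)))))) := by gcongr
      _ = (aa / (6 / 5) ^ 3) ^ (-(1 / 6) : ℝ) * (√π * exp (-(2 * (aa * (6 / 5))))) := by
          rw [← e2]; ring
      _ ≤ _ := by gcongr
  nlinarith

/-! ### The weights of Parseval's identity -/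

theorem continuousOn_G : ContinuousOn G (Ici 0) := by
  unfold G F
  refine continuousOn_of_dominated (bound := fun s => exp (-s) * s ^ ((1 / 3 : ℝ) - 1))
    (fun y _ => (measurable_fker _ _).aestronglyMeasurable) (fun y hy => ?_)
    (Real.GammaIntegral_convergent (by norm_num)) ?_
  · refine (ae_restrict_iff' measurableSet_Ioi).2 (Eventually.of_forall fun s hs => ?_)
    have hs : (0 : ℝ) < s := hs
    have hy : (0 : ℝ) ≤ y := hy
    rw [Real.norm_of_nonneg (fker_nonneg hs), fker, mul_comm]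
    refine mul_le_mul_of_nonneg_right (exp_le_exp.2 ?_) (by positivity)
    have : 0 ≤ y / s := by positivity
    linarith
  · refine (ae_restrict_iff' measurableSet_Ioi).2 (Eventually.of_forall fun s _ => ?_)
    unfold fker
    fun_prop

theorem continuousOn_wker (X : ℝ) :
    ContinuousOn (fun v : ℝ => v ^ (-(5 / 3) : ℝ) * G ((aa * X * v) ^ 2) ^ 2) (Ioi (1 / 3)) := by
  refine ContinuousOn.mul ?_ (ContinuousOn.pow ?_ 2)
  · intro v hv
    have hv : (1 / 3 : ℝ) < v := hv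
    exact (Real.continuousAt_rpow_const _ _ (Or.inl (by linarith))).continuousWithinAt
  · exact continuousOn_G.comp (by fun_prop) fun v _ => show (0 : ℝ) ≤ _ by positivity

theorem wker_le {X v : ℝ} (hX : 0 < X) (hv : 1 / 3 < v) :
    v ^ (-(5 / 3) : ℝ) * G ((aa * X * v) ^ 2) ^ 2 ≤
      (aa * X) ^ (-(1 / 3) : ℝ) * π * 9 * exp (-(4 * aa * X * v)) := by
  have ha := aa_pos
  have hv0 : 0 < v := by linarith
  have h1 := G_sq_le (show 0 < aa * X * v by positivity)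
  have p1 : 0 ≤ G ((aa * X * v) ^ 2) := F_nonneg _ _
  have e1 : ((aa * X * v) ^ (-(1 / 6) : ℝ) * (√π * exp (-(2 * (aa * X * v))))) ^ 2 =
      (aa * X) ^ (-(1 / 3) : ℝ) * v ^ (-(1 / 3) : ℝ) * π * exp (-(4 * aa * X * v)) := by
    rw [mul_pow, mul_pow, Real.sq_sqrt Real.pi_pos.le, ← Real.exp_nat_mul, ← Real.rpow_natCast,
      ← Real.rpow_mul (by positivity), Real.mul_rpow (by positivity) (by positivity)]
    norm_num
    ring_nf
  have e2 : v ^ (-(5 / 3) : ℝ) * v ^ (-(1 / 3) : ℝ) ≤ 9 := by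
    rw [← Real.rpow_add hv0]
    have : v ^ (-(5 / 3) + -(1 / 3) : ℝ) = (v⁻¹) ^ 2 := by
      rw [show (-(5 / 3) + -(1 / 3) : ℝ) = -(2 : ℝ) by norm_num, Real.rpow_neg hv0.le]
      simp
    rw [this]
    have h3 : v⁻¹ ≤ 3 := by
      rw [inv_le_comm₀ hv0 (by norm_num)]; linarith
    have h4 : 0 < v⁻¹ := by positivity
    nlinarith
  calc v ^ (-(5 / 3) : ℝ) * G ((aa * X * v) ^ 2) ^ 2
      ≤ v ^ (-(5 / 3) : ℝ) * ((aa * X * v) ^ (-(1 / 6) : ℝ) *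
        (√π * exp (-(2 * (aa * X * v))))) ^ 2 := by gcongr
    _ = (v ^ (-(5 / 3) : ℝ) * v ^ (-(1 / 3) : ℝ)) * ((aa * X) ^ (-(1 / 3) : ℝ) * π *
        exp (-(4 * aa * X * v))) := by rw [e1]; ring
    _ ≤ 9 * ((aa * X) ^ (-(1 / 3) : ℝ) * π * exp (-(4 * aa * X * v))) := by gcongr
    _ = _ := by ring

theorem integrableOn_wker {X : ℝ} (hX : 0 < X) :
    IntegrableOn (fun v : ℝ => v ^ (-(5 / 3) : ℝ) * G ((aa * X * v) ^ 2) ^ 2) (Ioi (1 / 3)) := by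
  have ha := aa_pos
  have h1 : IntegrableOn (fun v : ℝ => exp (-(4 * aa * X) * v)) (Ioi (1 / 3)) :=
    exp_neg_integrableOn_Ioi _ (by positivity)
  refine (h1.const_mul ((aa * X) ^ (-(1 / 3) : ℝ) * π * 9)).mono'
    ((continuousOn_wker X).aestronglyMeasurable measurableSet_Ioi) ?_
  refine (ae_restrict_iff' measurableSet_Ioi).2 (Eventually.of_forall fun v hv => ?_)
  have hv : (1 / 3 : ℝ) < v := hv
  have hv0 : 0 < v := by linarith
  rw [Real.norm_of_nonneg (by positivity)]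
  refine (wker_le hX hv).trans (le_of_eq ?_)
  congr 2; ring

/-- the weight `∫_{1/3}^∞ v^{-5/3} G((aXv)²)² dv` of a frequency of length `X` in Parseval's
identity on the strip `v > 1/3` -/
noncomputable def Iw (X : ℝ) : ℝ :=
  ∫ v in Ioi (1 / 3 : ℝ), v ^ (-(5 / 3) : ℝ) * G ((aa * X * v) ^ 2) ^ 2

/-- lower bound for the weights -/
theorem le_Iw {X : ℝ} (hX : 0 < X) :
    3 ^ (2 / 3 : ℝ) * (aa * X + 1 / 2) ^ (-(1 / 3) : ℝ) * π * exp (-(4 * aa * X)) /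
      (4 * aa * X + 2) ≤ Iw (3 * X) := by
  have ha := aa_pos
  set C : ℝ := (aa * X + 1 / 2) ^ (-(1 / 3) : ℝ) * (3 : ℝ) ^ (-(1 / 3) : ℝ) * π with hC
  have hC0 : 0 < C := by positivity
  set D : ℝ := 4 * aa * X + 2 with hD
  have hD0 : 0 < D := by positivity
  -- the comparison function `-Φ'`, `Φ v = (C/(3D)) v⁻² e^{-12 a X v}`
  set f : ℝ → ℝ := fun v => -(C / (3 * D) * ((v ^ 2)⁻¹ * exp (-(12 * aa * X) * v))) with hf
  set f' : ℝ → ℝ := fun v => C / (3 * D) *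
    ((12 * aa * X * v + 2) * (v ^ 3)⁻¹ * exp (-(12 * aa * X) * v)) with hf'
  have hder : ∀ v ∈ Ioi (1 / 3 : ℝ), HasDerivAt f (f' v) v := by
    intro v hv
    have hv : (1 / 3 : ℝ) < v := hv
    have hv0 : 0 < v := by linarith
    have h1 : HasDerivAt (fun v : ℝ => (v ^ 2)⁻¹) (-(2 * v) / (v ^ 2) ^ 2) v := by
      simpa using (hasDerivAt_pow 2 v).fun_inv (by positivity)
    have h2 : HasDerivAt (fun v : ℝ => exp (-(12 * aa * X) * v))
        (exp (-(12 * aa * X) * v) * -(12 * aa * X)) v := by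
      simpa using ((hasDerivAt_id v).const_mul (-(12 * aa * X))).exp
    refine (((h1.mul h2).const_mul (C / (3 * D))).neg).congr_deriv ?_
    simp only [hf']
    field_simp
    ring
  have hle : ∀ v ∈ Ioi (1 / 3 : ℝ), f' v ≤ v ^ (-(5 / 3) : ℝ) * G ((aa * (3 * X) * v) ^ 2) ^ 2 := by
    intro v hv
    have hv : (1 / 3 : ℝ) < v := hv
    have hv0 : 0 < v := by linarith
    have h1 := le_G_sq (show 0 < aa * (3 * X) * v by positivity)
    have e1 : ((aa * (3 * X) * v + 1 / 2) ^ (-(1 / 6) : ℝ) *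
        (√π * exp (-(2 * (aa * (3 * X) * v))))) ^ 2 =
        (aa * (3 * X) * v + 1 / 2) ^ (-(1 / 3) : ℝ) * π * exp (-(12 * aa * X) * v) := by
      rw [mul_pow, mul_pow, Real.sq_sqrt Real.pi_pos.le, ← Real.exp_nat_mul, ← Real.rpow_natCast,
        ← Real.rpow_mul (by positivity)]
      norm_num
      ring_nf
    have e2 : (aa * X + 1 / 2) ^ (-(1 / 3) : ℝ) * ((3 : ℝ) ^ (-(1 / 3) : ℝ) * v ^ (-(1 / 3) : ℝ)) ≤
        (aa * (3 * X) * v + 1 / 2) ^ (-(1 / 3) : ℝ) := by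
      rw [← Real.mul_rpow (by norm_num) hv0.le, ← Real.mul_rpow (by positivity) (by positivity)]
      refine Real.rpow_le_rpow_of_nonpos (by positivity) ?_ (by norm_num)
      nlinarith [mul_pos ha hX]
    have e3 : v ^ (-(5 / 3) : ℝ) * v ^ (-(1 / 3) : ℝ) = (v ^ 2)⁻¹ := by
      rw [← Real.rpow_add hv0, show (-(5 / 3) + -(1 / 3) : ℝ) = -(2 : ℝ) by norm_num,
        Real.rpow_neg hv0.le]
      simp
    have e4 : (12 * aa * X * v + 2) * (v ^ 3)⁻¹ ≤ 3 * D * (v ^ 2)⁻¹ := by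
      have : (v ^ 3)⁻¹ = (v ^ 2)⁻¹ * v⁻¹ := by rw [← mul_inv]; congr 1
      rw [this]
      have h5 : v⁻¹ ≤ 3 := by
        rw [inv_le_comm₀ hv0 (by norm_num)]; linarith
      have h6 : (12 * aa * X * v + 2) * v⁻¹ ≤ 3 * D := by
        have : (12 * aa * X * v + 2) * v⁻¹ = 12 * aa * X + 2 * v⁻¹ := by field_simp
        rw [this, hD]; linarith
      calc (12 * aa * X * v + 2) * ((v ^ 2)⁻¹ * v⁻¹)
          = ((12 * aa * X * v + 2) * v⁻¹) * (v ^ 2)⁻¹ := by ring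
        _ ≤ _ := by gcongr
    calc f' v = C / (3 * D) * (((12 * aa * X * v + 2) * (v ^ 3)⁻¹) * exp (-(12 * aa * X) * v)) := by
          simp only [hf']
      _ ≤ C / (3 * D) * ((3 * D * (v ^ 2)⁻¹) * exp (-(12 * aa * X) * v)) := by gcongr
      _ = C * (v ^ 2)⁻¹ * exp (-(12 * aa * X) * v) := by field_simp
      _ = v ^ (-(5 / 3) : ℝ) * (((aa * X + 1 / 2) ^ (-(1 / 3) : ℝ) *
          ((3 : ℝ) ^ (-(1 / 3) : ℝ) * v ^ (-(1 / 3) : ℝ))) * π * exp (-(12 * aa * X) * v)) := by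
          rw [← e3, hC]; ring
      _ ≤ v ^ (-(5 / 3) : ℝ) * ((aa * (3 * X) * v + 1 / 2) ^ (-(1 / 3) : ℝ) * π *
          exp (-(12 * aa * X) * v)) := by gcongr
      _ = v ^ (-(5 / 3) : ℝ) * ((aa * (3 * X) * v + 1 / 2) ^ (-(1 / 6) : ℝ) *
          (√π * exp (-(2 * (aa * (3 * X) * v))))) ^ 2 := by rw [e1]
      _ ≤ _ := by gcongr
  have hpos : ∀ v ∈ Ioi (1 / 3 : ℝ), 0 ≤ f' v := by
    intro v hv
    have hv : (1 / 3 : ℝ) < v := hv
    have hv0 : 0 < v := by linarith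
    simp only [hf']; positivity
  have hcont : ContinuousWithinAt f (Ici (1 / 3)) (1 / 3) := by
    simp only [hf]
    refine ContinuousAt.continuousWithinAt ?_
    have : ContinuousAt (fun v : ℝ => (v ^ 2)⁻¹) (1 / 3) :=
      ContinuousAt.inv₀ (by fun_prop) (by norm_num)
    fun_prop
  have hlim : Tendsto f atTop (nhds 0) := by
    have h1 : Tendsto (fun v : ℝ => exp (-(12 * aa * X) * v)) atTop (nhds 0) := by
      have := Real.tendsto_exp_neg_atTop_nhds_zero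
      have h2 : Tendsto (fun v : ℝ => (12 * aa * X) * v) atTop atTop :=
        tendsto_id.const_mul_atTop (by positivity)
      refine (this.comp h2).congr fun v => ?_
      simp
    have h3 : Tendsto (fun v : ℝ => (v ^ 2)⁻¹) atTop (nhds 0) :=
      (tendsto_pow_atTop (by norm_num)).inv_tendsto_atTop
    have h4 := ((h3.mul h1).const_mul (C / (3 * D))).neg
    simpa [hf] using h4
  have hint' : IntegrableOn f' (Ioi (1 / 3)) :=
    integrableOn_Ioi_deriv_of_nonneg hcont hder hpos hlim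
  have hval := integral_Ioi_of_hasDerivAt_of_tendsto hcont hder hint' hlim
  have hmono := setIntegral_mono_on hint' (integrableOn_wker (show 0 < 3 * X by positivity))
    measurableSet_Ioi hle
  rw [hval] at hmono
  refine le_trans (le_of_eq ?_) hmono
  simp only [hf, hC]
  have e5 : (3 : ℝ) ^ (2 / 3 : ℝ) = 3 * (3 : ℝ) ^ (-(1 / 3) : ℝ) := by
    have h := Real.rpow_add (show (0 : ℝ) < 3 by norm_num) 1 (-(1 / 3))
    rw [Real.rpow_one] at h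
    rw [← h]; norm_num
  rw [e5, show -(12 * aa * X) * (1 / 3) = -(4 * aa * X) by ring]
  field_simp
  norm_num

theorem Iw_pos {X : ℝ} (hX : 0 < X) : 0 < Iw X := by
  have ha := aa_pos
  have h := le_Iw (X := X / 3) (by positivity)
  rw [show 3 * (X / 3) = X by ring] at h
  exact lt_of_lt_of_le (by positivity) h

theorem kap_sq_le {X : ℝ} (hX : 1 ≤ X) :
    kap (3 * X) ^ 2 ≤ 2.132 * X * exp (-(6 * aa * X)) * Iw (3 * X) := by
  have ha := aa_pos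
  have ha1 := aa_gt
  have ha2 := aa_lt
  have hX0 : 0 < X := by linarith
  have h1 := abs_kap_le (X := 3 * X) (by linarith)
  have h2 := le_Iw hX0
  have h3 : kap (3 * X) ^ 2 ≤ 5 / 6 * ((3 : ℝ) ^ (-(1 / 3) : ℝ) * (aa * X) ^ (-(1 / 3) : ℝ)) *
      (π * exp (-(10 * aa * X))) := by
    rw [← sq_abs]
    refine (pow_le_pow_left₀ (abs_nonneg _) h1 2).trans (le_of_eq ?_)
    rw [mul_pow, mul_pow, mul_pow, Real.sq_sqrt Real.pi_pos.le, ← Real.exp_nat_mul,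
      ← Real.rpow_natCast, ← Real.rpow_mul (by norm_num), ← Real.rpow_natCast,
      ← Real.rpow_mul (by positivity), ← Real.mul_rpow (by norm_num) (by positivity)]
    have e1 : (6 / 5 : ℝ) ^ (-(1 / 2) * ((2 : ℕ) : ℝ)) = 5 / 6 := by
      rw [show (-(1 / 2) * ((2 : ℕ) : ℝ) : ℝ) = -1 by norm_num, Real.rpow_neg_one]; norm_num
    have e2 : aa * (3 * X) = 3 * (aa * X) := by ring
    have e3 : (-(1 / 6) * ((2 : ℕ) : ℝ) : ℝ) = -(1 / 3) := by norm_num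
    have e4 : (((2 : ℕ) : ℝ) * -(5 / 3 * aa * (3 * X))) = -(10 * aa * X) := by push_cast; ring
    rw [e1, e2, e3, e4]
  have e5 : (3 : ℝ) ^ (2 / 3 : ℝ) = 3 * (3 : ℝ) ^ (-(1 / 3) : ℝ) := by
    have h := Real.rpow_add (show (0 : ℝ) < 3 by norm_num) 1 (-(1 / 3))
    rw [Real.rpow_one] at h
    rw [← h]; norm_num
  have h4 : (aa * X) ^ (-(1 / 3) : ℝ) ≤ 1.1224 * (aa * X + 1 / 2) ^ (-(1 / 3) : ℝ) := by
    have e6 : (1.1224 : ℝ) = ((1.1224 ^ 3)⁻¹ : ℝ) ^ (-(1 / 3) : ℝ) := by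
      rw [Real.inv_rpow (by norm_num), Real.rpow_neg (by norm_num), inv_inv,
        ← Real.rpow_natCast, ← Real.rpow_mul (by norm_num)]
      norm_num
    rw [e6, ← Real.mul_rpow (by positivity) (by positivity)]
    refine Real.rpow_le_rpow_of_nonpos (by positivity) ?_ (by norm_num)
    have h7 : 1.2091 ≤ aa * X := by nlinarith
    norm_num
    linarith
  have h5 : 4 * aa * X + 2 ≤ 6.8372 * X := by nlinarith
  have hD : 0 < 4 * aa * X + 2 := by positivity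
  have h6 : 5 / 6 * ((3 : ℝ) ^ (-(1 / 3) : ℝ) * (aa * X) ^ (-(1 / 3) : ℝ)) ≤
      2.132 * X * ((3 * (3 : ℝ) ^ (-(1 / 3) : ℝ)) * (aa * X + 1 / 2) ^ (-(1 / 3) : ℝ) /
        (4 * aa * X + 2)) := by
    rw [← mul_div_assoc, le_div_iff₀ hD]
    have q1 : 0 < (3 : ℝ) ^ (-(1 / 3) : ℝ) := by positivity
    have q2 : 0 < (aa * X + 1 / 2) ^ (-(1 / 3) : ℝ) := by positivity
    calc 5 / 6 * ((3 : ℝ) ^ (-(1 / 3) : ℝ) * (aa * X) ^ (-(1 / 3) : ℝ)) * (4 * aa * X + 2)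
        ≤ 5 / 6 * ((3 : ℝ) ^ (-(1 / 3) : ℝ) * (1.1224 * (aa * X + 1 / 2) ^ (-(1 / 3) : ℝ))) *
          (6.8372 * X) := by gcongr
      _ = (5 / 6 * 1.1224 * 6.8372) * (X * ((3 : ℝ) ^ (-(1 / 3) : ℝ) *
          (aa * X + 1 / 2) ^ (-(1 / 3) : ℝ))) := by ring
      _ ≤ (2.132 * 3) * (X * ((3 : ℝ) ^ (-(1 / 3) : ℝ) *
          (aa * X + 1 / 2) ^ (-(1 / 3) : ℝ))) :=
          mul_le_mul_of_nonneg_right (by norm_num) (by positivity)
      _ = _ := by ring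
  calc kap (3 * X) ^ 2 ≤ 5 / 6 * ((3 : ℝ) ^ (-(1 / 3) : ℝ) * (aa * X) ^ (-(1 / 3) : ℝ)) *
      (π * exp (-(10 * aa * X))) := h3
    _ ≤ (2.132 * X * ((3 * (3 : ℝ) ^ (-(1 / 3) : ℝ)) * (aa * X + 1 / 2) ^ (-(1 / 3) : ℝ) /
        (4 * aa * X + 2))) * (π * exp (-(10 * aa * X))) := by gcongr
    _ = 2.132 * X * exp (-(6 * aa * X)) * (3 ^ (2 / 3 : ℝ) * (aa * X + 1 / 2) ^ (-(1 / 3) : ℝ) * π *
        exp (-(4 * aa * X)) / (4 * aa * X + 2)) := by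
        rw [e5, show -(10 * aa * X) = -(6 * aa * X) + -(4 * aa * X) by ring, Real.exp_add]; ring
    _ ≤ _ := by gcongr

end Vale.Agent.P006.SG
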