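import Vale.Agent.P006.SG.Inv2

/-!
P006, block SG: Parseval bound for the coefficients of the theta function.
-/

open MeasureTheory Filter Topology Set
open scoped Real ENNReal

namespace Vale.Agent.P006.SG

open PO H570 H9 R1

/-- Gram hypothesis -/
def GramHyp (c₀ : ℝ) : Prop := ∀ ε : ℝ, 0 < ε → ∀ᶠ X : ℝ in atTop,
  (∫ w in P3, fX X (1 / w.v) * (starRingEnd ℂ) (E 1 R1.eta (fX X) w) ∂muH).re ≤
    (H9.area * c₀ + ε) * lX X ^ 2

section
variable {θ : O → ℂ} {C : ℝ} {A : ℕ} {δ : ℝ} {c₀ : ℝ}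

theorem norm_Th_le (hθ : SharpHyp θ C A δ) (c₀ : ℝ) {v : ℝ} (hv : 0 < v) (z : ℂ) :
    ‖Th c₀ θ z v‖ ≤ ∑' k, ‖Tk0 c₀ θ v k‖ := by
  rw [Th_eq hθ c₀ hv]
  refine tsum_of_norm_bounded (summable_Tk0 hθ c₀ hv).hasSum fun k => ?_
  rw [norm_mul, norm_eT, mul_one]

theorem continuous_Th_z (hθ : SharpHyp θ C A δ) (c₀ : ℝ) {v : ℝ} (hv : 0 < v) :
    Continuous fun z => Th c₀ θ z v := by
  have h := continuous_ThH hθ c₀
  have h2 : Continuous fun z : ℂ => H3.mk z v hv :=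
    Continuous.subtype_mk (by fun_prop) _
  exact h.comp h2

/-- Bessel's inequality for fixed height -/
theorem bessel_Th (hθ : SharpHyp θ C A δ) (c₀ : ℝ) {v : ℝ} (hv : 0 < v) (s : Finset O) :
    ENNReal.ofReal (H9.area * ∑ k ∈ s, ‖Tk0 c₀ θ v k‖ ^ 2) ≤
      ∫⁻ z in H9.box, ‖Th c₀ θ z v‖ₑ ^ 2 := by
  have ha := area_pos
  have hfin : IsFiniteMeasure ((volume : Measure ℂ).restrict FC.B) :=
    ⟨by rw [Measure.restrict_apply_univ]; exact FC.volume_B_lt_top⟩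
  have hc := continuous_Th_z hθ c₀ hv
  set M := ∑' k, ‖Tk0 c₀ θ v k‖ with hM
  have hM0 : 0 ≤ M := tsum_nonneg fun _ => norm_nonneg _
  have hmem : MemLp (fun p : ℂ × ℝ => Th c₀ θ p.1 v) 2 (FC.mB (Measure.dirac (0 : ℝ))) :=
    MemLp.of_bound (C := M) (hc.comp continuous_fst).aestronglyMeasurable
      (Eventually.of_forall fun p => norm_Th_le hθ c₀ hv p.1)
  have h1 := FC.bessel_strip hmem s
  have e1 : ∀ ν : O, ∫ p : ℂ × ℝ, Th c₀ θ p.1 v * FC.En ν p.1 ∂(FC.mB (Measure.dirac (0 : ℝ))) =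
      (H9.area : ℂ) * Tk0 c₀ θ v ν := by
    intro ν
    have h2 := integral_fun_fst (μ := (volume : Measure ℂ).restrict FC.B)
      (ν := Measure.dirac (0 : ℝ)) (fun z => Th c₀ θ z v * FC.En ν z)
    rw [← fourier_coeff (summable_Tk0 hθ c₀ hv) ν]
    simp only [probReal_univ, one_smul] at h2
    refine h2.trans ?_
    refine integral_congr_ae (Eventually.of_forall fun z => ?_)
    simp only
    rw [Th_eq hθ c₀ hv]
  have e2 : ∫ p : ℂ × ℝ, ‖Th c₀ θ p.1 v‖ ^ 2 ∂(FC.mB (Measure.dirac (0 : ℝ))) =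
      ∫ z in FC.B, ‖Th c₀ θ z v‖ ^ 2 := by
    have h2 := integral_fun_fst (μ := (volume : Measure ℂ).restrict FC.B)
      (ν := Measure.dirac (0 : ℝ)) (fun z => ‖Th c₀ θ z v‖ ^ 2)
    simpa only [probReal_univ, one_smul] using h2
  simp only [e1, e2, volume_real_B, probReal_univ, mul_one] at h1
  have h3 : H9.area * ∑ k ∈ s, ‖Tk0 c₀ θ v k‖ ^ 2 ≤ ∫ z in FC.B, ‖Th c₀ θ z v‖ ^ 2 := by
    have h4 : ∑ k ∈ s, ‖(H9.area : ℂ) * Tk0 c₀ θ v k‖ ^ 2 =
        H9.area * (H9.area * ∑ k ∈ s, ‖Tk0 c₀ θ v k‖ ^ 2) := by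
      rw [Finset.mul_sum, Finset.mul_sum]
      refine Finset.sum_congr rfl fun k _ => ?_
      rw [norm_mul, Complex.norm_real, Real.norm_of_nonneg ha.le]
      ring
    rw [h4] at h1
    exact le_of_mul_le_mul_left h1 ha
  refine (ENNReal.ofReal_le_ofReal h3).trans (le_of_eq ?_)
  rw [ofReal_integral_eq_lintegral_ofReal]
  · rw [B_eq_box]
    refine lintegral_congr fun z => ?_
    rw [ENNReal.ofReal_pow (norm_nonneg _), ofReal_norm]
  · refine Integrable.of_bound (C := M ^ 2) (hc.norm.pow 2).aestronglyMeasurable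
      (Eventually.of_forall fun z => ?_)
    rw [Real.norm_of_nonneg (by positivity)]
    have := norm_Th_le hθ c₀ hv z
    gcongr
  · exact Eventually.of_forall fun z => by positivity

/-- **the Parseval bound** -/
theorem pars_le (hθ : SharpHyp θ C A δ) (hδ : 0 < δ) (hδ1 : δ < 1 / 3) (h0 : ConstHyp c₀)
    (hc₀ : 0 ≤ c₀) (hG : GramHyp c₀) :
    ∫⁻ w in Ptop (1 / 3), ‖ThH c₀ θ w‖ₑ ^ 2 ∂muH ≤ ENNReal.ofReal (H9.area * c₀) := by
  have ha := area_pos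
  refine lintegral_lim_le (F := fun X w => E 1 R1.eta (fX X) (KU.Smat O • w))
    (fun X => (measurable_E 1 R1.eta (measurable_fX X)).comp (measurable_const_smul _)) _
    (tendsto_E_S hθ hδ hδ1 h0) (by positivity) (fun ε hε => ?_)
  filter_upwards [hG ε hε, eventually_gt_atTop 0] with X hX hX0
  exact (strip_E_one rowChar_eta (measurable_fX X) (decay_fX hX0) (KU.Smat O) le_rfl).trans
    (ENNReal.ofReal_le_ofReal hX)

/-- **hypothesis (P)** of the sign theorem -/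
theorem hP_of (hθ : SharpHyp θ C A δ) (hδ : 0 < δ) (hδ1 : δ < 1 / 3) (h0 : ConstHyp c₀)
    (hc₀ : 0 ≤ c₀) (hG : GramHyp c₀) (s : Finset O) (hs : (0 : O) ∉ s) :
    c₀ ^ 2 * (3 / 2 * 3 ^ (2 / 3 : ℝ)) + ∑ m ∈ s, ‖(kap0 : ℂ) * θ m‖ ^ 2 * Iw (√(N m)) ≤ c₀ := by
  classical
  have ha := area_pos
  have h1 := pars_le hθ hδ hδ1 h0 hc₀ hG
  -- the integrand
  set h : ℝ → ℝ := fun v => c₀ ^ 2 * v ^ (-(5 / 3) : ℝ) +
    ∑ m ∈ s, ‖(kap0 : ℂ) * θ m‖ ^ 2 * (v ^ (-(5 / 3) : ℝ) * G ((aa * √(N m) * v) ^ 2) ^ 2) with hh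
  have hne : ∀ m ∈ s, m ≠ 0 := fun m hm h => hs (h ▸ hm)
  have hsN : ∀ m ∈ s, 0 < √(N m : ℝ) := fun m hm => by linarith [sqrt_N_one_le (hne m hm)]
  have hint0 : IntegrableOn (fun v : ℝ => c₀ ^ 2 * v ^ (-(5 / 3) : ℝ)) (Ioi (1 / 3)) :=
    (integrableOn_Ioi_rpow_of_lt (by norm_num) (by norm_num)).const_mul _
  have hint1 : ∀ m ∈ s, IntegrableOn (fun v : ℝ => ‖(kap0 : ℂ) * θ m‖ ^ 2 *
      (v ^ (-(5 / 3) : ℝ) * G ((aa * √(N m) * v) ^ 2) ^ 2)) (Ioi (1 / 3)) := fun m hm =>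
    (integrableOn_wker (hsN m hm)).const_mul _
  have hint : IntegrableOn h (Ioi (1 / 3)) := hint0.add (integrable_finsetSum s hint1)
  have hI : ∫ v in Ioi (1 / 3 : ℝ), h v = c₀ ^ 2 * (3 / 2 * 3 ^ (2 / 3 : ℝ)) +
      ∑ m ∈ s, ‖(kap0 : ℂ) * θ m‖ ^ 2 * Iw (√(N m)) := by
    rw [hh, integral_add hint0 (integrable_finsetSum s hint1), integral_finsetSum s hint1,
      integral_const_mul, integral_Ioi_rpow_of_lt (by norm_num) (by norm_num)]
    congr 1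
    · congr 1
      have e : (1 / 3 : ℝ) ^ (-(5 / 3) + 1 : ℝ) = 3 ^ (2 / 3 : ℝ) := by
        rw [one_div, Real.inv_rpow (by norm_num), ← Real.rpow_neg (by norm_num)]
        norm_num
      rw [e]; ring
    · refine Finset.sum_congr rfl fun m _ => ?_
      rw [integral_const_mul, Iw]
  have hkey : ∀ v : ℝ, 1 / 3 < v → ENNReal.ofReal (H9.area * h v) ≤
      ENNReal.ofReal ((v ^ 3)⁻¹) * ∫⁻ z in H9.box, ‖Th c₀ θ z v‖ₑ ^ 2 := by
    intro v hv
    have hv0 : 0 < v := by linarith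
    have h2 := bessel_Th hθ c₀ hv0 (insert 0 s)
    have e : H9.area * h v =
        (v ^ 3)⁻¹ * (H9.area * ∑ k ∈ insert 0 s, ‖Tk0 c₀ θ v k‖ ^ 2) := by
      rw [Finset.sum_insert hs]
      have e0 : ‖Tk0 c₀ θ v 0‖ ^ 2 = c₀ ^ 2 * (v ^ (2 / 3 : ℝ)) ^ 2 := by
        rw [Tk0, if_pos rfl, Complex.norm_real, Real.norm_of_nonneg (by positivity)]; ring
      have e1 : ∀ m ∈ s, ‖Tk0 c₀ θ v m‖ ^ 2 = ‖(kap0 : ℂ) * θ m‖ ^ 2 *
          ((v ^ (2 / 3 : ℝ)) ^ 2 * G ((aa * √(N m) * v) ^ 2) ^ 2) := by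
        intro m hm
        have hG0 : 0 ≤ v ^ (2 / 3 : ℝ) * G ((aa * √(N m) * v) ^ 2) :=
          mul_nonneg (Real.rpow_nonneg hv0.le _) (show 0 ≤ G _ from F_nonneg _ _)
        rw [Tk0, if_neg (hne m hm), Tk, norm_mul, Complex.norm_real, Real.norm_of_nonneg hG0]
        ring
      have e2 : v ^ (-(5 / 3) : ℝ) = (v ^ 3)⁻¹ * (v ^ (2 / 3 : ℝ)) ^ 2 := by
        rw [← Real.rpow_natCast v 3, ← Real.rpow_natCast (v ^ (2 / 3 : ℝ)) 2,
          ← Real.rpow_mul hv0.le, ← Real.rpow_neg hv0.le, ← Real.rpow_add hv0]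
        norm_num
      rw [e0, Finset.sum_congr rfl e1, hh]
      simp only [e2]
      rw [mul_add, mul_add, mul_add, Finset.mul_sum, Finset.mul_sum, Finset.mul_sum]
      congr 1
      · ring
      · refine Finset.sum_congr rfl fun m _ => ?_
        ring
    rw [e, ENNReal.ofReal_mul (by positivity)]
    gcongr
  have h2 : ∫⁻ v in Ioi (1 / 3 : ℝ), ENNReal.ofReal (H9.area * h v) ≤
      ENNReal.ofReal (H9.area * c₀) := by
    refine le_trans ?_ h1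
    have hm : Measurable fun w : H3 => ‖ThH c₀ θ w‖ₑ ^ 2 :=
      (continuous_ThH hθ c₀).measurable.enorm.pow_const 2
    have hmt : MeasurableSet {w : H3 | 1 / 3 < w.v} := measurableSet_lt measurable_const H3.measurable_v
    have e1 : ∫⁻ w in Ptop (1 / 3), ‖ThH c₀ θ w‖ₑ ^ 2 ∂muH =
        ∫⁻ w in P3, {w : H3 | 1 / 3 < w.v}.indicator (fun w => ‖ThH c₀ θ w‖ₑ ^ 2) w ∂muH := by
      rw [lintegral_indicator hmt, Measure.restrict_restrict hmt, Ptop, inter_comm]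
    rw [e1, lintegral_P3 (hm.indicator hmt)]
    calc ∫⁻ v in Ioi (1 / 3 : ℝ), ENNReal.ofReal (H9.area * h v)
        ≤ ∫⁻ v in Ioi (1 / 3 : ℝ), ENNReal.ofReal ((v ^ 3)⁻¹) * ∫⁻ z in H9.box,
          {w : H3 | 1 / 3 < w.v}.indicator (fun w => ‖ThH c₀ θ w‖ₑ ^ 2) (H3.of z v) := by
          refine setLIntegral_mono' measurableSet_Ioi fun v hv => ?_
          have hv : (1 / 3 : ℝ) < v := hv
          have hv0 : 0 < v := by linarith
          refine (hkey v hv).trans (le_of_eq ?_)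
          congr 1
          refine lintegral_congr fun z => ?_
          have hm2 : H3.of z v ∈ {w : H3 | 1 / 3 < w.v} := by
            show 1 / 3 < (H3.of z v).v
            rw [H3.of_v hv0]; exact hv
          rw [indicator_of_mem hm2, ThH, H3.of_z, H3.of_v hv0]
      _ ≤ _ := lintegral_mono_set (Ioi_subset_Ioi (by norm_num))
  have hh0 : ∀ v ∈ Ioi (1 / 3 : ℝ), 0 ≤ h v := by
    intro v hv
    have hv : (1 / 3 : ℝ) < v := hv
    have hv0 : 0 < v := by linarith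
    refine add_nonneg (by positivity) (Finset.sum_nonneg fun m _ => ?_)
    positivity
  rw [← ofReal_integral_eq_lintegral_ofReal (hint.const_mul _)
    ((ae_restrict_iff' measurableSet_Ioi).2 (Eventually.of_forall fun v hv =>
      mul_nonneg ha.le (hh0 v hv))), integral_const_mul,
    ENNReal.ofReal_le_ofReal_iff (by positivity), hI] at h2
  exact le_of_mul_le_mul_left h2 ha

end

end Vale.Agent.P006.SG
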