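import Vale.Agent.P006.SG.Limit

/-!
P006, block SG: the theta function `Th` and the pointwise limit of the normalised Eisenstein series.
-/

open MeasureTheory Filter Topology Set
open scoped Real

namespace Vale.Agent.P006.SG

open PO H570

/-- the coefficient functions -/
noncomputable def Tk (θ : O → ℂ) (v : ℝ) (k : O) : ℂ :=
  kap0 * θ k * ((v ^ (2 / 3 : ℝ) * G ((aa * √(N k) * v) ^ 2) : ℝ) : ℂ)

/-- the theta function -/
noncomputable def Th (c₀ : ℝ) (θ : O → ℂ) (z : ℂ) (v : ℝ) : ℂ :=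
  ((c₀ * v ^ (2 / 3 : ℝ) : ℝ) : ℂ) +
    ∑' k : {k : O // k ≠ 0}, Tk θ v k * eT (z * (toC (k : O) / (3 * toC rt3)))

section
variable {θ : O → ℂ} {C : ℝ} {A : ℕ} {δ : ℝ}

theorem SharpHyp.nonneg (hθ : SharpHyp θ C A δ) : 0 ≤ C := by
  have h := (norm_nonneg _).trans (hθ 1 one_ne_zero 1 one_pos)
  simpa using h

/-- polynomial bound of the limits -/
theorem SharpHyp.bound (hθ : SharpHyp θ C A δ) : ∃ K : ℝ, 0 ≤ K ∧ ∀ k : O, k ≠ 0 →
    ‖θ k‖ ≤ K * (N k : ℝ) ^ A := by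
  classical
  have hC := hθ.nonneg
  refine ⟨(nb 1).card + C, by positivity, fun k hk => ?_⟩
  have h := hθ k hk 1 one_pos
  simp only [Real.one_rpow, Complex.ofReal_one, mul_one] at h
  have hN : (1 : ℝ) ≤ N k := by exact_mod_cast N_pos hk
  have hNA : 1 ≤ (N k : ℝ) ^ A := one_le_pow₀ hN
  have h1 : ‖PS (gt k) 1‖ ≤ (nb 1).card := by
    rw [PS]
    refine (norm_sum_le _ _).trans ?_
    have h2 : ∀ c ∈ (nb 1).filter Primary, ‖gt k c‖ ≤ 1 := fun c hc =>
      (norm_gt_le k c).trans ((mem_nb zero_le_one).1 (Finset.mem_filter.1 hc).1)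
    refine (Finset.sum_le_card_nsmul _ _ 1 h2).trans ?_
    rw [nsmul_eq_mul, mul_one]
    exact_mod_cast Finset.card_filter_le _ _
  have h3 : ‖(6 / 5 : ℂ) * θ k‖ ≤ (nb 1).card + C * (N k : ℝ) ^ A := by
    calc ‖(6 / 5 : ℂ) * θ k‖ = ‖PS (gt k) 1 - (PS (gt k) 1 - 6 / 5 * θ k)‖ := by congr 1; ring
      _ ≤ ‖PS (gt k) 1‖ + ‖PS (gt k) 1 - 6 / 5 * θ k‖ := norm_sub_le _ _
      _ ≤ _ := add_le_add h1 h
  rw [norm_mul] at h3
  norm_num at h3
  have h4 : 0 ≤ ‖θ k‖ := norm_nonneg _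
  have h5 : ((nb 1).card : ℝ) ≤ (nb 1).card * (N k : ℝ) ^ A :=
    le_mul_of_one_le_right (Nat.cast_nonneg _) hNA
  nlinarith

theorem G_le_exp : ∃ K : ℝ, 0 ≤ K ∧ ∀ y : ℝ, 0 ≤ y → G y ≤ K * Real.exp (-√y) :=
  F_le_exp (by norm_num)

/-- bound of the coefficient functions, uniform for `v ≥ v0` -/
theorem norm_Tk_le (hθ : SharpHyp θ C A δ) : ∃ K : ℝ, 0 ≤ K ∧ ∀ (v0 v : ℝ) (k : O), 0 < v0 → v0 ≤ v →
    k ≠ 0 → ‖Tk θ v k‖ ≤ K * v ^ (2 / 3 : ℝ) * ((N k : ℝ) ^ A * Real.exp (-(aa * v0 * √(N k)))) := by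
  obtain ⟨K1, hK1, h1⟩ := hθ.bound
  obtain ⟨K2, hK2, h2⟩ := G_le_exp
  have hk0 := kap0_pos
  have ha := aa_pos
  refine ⟨kap0 * K1 * K2, by positivity, fun v0 v k hv0 hv hk => ?_⟩
  have hv1 : 0 < v := hv0.trans_le hv
  have hs : 0 ≤ √(N k : ℝ) := Real.sqrt_nonneg _
  have hG0 : 0 ≤ v ^ (2 / 3 : ℝ) * G ((aa * √(N k) * v) ^ 2) :=
    mul_nonneg (Real.rpow_nonneg hv1.le _) (show 0 ≤ G _ from F_nonneg _ _)
  rw [Tk, norm_mul, norm_mul, Complex.norm_real, Complex.norm_real,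
    Real.norm_of_nonneg kap0_pos.le, Real.norm_of_nonneg hG0]
  have h3 : G ((aa * √(N k) * v) ^ 2) ≤ K2 * Real.exp (-(aa * v0 * √(N k))) := by
    refine (h2 _ (by positivity)).trans ?_
    rw [Real.sqrt_sq (by positivity)]
    refine mul_le_mul_of_nonneg_left (Real.exp_le_exp.2 ?_) hK2
    have : v0 * (aa * √(N k)) ≤ v * (aa * √(N k)) := mul_le_mul_of_nonneg_right hv (by positivity)
    linarith
  calc kap0 * ‖θ k‖ * (v ^ (2 / 3 : ℝ) * G ((aa * √(N k) * v) ^ 2))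
      ≤ kap0 * (K1 * (N k : ℝ) ^ A) * (v ^ (2 / 3 : ℝ) * (K2 * Real.exp (-(aa * v0 * √(N k))))) := by
        have := h1 k hk
        have hG : 0 ≤ G ((aa * √(N k) * v) ^ 2) := F_nonneg _ _
        gcongr
    _ = _ := by ring

theorem summable_Tk (hθ : SharpHyp θ C A δ) {v : ℝ} (hv : 0 < v) :
    Summable fun k : {k : O // k ≠ 0} => ‖Tk θ v k‖ := by
  obtain ⟨K, _, hK⟩ := norm_Tk_le hθ
  have ha := aa_pos
  have h1 : Summable fun k : {k : O // k ≠ 0} => K * v ^ (2 / 3 : ℝ) *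
      ((N (k : O) : ℝ) ^ A * Real.exp (-(aa * v * √(N (k : O))))) :=
    Summable.mul_left _ ((summable_pow_exp_sqrt A (show 0 < aa * v by positivity)).subtype _)
  exact Summable.of_nonneg_of_le (fun _ => norm_nonneg _) (fun k => hK v v k hv le_rfl k.2) h1

theorem summable_Tk_eT (hθ : SharpHyp θ C A δ) {v : ℝ} (hv : 0 < v) (z : ℂ) :
    Summable fun k : {k : O // k ≠ 0} => Tk θ v k * eT (z * (toC (k : O) / (3 * toC rt3))) := by
  refine Summable.of_norm_bounded (summable_Tk hθ hv) fun k => ?_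
  rw [norm_mul, norm_eT, mul_one]

/-- splitting off the constant term of a sum over `O` -/
theorem hasSum_split_zero {f : O → ℂ} {S : ℂ} (h : HasSum f S) :
    HasSum (fun k : {k : O // k ≠ 0} => f k) (S - f 0) := by
  classical
  have h1 := h.update 0 0
  have h2 : HasSum (Function.update f 0 0) (S - f 0) := by
    have e : S - f 0 = 0 - f 0 + S := by ring
    rw [e]
    exact h1
  have h3 := (hasSum_subtype_iff_of_support_subset (s := {k : O | k ≠ 0})
    (f := Function.update f 0 0) (by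
      intro k hk hk0
      have hk0 : k = 0 := by simpa using hk0
      subst hk0
      simp at hk)).2 h2
  have h4 : (fun k : {k : O // k ≠ 0} => f k) =
      ((Function.update f 0 0) ∘ (Subtype.val : {k : O | k ≠ 0} → O)) := by
    funext k
    have : (k : O) ≠ 0 := k.2
    simp [Function.update_of_ne this]
  rw [h4]
  exact h3

/-- **Pointwise limit** -/
theorem tendsto_E0 (hθ : SharpHyp θ C A δ) (hδ : 0 < δ) (hδ1 : δ < 1 / 3) {c₀ v : ℝ} (hv : 0 < v)
    (h0 : Tendsto (fun X : ℝ => bk X v 0) atTop (𝓝 ((c₀ * v ^ (2 / 3 : ℝ) : ℝ) : ℂ))) (z : ℂ) :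
    Tendsto (fun X : ℝ => E0 X v z / lX X) atTop (𝓝 (Th c₀ θ z v)) := by
  have ha := aa_pos
  have hk0 := kap0_pos
  obtain ⟨K, hK0, hK⟩ := Hf_le hδ.le hδ1
  have hC := hθ.nonneg
  -- the tail
  set g : {k : O // k ≠ 0} → ℝ := fun k => kap0 * (C * (N (k : O) : ℝ) ^ A * (v ^ (2 / 3 + δ) *
    (K * Real.exp (-(aa * v / 2 * √(N (k : O))))))) with hg
  have hgs : Summable g := by
    have h1 : Summable fun k : {k : O // k ≠ 0} => kap0 * C * v ^ (2 / 3 + δ) * K *
        ((N (k : O) : ℝ) ^ A * Real.exp (-(aa * v / 2 * √(N (k : O))))) :=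
      Summable.mul_left _ ((summable_pow_exp_sqrt A (show 0 < aa * v / 2 by positivity)).subtype _)
    refine h1.congr fun k => ?_
    simp only [hg]; ring
  have hdiff : ∀ X : ℝ, 0 < X → ‖E0 X v z / lX X - Th c₀ θ z v‖ ≤
      ‖bk X v 0 - ((c₀ * v ^ (2 / 3 : ℝ) : ℝ) : ℂ)‖ + X ^ (-δ) * ∑' k, g k := by
    intro X hX
    have h1 := hasSum_split_zero (hasSum_E0_div hX hv z)
    have h2 := (summable_Tk_eT hθ hv z).hasSum
    have h3 := h1.sub h2
    simp only [map_zero, zero_div, mul_zero, eT_zero, mul_one] at h3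
    have h4 : E0 X v z / lX X - Th c₀ θ z v = (bk X v 0 - ((c₀ * v ^ (2 / 3 : ℝ) : ℝ) : ℂ)) +
        (E0 X v z / lX X - bk X v 0 -
          ∑' k : {k : O // k ≠ 0}, Tk θ v k * eT (z * (toC (k : O) / (3 * toC rt3)))) := by
      rw [Th]; ring
    rw [h4]
    refine (norm_add_le _ _).trans (add_le_add le_rfl ?_)
    rw [← h3.tsum_eq, ← tsum_mul_left]
    refine tsum_of_norm_bounded (hgs.mul_left (X ^ (-δ))).hasSum fun k => ?_
    rw [← sub_mul, norm_mul, norm_eT, mul_one]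
    refine (bk_asymp hθ hX hv k.2).trans ?_
    have hNk : 0 < (N (k : O) : ℝ) := by exact_mod_cast N_pos k.2
    have h5 : Hf δ ((aa * √(N (k : O)) * v) ^ 2) ≤ K * Real.exp (-(aa * v / 2 * √(N (k : O)))) := by
      refine (hK _ (by positivity)).trans (le_of_eq ?_)
      rw [Real.sqrt_sq (by positivity)]
      congr 2; ring
    calc kap0 * (C * (N (k : O) : ℝ) ^ A * (v ^ (2 / 3 + δ) * X ^ (-δ) *
          Hf δ ((aa * √(N (k : O)) * v) ^ 2)))
        ≤ kap0 * (C * (N (k : O) : ℝ) ^ A * (v ^ (2 / 3 + δ) * X ^ (-δ) *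
          (K * Real.exp (-(aa * v / 2 * √(N (k : O))))))) := by gcongr
      _ = _ := by simp only [hg]; ring
  rw [tendsto_iff_norm_sub_tendsto_zero]
  have hlim : Tendsto (fun X : ℝ => ‖bk X v 0 - ((c₀ * v ^ (2 / 3 : ℝ) : ℝ) : ℂ)‖ +
      X ^ (-δ) * ∑' k, g k) atTop (𝓝 (0 + 0 * ∑' k, g k)) :=
    (tendsto_iff_norm_sub_tendsto_zero.1 h0).add ((tendsto_rpow_neg_atTop hδ).mul_const _)
  rw [zero_mul, add_zero] at hlim
  refine tendsto_of_tendsto_of_tendsto_of_le_of_le' tendsto_const_nhds hlim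
    (Eventually.of_forall fun _ => norm_nonneg _) ?_
  filter_upwards [eventually_gt_atTop 0] with X hX using hdiff X hX

/-- continuity of the theta function -/
theorem continuousOn_Th (hθ : SharpHyp θ C A δ) (c₀ : ℝ) :
    ContinuousOn (fun p : ℂ × ℝ => Th c₀ θ p.1 p.2) {p | 0 < p.2} := by
  have ha := aa_pos
  obtain ⟨K, hK0, hK⟩ := norm_Tk_le hθ
  -- continuity on each `{v0 < v < v1}`
  have hloc : ∀ v0 v1 : ℝ, 0 < v0 → ContinuousOn (fun p : ℂ × ℝ => Th c₀ θ p.1 p.2)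
      {p | v0 < p.2 ∧ p.2 < v1} := by
    intro v0 v1 hv0
    unfold Th
    refine ContinuousOn.add ?_ ?_
    · refine Complex.continuous_ofReal.comp_continuousOn (continuousOn_const.mul ?_)
      intro p hp
      have hp2 : 0 < p.2 := hv0.trans hp.1
      exact (ContinuousAt.comp (f := fun p : ℂ × ℝ => p.2) (g := fun v : ℝ => v ^ (2 / 3 : ℝ))
        (Real.continuousAt_rpow_const _ _ (Or.inl hp2.ne')) continuousAt_snd).continuousWithinAt
    · refine continuousOn_tsum (u := fun k : {k : O // k ≠ 0} => K * v1 ^ (2 / 3 : ℝ) *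
        ((N (k : O) : ℝ) ^ A * Real.exp (-(aa * v0 * √(N (k : O)))))) ?_ ?_ ?_
      · intro k
        unfold Tk
        refine ContinuousOn.mul (continuousOn_const.mul ?_) ?_
        · refine Complex.continuous_ofReal.comp_continuousOn (ContinuousOn.mul ?_ ?_)
          · intro p hp
            have hp2 : 0 < p.2 := hv0.trans hp.1
            exact (ContinuousAt.comp (f := fun p : ℂ × ℝ => p.2)
              (g := fun v : ℝ => v ^ (2 / 3 : ℝ))
              (Real.continuousAt_rpow_const _ _ (Or.inl hp2.ne')) continuousAt_snd).continuousWithinAt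
          · exact continuousOn_G.comp (by fun_prop) fun p _ => show (0 : ℝ) ≤ _ by positivity
        · exact (continuous_eT.comp (by fun_prop)).continuousOn
      · exact Summable.mul_left _ ((summable_pow_exp_sqrt A
          (show 0 < aa * v0 by positivity)).subtype _)
      · intro k p hp
        have hp2 : 0 < p.2 := hv0.trans hp.1
        rw [norm_mul, norm_eT, mul_one]
        refine (hK v0 p.2 k hv0 hp.1.le k.2).trans ?_
        have : p.2 ^ (2 / 3 : ℝ) ≤ v1 ^ (2 / 3 : ℝ) :=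
          Real.rpow_le_rpow hp2.le hp.2.le (by norm_num)
        gcongr
  intro p hp
  have hp : 0 < p.2 := hp
  have h1 := hloc (p.2 / 2) (2 * p.2) (by positivity) p ⟨by linarith, by linarith⟩
  have hopen : IsOpen {q : ℂ × ℝ | p.2 / 2 < q.2 ∧ q.2 < 2 * p.2} :=
    (isOpen_lt continuous_const continuous_snd).inter (isOpen_lt continuous_snd continuous_const)
  exact (h1.continuousAt (hopen.mem_nhds ⟨by linarith, by linarith⟩)).continuousWithinAt

end

end Vale.Agent.P006.SG
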