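import Vale.Agent.P006.SG.Bridge

/-!
P006, block SG: invariance of the Eisenstein series under `z ↦ z + 1`.
-/

open MeasureTheory Filter Topology Set
open scoped Real

namespace Vale.Agent.P006.SG

open PO H570 H9 R1

/-- the supplementary part of the symbol is invariant under `d ↦ d + c` -/
theorem sym_supp_add {d c0 : O} {m n x y : ℤ} (h1 : d.re = 1 + 3 * m) (h2 : d.im = 3 * n)
    (hc0 : Primary c0) {u : O} (hu : IsUnit u) (k : ℕ)
    (hre : (u * lam ^ k * c0).re = 3 * x) (him : (u * lam ^ k * c0).im = 3 * y) :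
    sym (u * lam ^ k) (d + u * lam ^ k * c0) = sym (u * lam ^ k) d := by
  -- reduction to exponents
  have key : ∀ (j : ℕ), (3 : ℤ) ∣ -(x + y) * j + x * k →
      sym (om ^ j * lam ^ k) (d + u * lam ^ k * c0) = sym (om ^ j * lam ^ k) d := by
    intro j hj
    rw [KU.sym_om_pow_lam_pow (m := m) (n := n) h1 h2,
      KU.sym_om_pow_lam_pow (m := m + x) (n := n + y)
        (by rw [QuadraticAlgebra.re_add, h1, hre]; ring)
        (by rw [QuadraticAlgebra.im_add, h2, him]; ring)]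
    congr 1
    refine omU_zpow_congr ?_
    refine Int.emod_emod_of_dvd _ (dvd_refl 3) ▸ ?_
    rw [Int.emod_emod_of_dvd _ (dvd_refl 3)]
    obtain ⟨t, ht⟩ := hj
    have e : -(m + x + (n + y)) * (j : ℤ) + (m + x) * k = (-(m + n) * j + m * k) + 3 * t := by
      rw [← ht]; ring
    rw [e, Int.add_mul_emod_self_left]
  have hneg : ∀ (w b : O), sym (-w * lam ^ k) b = sym (w * lam ^ k) b := by
    intro w b
    rw [neg_mul, sym_neg_left]
  have hp := primary_iff.1 hc0
  obtain ⟨⟨p, hp⟩, ⟨q, hq⟩⟩ := hp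
  have hcre : c0.re = 1 + 3 * p := by linarith
  -- the divisibility
  have hdiv : ∀ j : ℕ, j < 3 → (u = om ^ j ∨ u = -om ^ j) → (3 : ℤ) ∣ -(x + y) * j + x * k := by
    intro j hj huj
    rcases Nat.lt_or_ge k 4 with hk | hk
    · have hfin : ∀ s : O, (s = om ^ j ∨ s = -om ^ j) →
          (s * lam ^ k * c0).re = 3 * x → (s * lam ^ k * c0).im = 3 * y →
          (3 : ℤ) ∣ -(x + y) * j + x * k := by
        intro s hs hre him
        interval_cases k <;> interval_cases j <;> rcases hs with rfl | rfl <;>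
          simp [lam, om, hcre, hq, pow_succ, QuadraticAlgebra.re_mul, QuadraticAlgebra.im_mul,
            QuadraticAlgebra.re_neg, QuadraticAlgebra.im_neg] at hre him ⊢ <;> omega
      exact hfin u huj hre him
    · obtain ⟨k', rfl⟩ := Nat.exists_eq_add_of_le hk
      have e4 : lam ^ 4 = 9 * om ^ 2 := by decide
      have e5 : u * lam ^ (4 + k') * c0 = 9 * (u * lam ^ k' * om ^ 2 * c0) := by
        rw [pow_add, e4]; ring
      rw [e5] at hre him
      set w := u * lam ^ k' * om ^ 2 * c0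
      have h9re : (9 * w).re = 9 * w.re := by
        simp [QuadraticAlgebra.re_mul, show (9 : O).re = 9 from rfl, show (9 : O).im = 0 from rfl]
      have h9im : (9 * w).im = 9 * w.im := by
        simp [QuadraticAlgebra.im_mul, show (9 : O).re = 9 from rfl, show (9 : O).im = 0 from rfl]
      rw [h9re] at hre
      rw [h9im] at him
      have hx : x = 3 * w.re := by omega
      have hy : y = 3 * w.im := by omega
      rw [hx, hy]
      exact ⟨-(w.re + w.im) * j + w.re * ((4 + k' : ℕ) : ℤ), by ring⟩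
  rcases isUnit_cases hu with e | e | e | e | e | e
  · have h3 := key 0 (hdiv 0 (by norm_num) (Or.inl (by rw [e, pow_zero])))
    rw [pow_zero] at h3
    rw [e] at h3 ⊢; exact h3
  · have h3 := key 1 (hdiv 1 (by norm_num) (Or.inl (by rw [e, pow_one])))
    rw [pow_one] at h3
    rw [e] at h3 ⊢; exact h3
  · have h3 := key 2 (hdiv 2 (by norm_num) (Or.inl (by rw [e])))
    rw [e] at h3 ⊢; exact h3
  · have h3 := key 0 (hdiv 0 (by norm_num) (Or.inr (by rw [e, pow_zero])))
    rw [pow_zero] at h3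
    rw [e] at h3 ⊢; rw [hneg, hneg]; exact h3
  · have h3 := key 1 (hdiv 1 (by norm_num) (Or.inr (by rw [e, pow_one])))
    rw [pow_one] at h3
    rw [e] at h3 ⊢; rw [hneg, hneg]; exact h3
  · have h3 := key 2 (hdiv 2 (by norm_num) (Or.inr (by rw [e])))
    rw [e] at h3 ⊢; rw [hneg, hneg]; exact h3

/-- `(c/(d+c)) = (c/d)` for `3 ∣ c` and `d` primary -/
theorem sym_add_self {c d : O} (hc : (3 : O) ∣ c) (hd : Primary d) : sym c (d + c) = sym c d := by
  by_cases hc0 : c = 0
  · subst hc0; rw [add_zero]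
  obtain ⟨u, c0, k, hu, hc0p, e⟩ := KU.exists_factor c hc0
  have hd' : Primary (d + c) := by
    show (3 : O) ∣ d + c - 1
    have : d + c - 1 = (d - 1) + c := by ring
    rw [this]; exact dvd_add hd hc
  obtain ⟨⟨m, hm⟩, ⟨n, hn⟩⟩ := primary_iff.1 hd
  obtain ⟨⟨x, hx⟩, ⟨y, hy⟩⟩ := dvd_three_iff.1 hc
  have h1 : sym (u * lam ^ k) (d + c) = sym (u * lam ^ k) d := by
    rw [e]
    exact sym_supp_add (m := m) (n := n) (x := x) (y := y) (by linarith) hn hc0p hu k
      (by rw [← e, hx]) (by rw [← e, hy])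
  have h2 : sym c0 (d + c) = sym c0 d := by
    rw [recip hc0p hd', recip hc0p hd]
    refine sym_periodic ?_
    rw [add_sub_cancel_left, e]
    exact Dvd.intro_left _ rfl
  calc sym c (d + c) = sym (u * lam ^ k * c0) (d + c) := by rw [← e]
    _ = sym (u * lam ^ k) (d + c) * sym c0 (d + c) := sym_mul_left _ _ _
    _ = sym (u * lam ^ k) d * sym c0 d := by rw [h1, h2]
    _ = sym (u * lam ^ k * c0) d := (sym_mul_left _ _ _).symm
    _ = sym c d := by rw [← e]

/-- the bijection `(c, d) ↦ (c, d + c)` of rows -/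
def rowT : H9.PP 1 ≃ H9.PP 1 where
  toFun p := ⟨(p.1.1, p.1.2 + p.1.1), by
    obtain ⟨⟨c, d⟩, h1, h2, h3, h4⟩ := p
    refine ⟨?_, h2, h3, ?_⟩
    · have := h1.add_mul_left_right 1
      simpa using this
    · have e : d + c - 1 = (d - 1) + c := by ring
      show (3 : O) ∣ d + c - 1
      rw [e]; exact dvd_add h4 h2⟩
  invFun p := ⟨(p.1.1, p.1.2 - p.1.1), by
    obtain ⟨⟨c, d⟩, h1, h2, h3, h4⟩ := p
    refine ⟨?_, h2, h3, ?_⟩
    · have := h1.add_mul_left_right (-1)
      simpa [sub_eq_add_neg] using this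
    · have e : d - c - 1 = (d - 1) - c := by ring
      show (3 : O) ∣ d - c - 1
      rw [e]; exact dvd_sub h4 h2⟩
  left_inv p := by ext <;> simp
  right_inv p := by ext <;> simp

/-- **invariance of the Eisenstein series under `z ↦ z + 1`** -/
theorem E_tr_one (f : ℝ → ℂ) (w : H3) : E 1 R1.eta f (KU.tr (1 : O) • w) = E 1 R1.eta f w := by
  rw [E, E, ← rowT.tsum_eq (fun p : H9.PP 1 => R1.eta p.1.1 p.1.2 * f (Q w (toC p.1.1) (toC p.1.2)))]
  refine tsum_congr fun p => ?_
  rw [Q_smul]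
  have e1 : p.1.1 * KU.tr (1 : O) 0 0 + p.1.2 * KU.tr (1 : O) 1 0 = p.1.1 := by simp [KU.tr]
  have e2 : p.1.1 * KU.tr (1 : O) 0 1 + p.1.2 * KU.tr (1 : O) 1 1 = p.1.2 + p.1.1 := by
    simp [KU.tr]; ring
  rw [e1, e2]
  have e3 : R1.eta p.1.1 (p.1.2 + p.1.1) = R1.eta p.1.1 p.1.2 := by
    rw [R1.eta, R1.eta, sym_add_self p.2.2.1 p.2.2.2.2]
  show _ = R1.eta p.1.1 (p.1.2 + p.1.1) * _
  rw [e3]
  rfl

/-- invariance under `z ↦ z + 3 x` -/
theorem E_tr_three (f : ℝ → ℂ) (x : O) (w : H3) :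
    E 1 R1.eta f (KU.tr (3 * x) • w) = E 1 R1.eta f w := by
  have hmem : KU.tr (3 * x) ∈ H9.Gam 1 := by
    rw [H9.Gam_one]
    refine ⟨?_, ?_, ?_, ?_⟩ <;> simp [KU.tr]
  have h := E_aut rowChar_eta 1 f _ hmem w
  have hχ : chiOf R1.eta (KU.tr (3 * x)) = 1 := by
    have e1 : KU.tr (3 * x) 1 0 = 0 := by simp [KU.tr]
    have e2 : KU.tr (3 * x) 1 1 = 1 := by simp [KU.tr]
    rw [chiOf, e1, e2, rowChar_eta.one, map_one]
  rw [hχ, one_mul] at h
  exact h

end Vale.Agent.P006.SG
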